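import Crest.Agent.R324.Defs

/-!
# Row 324, task ADM: additive operation with a product of matrices through dirty registers
-/

set_option autoImplicit false

noncomputable section

namespace Crest.Agent.R324

open Matrix Finset

namespace ADM

def Y {ι a : Type} [DecidableEq ι] (y : a → ι) : Matrix ι a ℂ := fun i k => if i = y k then 1 else 0

def Z {ι b : Type} [DecidableEq ι] (z : b → ι) : Matrix b ι ℂ := fun l j => if j = z l then 1 else 0

theorem Ad_eq {ι a b : Type} [Fintype ι] [DecidableEq ι] [Fintype a] [Fintype b] (y : a → ι)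
    (z : b → ι) (X : Matrix a b ℂ) : Ad y z X = 1 + Y y * X * Z z := by
  ext i j
  simp only [Ad, Matrix.add_apply, Matrix.one_apply, Matrix.mul_apply, Y, Z]
  congr 1
  simp only [Finset.sum_mul]
  rw [Finset.sum_comm]
  refine sum_congr rfl fun l _ => sum_congr rfl fun k _ => ?_
  by_cases h1 : i = y k <;> by_cases h2 : j = z l <;> simp [h1, h2]

theorem ZY_one {ι c : Type} [Fintype ι] [DecidableEq ι] [DecidableEq c] (w : c → ι)
    (hw : Function.Injective w) : Z w * Y w = 1 := by
  ext k l
  simp only [Matrix.mul_apply, Y, Z, Matrix.one_apply]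
  rw [Finset.sum_eq_single (w k)]
  · simp [hw.eq_iff]
  · intro i _ hi
    simp [hi]
  · intro h
    exact absurd (mem_univ _) h

theorem ZY_zero {ι b c : Type} [Fintype ι] [DecidableEq ι] (z : b → ι) (y : c → ι)
    (h : ∀ k l, y k ≠ z l) : Z z * Y y = 0 := by
  ext k l
  simp only [Matrix.mul_apply, Y, Z, Matrix.zero_apply]
  refine Finset.sum_eq_zero fun i _ => ?_
  by_cases h1 : i = z k
  · have : i ≠ y l := by rw [h1]; exact (h l k).symm
    simp [this]
  · simp [h1]

end ADM

open ADM in
theorem adMul : StAdMul := by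
  intro ι a b c _ _ _ _ _ _ _ _ y w z hy hw hz hyw hyz hwz P Q
  simp only [Ad_eq]
  have h1 : Z w * Y w = 1 := ZY_one w hw
  have h2 : Z w * Y y = 0 := ZY_zero w y hyw
  have h3 : Z z * Y y = 0 := ZY_zero z y hyz
  have h4 : Z z * Y w = 0 := ZY_zero z w hwz
  set A := Y y * P * Z w with hA
  set B := Y w * Q * Z z with hB
  have hAA : A * A = 0 := by
    rw [hA, show Y y * P * Z w * (Y y * P * Z w) = Y y * P * (Z w * Y y) * (P * Z w) by
      simp only [Matrix.mul_assoc], h2]
    simp
  have hBB : B * B = 0 := by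
    rw [hB, show Y w * Q * Z z * (Y w * Q * Z z) = Y w * Q * (Z z * Y w) * (Q * Z z) by
      simp only [Matrix.mul_assoc], h4]
    simp
  have hBA : B * A = 0 := by
    rw [hB, hA, show Y w * Q * Z z * (Y y * P * Z w) = Y w * Q * (Z z * Y y) * (P * Z w) by
      simp only [Matrix.mul_assoc], h3]
    simp
  have hAB : Y y * (P * Q) * Z z = A * B := by
    rw [hB, hA, show Y y * P * Z w * (Y w * Q * Z z) = Y y * P * (Z w * Y w) * (Q * Z z) by
      simp only [Matrix.mul_assoc], h1]
    simp [Matrix.mul_assoc]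
  have hnA : Y y * -P * Z w = -A := by rw [hA]; simp
  have hnB : Y w * -Q * Z z = -B := by rw [hB]; simp
  rw [hnA, hnB, hAB]
  have e : (1 + -A) * (1 + -B) * (1 + A) * (1 + B) = 1 + A * B - A * A - A * A * B
      - B * A - B * B - B * A * B + A * (B * A) + A * (B * B) + A * (B * A) * B := by
    noncomm_ring
  rw [e, hAA, hBB, hBA]
  simp

end Crest.Agent.R324
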