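import Crest.Agent.R324.CDefs

/-! # Row 324, ASMC: `StZB` -/

set_option autoImplicit false

noncomputable section

namespace Crest.Agent.R324

open Crest.FourierCircuit
open Matrix Finset

namespace ASMC

theorem exists_cost (inc : StInc) (b k : ℕ) : ∃ c, SC b k c := by
  induction k with
  | zero => exact ⟨0, inc.zero b⟩
  | succ k ih =>
    obtain ⟨c, hc⟩ := ih
    exact ⟨_, inc.succ b k c hc⟩

open Classical in
/-- optimal cost -/
def z (inc : StInc) (b k : ℕ) : ℕ := Nat.find (exists_cost inc b k)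

open Classical in
theorem z_spec (inc : StInc) (b k : ℕ) : SC b k (z inc b k) := Nat.find_spec (exists_cost inc b k)

open Classical in
theorem z_le (inc : StInc) (b k c : ℕ) (h : SC b k c) : z inc b k ≤ c :=
  Nat.find_min' (exists_cost inc b k) h

theorem z_zero (inc : StInc) (b : ℕ) : z inc b 0 = 0 :=
  Nat.le_zero.1 (z_le inc b 0 0 (inc.zero b))

/-- normalised cost -/
def tt (inc : StInc) (b k : ℕ) : ℝ := (z inc b k : ℝ) / ((b:ℝ) + 1) ^ k

theorem z_eq (inc : StInc) (b k : ℕ) : (z inc b k : ℝ) = tt inc b k * ((b:ℝ) + 1) ^ k := by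
  unfold tt
  have : ((b:ℝ) + 1) ^ k ≠ 0 := by positivity
  field_simp

theorem tt_zero (inc : StInc) (b : ℕ) : tt inc b 0 = 0 := by simp [tt, z_zero]

theorem tt_nonneg (inc : StInc) (b k : ℕ) : 0 ≤ tt inc b k := by unfold tt; positivity

theorem tt_succ (inc : StInc) (b k : ℕ) : tt inc b (k + 1) ≤ tt inc b k + 1 := by
  have h : (z inc b (k + 1) : ℝ) ≤ ((b:ℝ) + 1) * z inc b k + b * ((b:ℝ) + 1) ^ k := by
    exact_mod_cast z_le inc b (k + 1) _ (inc.succ b k _ (z_spec inc b k))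
  have hp : 0 < ((b:ℝ) + 1) ^ k := by positivity
  rw [tt, div_le_iff₀ (by positivity)]
  rw [z_eq inc b k] at h
  refine h.trans ?_
  rw [pow_succ]
  nlinarith

theorem card_le' {k : ℕ} (U : Finset (Fin k)) : U.card ≤ k := by
  simpa using U.card_le_univ

/-- first sum -/
theorem sum1 (inc : StInc) (b k : ℕ) :
    ((∑ U : Finset (Fin k), b ^ U.card * (b + 1) ^ (k - U.card) * z inc b U.card : ℕ) : ℝ) =
      ((b:ℝ) + 1) ^ (2 * k) * EB k ((b:ℝ) / (b + 1)) (tt inc b) := by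
  push_cast
  unfold EB
  rw [Finset.mul_sum]
  refine Finset.sum_congr rfl fun U _ => ?_
  have hU := card_le' U
  rw [z_eq]
  have hb : (b:ℝ) + 1 ≠ 0 := by positivity
  have h1 : 1 - (b:ℝ) / (b + 1) = 1 / (b + 1) := by field_simp; ring
  have h2 : ((b:ℝ) + 1) ^ (2 * k) = ((b:ℝ) + 1) ^ U.card * ((b:ℝ) + 1) ^ (k - U.card) *
      (((b:ℝ) + 1) ^ U.card * ((b:ℝ) + 1) ^ (k - U.card)) := by
    rw [← pow_add, ← pow_add]
    congr 1
    omega
  rw [h1, h2, div_pow, div_pow, one_pow]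
  field_simp

/-- second sum -/
theorem sum2 (inc : StInc) (b k : ℕ) :
    ((∑ U : Finset (Fin k), (b * b) ^ (k - U.card) * z inc (2 * b) U.card : ℕ) : ℝ) =
      ((b:ℝ) + 1) ^ (2 * k) * EB k ((2 * (b:ℝ) + 1) / (b + 1) ^ 2) (tt inc (2 * b)) := by
  push_cast
  unfold EB
  rw [Finset.mul_sum]
  refine Finset.sum_congr rfl fun U _ => ?_
  have hU := card_le' U
  rw [z_eq]
  have hb : (b:ℝ) + 1 ≠ 0 := by positivity
  have h1 : 1 - (2 * (b:ℝ) + 1) / (b + 1) ^ 2 = (b * b) / (b + 1) ^ 2 := by field_simp; ring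
  have h2 : ((b:ℝ) + 1) ^ (2 * k) = (((b:ℝ) + 1) ^ 2) ^ U.card * (((b:ℝ) + 1) ^ 2) ^ (k - U.card) := by
    rw [← pow_mul, ← pow_mul, ← pow_add]
    congr 1
    omega
  have h3 : 2 * (b:ℝ) + 1 ≠ 0 := by positivity
  rw [h1, h2, div_pow, div_pow]
  push_cast
  have h4 : (((b:ℝ) + 1) ^ 2) ^ U.card ≠ 0 := by positivity
  have h5 : (((b:ℝ) + 1) ^ 2) ^ (k - U.card) ≠ 0 := by positivity
  field_simp

theorem rec1 (inc : StInc) (lib : Lib) (tm : StTensMul) (blk : StBlk) (dbl : StDbl) (b k : ℕ) :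
    tt inc b (2 * k) ≤ 2 * EB k ((b:ℝ) / (b + 1)) (tt inc b) +
      1 * EB k ((2 * (b:ℝ) + 1) / (b + 1) ^ 2) (tt inc (2 * b)) := by
  have h := z_le inc b (2 * k) _ (dbl lib tm blk b (z inc b) (z inc (2 * b)) (z_spec inc b)
    (z_spec inc (2 * b)) k)
  have h' : (z inc b (2 * k) : ℝ) ≤
    2 * ((∑ U : Finset (Fin k), b ^ U.card * (b + 1) ^ (k - U.card) * z inc b U.card : ℕ) : ℝ) +
      ((∑ U : Finset (Fin k), (b * b) ^ (k - U.card) * z inc (2 * b) U.card : ℕ) : ℝ) := by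
    exact_mod_cast h
  rw [sum1, sum2, z_eq] at h'
  have hp : 0 < ((b:ℝ) + 1) ^ (2 * k) := by positivity
  refine le_of_mul_le_mul_right ?_ hp
  linarith

theorem sum3 (inc : StInc) (B k : ℕ) (hB : 2 ≤ (B + 1) ^ 3) :
    ((∑ U : Finset (Fin k), ((B + 1) ^ 3 - 2) ^ (k - U.card) * z inc 1 U.card : ℕ) : ℝ) =
      ((B:ℝ) + 1) ^ (3 * k) * EB k (2 / ((B:ℝ) + 1) ^ 3) (tt inc 1) := by
  push_cast
  rw [Nat.cast_sub hB]
  unfold EB
  rw [Finset.mul_sum]
  refine Finset.sum_congr rfl fun U _ => ?_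
  have hU := card_le' U
  rw [z_eq]
  have hb : ((B:ℝ) + 1) ^ 3 ≠ 0 := by positivity
  have h1 : 1 - 2 / ((B:ℝ) + 1) ^ 3 = (((B:ℝ) + 1) ^ 3 - 2) / (B + 1) ^ 3 := by field_simp
  have h2 : ((B:ℝ) + 1) ^ (3 * k) = (((B:ℝ) + 1) ^ 3) ^ U.card * (((B:ℝ) + 1) ^ 3) ^ (k - U.card) := by
    rw [← pow_mul, ← pow_mul, ← pow_add]
    congr 1
    omega
  rw [h1, h2, div_pow, div_pow]
  push_cast
  have h4 : (((B:ℝ) + 1) ^ 3) ^ U.card ≠ 0 := by positivity
  have h5 : (((B:ℝ) + 1) ^ 3) ^ (k - U.card) ≠ 0 := by positivity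
  have h6 : (1:ℝ) + 1 = 2 := by norm_num
  rw [h6]
  field_simp

theorem rec2 (inc : StInc) (lib : Lib) (te : StTens) (tm : StTensMul) (trv : StTrv) (B n k : ℕ)
    (hB : 2 ≤ (B + 1) ^ 3) (h : StarSched 3 B n) :
    tt inc B (3 * k) ≤ 2 * n + n * EB k (2 / ((B:ℝ) + 1) ^ 3) (tt inc 1) := by
  have h := z_le inc B (3 * k) _ (trv lib te tm B n (z inc 1) h (z_zero inc 1)
    (fun j => inc.z_of j _ (z_spec inc 1 j)) k)
  have h' : (z inc B (3 * k) : ℝ) ≤ n * (2 * (((B:ℝ) + 1) ^ 3) ^ k +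
    ((∑ U : Finset (Fin k), ((B + 1) ^ 3 - 2) ^ (k - U.card) * z inc 1 U.card : ℕ) : ℝ)) := by
    exact_mod_cast h
  rw [sum3 inc B k hB, z_eq, ← pow_mul] at h'
  have hp : 0 < ((B:ℝ) + 1) ^ (3 * k) := by positivity
  refine le_of_mul_le_mul_right ?_ hp
  linarith

/-- the list of the recursion -/
def LL (i : Fin 9) : List (ℝ × Fin 9 × ℝ) :=
  if h : i.1 < 8 then [(2, i, (2:ℝ) ^ i.1 / (2 ^ i.1 + 1)),
    (1, ⟨i.1 + 1, by omega⟩, (2 * (2:ℝ) ^ i.1 + 1) / (2 ^ i.1 + 1) ^ 2)]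
  else [((RR : ℝ), 0, 2 / (257:ℝ) ^ 3)]

def mm (i : Fin 9) : ℕ := if i.1 < 8 then 2 else 3

end ASMC

open ASMC in
theorem zb : StZB := by
  intro lib te tm blk dbl trv inc sys cont num sch
  obtain ⟨c, hc0, hc1, hc2⟩ := num
  obtain ⟨h0, h1⟩ := cont
  have key := sys 9 (fun i k => tt inc (2 ^ i.1) k) mm (2 * RR) savingExponent LL
    (fun i => c i.1) (by
      intro i; unfold mm; split_ifs <;> norm_num) h0 h1 (by positivity) (fun i => hc0 _) (by
      intro i p hp
      unfold LL at hp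
      split_ifs at hp with h
      · simp only [List.mem_cons, List.not_mem_nil, or_false] at hp
        rcases hp with rfl | rfl
        · refine ⟨by norm_num, by positivity, ?_⟩
          simp only
          rw [div_le_one (by positivity)]
          linarith
        · refine ⟨by norm_num, by positivity, ?_⟩
          simp only
          rw [div_le_one (by positivity)]
          nlinarith [sq_nonneg ((2:ℝ) ^ i.1)]
      · simp only [List.mem_cons, List.not_mem_nil, or_false] at hp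
        subst hp
        refine ⟨by positivity, by positivity, ?_⟩
        norm_num) (fun i => tt_zero inc _) (fun i k => tt_nonneg inc _ k)
      (fun i k => tt_succ inc _ k) (by
      intro i k
      unfold mm LL
      by_cases h : i.1 < 8
      · rw [if_pos h, dif_pos h]
        have h2 := rec1 inc lib tm blk dbl (2 ^ i.1) k
        simp only [List.map_cons, List.map_nil, List.sum_cons, List.sum_nil, add_zero]
        push_cast at h2
        have h3 : 2 ^ (i.1 + 1) = 2 * 2 ^ i.1 := by ring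
        rw [h3]
        have h4 : (0:ℝ) ≤ 2 * (RR:ℝ) := by positivity
        linarith
      · rw [if_neg h, dif_neg h]
        have hi : i.1 = 8 := by omega
        have h2 := rec2 inc lib te tm trv 256 RR k (by norm_num) sch
        simp only [List.map_cons, List.map_nil, List.sum_cons, List.sum_nil, add_zero]
        rw [hi]
        norm_num at h2 ⊢
        exact h2) (by
      intro i
      unfold mm LL
      by_cases h : i.1 < 8
      · rw [if_pos h, dif_pos h]
        have h2 := hc1 i.1 h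
        simp only [List.map_cons, List.map_nil, List.sum_cons, List.sum_nil, add_zero, one_mul]
        exact_mod_cast h2
      · rw [if_neg h, dif_neg h]
        have hi : i.1 = 8 := by omega
        simp only [List.map_cons, List.map_nil, List.sum_cons, List.sum_nil, add_zero]
        rw [hi]
        exact_mod_cast hc2)
  obtain ⟨K, hK, hk⟩ := key
  refine ⟨K, hK, fun j => z inc 1 j, fun j => inc.z_of j _ (z_spec inc 1 j), fun j => ?_⟩
  have h2 := hk 0 j
  simp only [Fin.val_zero, pow_zero] at h2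
  rw [z_eq]
  have h3 : (0:ℝ) < ((1:ℕ):ℝ) + 1 := by norm_num
  have h4 : ((1:ℕ):ℝ) + 1 = 2 := by norm_num
  rw [h4]
  have h5 : (0:ℝ) < 2 ^ j := by positivity
  calc tt inc 1 j * 2 ^ j ≤ (K * (j:ℝ) ^ savingExponent) * 2 ^ j :=
        mul_le_mul_of_nonneg_right h2 h5.le
    _ = _ := by ring

end Crest.Agent.R324
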