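import Crest.Agent.R324.Defs

set_option autoImplicit false

noncomputable section

namespace Crest.Agent.R324

open Crest.FourierCircuit
open Matrix Finset

theorem asm (lib : Lib) (circ : StCirc) (cont : StCont) (hb : HB) (tens_ : StTens)
    (tensMul : StTensMul) (rec_ : StRec) (tensSteps : StTensSteps) (qb : StQB) (slib : SLib)
    (fft : StFFT) (toep : StToep) (adMul : StAdMul) (lt : StLT) (inp : StInp) (gt : StGT)
    (pick : StPick) (out : StOut) (fin : StFin) :
    ∃ C : ℝ, ∃ N₀ : ℕ, ∀ n ≥ N₀, ∃ P : LinCircuit n,
      P.Computes (dftMatrix n) ∧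
        (P.size : ℝ) ≤ C * n * Real.log n ^ savingExponent *
          Real.log (Real.log n) ^ (4 - savingExponent) := by
  obtain ⟨K, hK, hz⟩ := rec_ lib tens_ tensMul savingExponent cont.1 cont.2 hb
  exact fin lib circ tensSteps tens_ tensMul gt pick out qb
    (inp slib qb (lt slib fft toep adMul)) savingExponent K cont.1 cont.2 hK hz

end Crest.Agent.R324
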