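import Crest.Agent.R324.BTS

set_option autoImplicit false

noncomputable section

namespace Crest.Agent.R324

open Matrix Finset

namespace BWin

open Classical in
/-- add bit `g` when `p` holds -/
def lay {b : ℕ} (g : Fin b) (p : (Fin b → Bool) → Prop) : TS (Fin b → Bool) where
  σ := fun x => Function.update x g (!x g)
  T := fun x => x g && decide (p x)
  c := 1
  inv := by
    intro x
    simp
  ht := by
    intro x h
    simp only [Bool.and_eq_true] at h
    simp [h.1]
  hc := one_ne_zero

theorem lay_T {b : ℕ} (g : Fin b) (p : (Fin b → Bool) → Prop) (x : Fin b → Bool) :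
    (lay g p).T x = true ↔ x g = true ∧ p x := by
  simp [lay]

open Classical in
theorem lay_op {b : ℕ} (g : Fin b) (p : (Fin b → Bool) → Prop) (v : (Fin b → Bool) → ℂ)
    (x : Fin b → Bool) :
    (lay g p).op v x = v x + if x g = true ∧ p x then v (Function.update x g false) else 0 := by
  unfold TS.op
  simp only [lay_T]
  by_cases h : x g = true ∧ p x
  · simp [h, lay]
  · simp [h]

def pE {b : ℕ} (g : Fin b) (x : Fin b → Bool) : Prop :=
  (∀ h, h < g → x h = false) ∧ ∃ h, g < h ∧ x h = true
def pS {b : ℕ} (g : Fin b) (x : Fin b → Bool) : Prop := ∀ h, h ≠ g → x h = false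
def pL {b : ℕ} (g : Fin b) (x : Fin b → Bool) : Prop := ∃ h, h < g ∧ x h = true

def lE (b : ℕ) : List (TS (Fin b → Bool)) := (List.finRange b).reverse.map fun g => lay g (pE g)
def lS (b : ℕ) : List (TS (Fin b → Bool)) := (List.finRange b).map fun g => lay g (pS g)
def lL (b : ℕ) : List (TS (Fin b → Bool)) := (List.finRange b).map fun g => lay g (pL g)
def lZ (b : ℕ) : List (TS (Fin b → Bool)) := (List.finRange b).map fun g => lay g (fun _ => True)

/-- layers never change the register `0` -/
theorem run_zero {b : ℕ} (L : List (Fin b)) (p : Fin b → (Fin b → Bool) → Prop)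
    (v : (Fin b → Bool) → ℂ) :
    TS.run (L.map fun g => lay g (p g)) v (fun _ => false) = v (fun _ => false) := by
  induction L with
  | nil => rfl
  | cons g L ih => rw [List.map_cons, TS.run_cons, lay_op]; simp [ih]

/-- layers on the bits `≥ 1` -/
theorem run_succ {b : ℕ} (L : List (Fin b)) (p : Fin b → (Fin (b + 1) → Bool) → Prop)
    (v : (Fin (b + 1) → Bool) → ℂ) (a : Bool) (x : Fin b → Bool) :
    TS.run (L.map fun g => lay g.succ (p g)) v (Fin.cons a x) =
      TS.run (L.map fun g => lay g (fun x => p g (Fin.cons a x)))
        (fun y => v (Fin.cons a y)) x := by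
  induction L generalizing x with
  | nil => rfl
  | cons g L ih =>
    rw [List.map_cons, TS.run_cons, lay_op, List.map_cons, TS.run_cons, lay_op, ih]
    congr 1
    have hc : (Fin.cons a x : Fin (b + 1) → Bool) g.succ = x g := Fin.cons_succ _ _ _
    by_cases h : x g = true ∧ p g (Fin.cons a x)
    · rw [if_pos h, if_pos (by rw [hc]; exact h), ← ih, ← Fin.cons_update]
    · rw [if_neg h, if_neg (by rw [hc]; exact h)]

theorem run_triv {b : ℕ} (L : List (Fin b)) (p : Fin b → (Fin b → Bool) → Prop)
    (hp : ∀ g x, ¬ p g x) (v : (Fin b → Bool) → ℂ) :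
    TS.run (L.map fun g => lay g (p g)) v = v := by
  induction L with
  | nil => rfl
  | cons g L ih =>
    rw [List.map_cons, TS.run_cons, ih]
    ext x
    rw [lay_op]
    simp [hp]

theorem run_congr {b : ℕ} (L : List (Fin b)) (p p' : Fin b → (Fin b → Bool) → Prop)
    (hp : ∀ g x, p g x ↔ p' g x) :
    (L.map fun g => lay g (p g)) = L.map fun g => lay g (p' g) := by
  congr 1
  ext g
  have : p g = p' g := by ext x; exact hp g x
  rw [this]

theorem pE_succ {b : ℕ} (g : Fin b) (a : Bool) (x : Fin b → Bool) :
    pE g.succ (Fin.cons a x : Fin (b + 1) → Bool) ↔ a = false ∧ pE g x := by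
  unfold pE
  constructor
  · rintro ⟨h1, h, hg, hx⟩
    refine ⟨by simpa using h1 0 (Fin.succ_pos g), ?_, ?_⟩
    · intro h' hh'
      simpa using h1 h'.succ (Fin.succ_lt_succ_iff.2 hh')
    · obtain ⟨h', rfl⟩ : ∃ h', h = Fin.succ h' :=
        ⟨h.pred (Fin.pos_iff_ne_zero.1 (lt_trans (Fin.succ_pos g) hg)), by simp⟩
      exact ⟨h', Fin.succ_lt_succ_iff.1 hg, by simpa using hx⟩
  · rintro ⟨rfl, h1, h, hg, hx⟩
    refine ⟨?_, h.succ, Fin.succ_lt_succ_iff.2 hg, by simpa using hx⟩
    intro h' hh'
    induction h' using Fin.cases with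
    | zero => simp
    | succ i => simpa using h1 i (Fin.succ_lt_succ_iff.1 hh')

theorem pS_succ {b : ℕ} (g : Fin b) (a : Bool) (x : Fin b → Bool) :
    pS g.succ (Fin.cons a x : Fin (b + 1) → Bool) ↔ a = false ∧ pS g x := by
  unfold pS
  constructor
  · intro h1
    refine ⟨by simpa using h1 0 (Fin.succ_ne_zero g).symm, ?_⟩
    intro h' hh'
    simpa using h1 h'.succ (by simpa using hh')
  · rintro ⟨rfl, h1⟩ h' hh'
    induction h' using Fin.cases with
    | zero => simp
    | succ i => simpa using h1 i (by simpa using hh')

theorem pL_succ {b : ℕ} (g : Fin b) (a : Bool) (x : Fin b → Bool) :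
    pL g.succ (Fin.cons a x : Fin (b + 1) → Bool) ↔ a = true ∨ pL g x := by
  unfold pL
  constructor
  · rintro ⟨h', hh', hx⟩
    induction h' using Fin.cases with
    | zero => left; simpa using hx
    | succ i => right; exact ⟨i, Fin.succ_lt_succ_iff.1 hh', by simpa using hx⟩
  · rintro (rfl | ⟨h', hh', hx⟩)
    · exact ⟨0, Fin.succ_pos g, by simp⟩
    · exact ⟨h'.succ, Fin.succ_lt_succ_iff.2 hh', by simpa using hx⟩

theorem pE_zero {b : ℕ} (a : Bool) (x : Fin b → Bool) :
    pE 0 (Fin.cons a x : Fin (b + 1) → Bool) ↔ x ≠ fun _ => false := by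
  unfold pE
  constructor
  · rintro ⟨_, h, hg, hx⟩ rfl
    obtain ⟨h', rfl⟩ : ∃ h', h = Fin.succ h' :=
      ⟨h.pred (Fin.pos_iff_ne_zero.1 hg), by simp⟩
    simp at hx
  · intro hx
    refine ⟨fun h hh => absurd hh (by simp), ?_⟩
    by_contra hc
    push Not at hc
    apply hx
    ext i
    simpa using hc i.succ (Fin.succ_pos i)

theorem pS_zero {b : ℕ} (a : Bool) (x : Fin b → Bool) :
    pS 0 (Fin.cons a x : Fin (b + 1) → Bool) ↔ x = fun _ => false := by
  unfold pS
  constructor
  · intro h
    ext i
    simpa using h i.succ (Fin.succ_ne_zero i)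
  · rintro rfl h hh
    induction h using Fin.cases with
    | zero => exact absurd rfl hh
    | succ i => simp

theorem pL_zero {b : ℕ} (x : Fin (b + 1) → Bool) : ¬ pL 0 x := by
  rintro ⟨h, hh, _⟩
  simp at hh

theorem _root_.Crest.Agent.R324.TS.run_add {ι : Type} (l : List (TS ι)) (v w : ι → ℂ) :
    TS.run l (fun i => v i + w i) = fun i => TS.run l v i + TS.run l w i := by
  induction l with
  | nil => rfl
  | cons s l ih =>
    rw [TS.run_cons, ih]
    ext i
    simp only [TS.op, TS.run_cons]
    split_ifs <;> ring

/-- `Z = L S E` on a window -/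
theorem main (b : ℕ) (v : (Fin b → Bool) → ℂ) :
    TS.run (lL b) (TS.run (lS b) (TS.run (lE b) v)) = TS.run (lZ b) v := by
  induction b with
  | zero => rfl
  | succ b ih =>
    ext x
    obtain ⟨a, y, rfl⟩ : ∃ a y, x = (Fin.cons a y : Fin (b + 1) → Bool) :=
      ⟨x 0, Fin.tail x, (Fin.cons_self_tail x).symm⟩
    -- E phase
    have hE : ∀ a y, TS.run (lE (b + 1)) v (Fin.cons a y) =
        TS.run (if a = false then lE b else [])
          (fun z => v (Fin.cons a z) + if a = true ∧ z ≠ (fun _ => false) then
            v (Fin.cons false z) else 0) y := by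
      intro a y
      have e1 : lE (b + 1) = ((List.finRange b).reverse.map fun g => lay g.succ (pE g.succ)) ++
          [lay 0 (pE 0)] := by
        unfold lE
        rw [List.finRange_succ, List.reverse_cons, List.map_append, ← List.map_reverse,
          List.map_map]
        rfl
      rw [e1, TS.run_append, run_succ]
      have e2 : (fun y => TS.run [lay 0 (pE 0)] v (Fin.cons a y : Fin (b + 1) → Bool)) =
          (fun z => v (Fin.cons a z) + if a = true ∧ z ≠ (fun _ => false) then
            v (Fin.cons false z) else 0) := by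
        ext z
        rw [TS.run_cons, TS.run_nil, lay_op]
        simp only [Fin.cons_zero, pE_zero, Fin.update_cons_zero]
      rw [e2]
      cases a with
      | false =>
        rw [if_pos rfl, run_congr _ _ (fun g => pE g) (fun g x => by rw [pE_succ]; simp)]
        rfl
      | true =>
        rw [if_neg (by simp), run_triv _ _ (fun g x => by rw [pE_succ]; simp)]
        rfl
    have hS : ∀ (w : (Fin (b + 1) → Bool) → ℂ) a y, TS.run (lS (b + 1)) w (Fin.cons a y) =
        (TS.run (if a = false then lS b else []) (fun z => w (Fin.cons a z)) y) +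
          if a = true ∧ y = (fun _ => false) then w (Fin.cons false (fun _ => false)) else 0 := by
      intro w a y
      have e1 : lS (b + 1) = lay 0 (pS 0) ::
          ((List.finRange b).map fun g => lay g.succ (pS g.succ)) := by
        unfold lS
        rw [List.finRange_succ, List.map_cons, List.map_map]
        rfl
      rw [e1, TS.run_cons, lay_op]
      simp only [Fin.cons_zero, pS_zero, Fin.update_cons_zero]
      congr 1
      · rw [run_succ]
        cases a with
        | false =>
          rw [if_pos rfl, run_congr _ _ (fun g => pS g) (fun g x => by rw [pS_succ]; simp)]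
          rfl
        | true =>
          rw [if_neg (by simp), run_triv _ _ (fun g x => by rw [pS_succ]; simp)]
          rfl
      · by_cases h : a = true ∧ y = fun _ => false
        · rw [if_pos h, if_pos h, h.2, run_succ, run_zero]
        · rw [if_neg h, if_neg h]
    have hL : ∀ (w : (Fin (b + 1) → Bool) → ℂ) a y, TS.run (lL (b + 1)) w (Fin.cons a y) =
        (TS.run (if a = false then lL b else lZ b) (fun z => w (Fin.cons a z)) y) := by
      intro w a y
      have e1 : lL (b + 1) = lay 0 (pL 0) ::
          ((List.finRange b).map fun g => lay g.succ (pL g.succ)) := by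
        unfold lL
        rw [List.finRange_succ, List.map_cons, List.map_map]
        rfl
      rw [e1, TS.run_cons, lay_op, if_neg (fun h => pL_zero _ h.2), add_zero, run_succ]
      cases a with
      | false =>
        rw [if_pos rfl, run_congr _ _ (fun g => pL g) (fun g x => by rw [pL_succ]; simp)]
        rfl
      | true =>
        rw [if_neg (by simp), run_congr _ _ (fun _ _ => True) (fun g x => by rw [pL_succ]; simp)]
        rfl
    have hZ : ∀ (w : (Fin (b + 1) → Bool) → ℂ) a y, TS.run (lZ (b + 1)) w (Fin.cons a y) =
        (TS.run (lZ b) (fun z => w (Fin.cons a z)) y) +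
          if a = true then TS.run (lZ b) (fun z => w (Fin.cons false z)) y else 0 := by
      intro w a y
      have e1 : lZ (b + 1) = lay 0 (fun _ => True) ::
          ((List.finRange b).map fun g => lay g.succ (fun _ => True)) := by
        unfold lZ
        rw [List.finRange_succ, List.map_cons, List.map_map]
        rfl
      rw [e1, TS.run_cons, lay_op]
      simp only [Fin.cons_zero, and_true, Fin.update_cons_zero, run_succ]
      rfl
    rw [hZ, hL]
    cases a with
    | false =>
      simp only [if_true, hS, hE, Bool.false_eq_true, false_and, if_false, add_zero]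
      exact congrFun (ih _) y
    | true =>
      simp only [Bool.true_eq_false, if_false, if_true, hS, hE, true_and, TS.run_nil]
      have key : (fun z : Fin b → Bool => (v (Fin.cons true z) + (if z ≠ fun _ => false then
          v (Fin.cons false z) else 0)) + (if z = fun _ => false then
            TS.run (lE b) (fun z => v (Fin.cons false z) + if false = true ∧ z ≠ (fun _ => false)
              then v (Fin.cons false z) else 0) (fun _ => false) else 0)) =
          fun z => v (Fin.cons true z) + v (Fin.cons false z) := by
        ext z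
        by_cases hz : z = fun _ => false
        · subst hz
          have : TS.run (lE b) (fun z : Fin b → Bool => v (Fin.cons false z)) (fun _ => false) =
              v (Fin.cons false fun _ => false) := run_zero _ _ _
          simp [this]
        · simp [hz]
      rw [key]
      have := TS.run_add (lZ b) (fun z => v (Fin.cons true z)) (fun z => v (Fin.cons false z))
      exact congrFun this y

theorem lZ_run (b : ℕ) (v : (Fin b → Bool) → ℂ) (x : Fin b → Bool) :
    TS.run (lZ b) v x = ∑ y, if ∀ s, y s = true → x s = true then v y else 0 := by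
  induction b with
  | zero =>
    rw [Fintype.sum_eq_single x (fun y hy => absurd (Subsingleton.elim y x) hy), if_pos (by
      intro s; exact s.elim0)]
    rfl
  | succ b ih =>
    obtain ⟨a, y, rfl⟩ : ∃ a y, x = (Fin.cons a y : Fin (b + 1) → Bool) :=
      ⟨x 0, Fin.tail x, (Fin.cons_self_tail x).symm⟩
    have e1 : lZ (b + 1) = lay 0 (fun _ => True) ::
        ((List.finRange b).map fun g => lay g.succ (fun _ => True)) := by
      unfold lZ
      rw [List.finRange_succ, List.map_cons, List.map_map]
      rfl
    have e2 : TS.run (lZ (b + 1)) v (Fin.cons a y) =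
        (TS.run (lZ b) (fun z => v (Fin.cons a z)) y) +
          if a = true then TS.run (lZ b) (fun z => v (Fin.cons false z)) y else 0 := by
      rw [e1, TS.run_cons, lay_op]
      simp only [Fin.cons_zero, and_true, Fin.update_cons_zero, run_succ]
      rfl
    rw [e2, ih, ih]
    have e3 : ∀ F : (Fin (b + 1) → Bool) → ℂ, ∑ z, F z =
        (∑ z : Fin b → Bool, F (Fin.cons true z)) + ∑ z : Fin b → Bool, F (Fin.cons false z) := by
      intro F
      rw [← (Fin.consEquiv (fun _ : Fin (b + 1) => Bool)).sum_comp, Fintype.sum_prod_type,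
        Fintype.sum_bool]
      rfl
    rw [e3]
    have hc : ∀ (a' : Bool) (z : Fin b → Bool),
        (∀ s, (Fin.cons a' z : Fin (b + 1) → Bool) s = true →
          (Fin.cons a y : Fin (b + 1) → Bool) s = true) ↔
        ((a' = true → a = true) ∧ ∀ s, z s = true → y s = true) := by
      intro a' z
      rw [Fin.forall_fin_succ]
      simp
    cases a with
    | false => simp [hc]
    | true =>
      simp [hc]

theorem lZ_prod (b : ℕ) : ((lZ b).map TS.mat).prod = ZP (Fin b) := by
  apply TS.eq_of_mulVec
  intro v
  ext x
  rw [TS.prod_mulVec, lZ_run]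
  simp only [Matrix.mulVec, dotProduct, ZP, ite_mul, one_mul, zero_mul]

theorem lLSE_prod (b : ℕ) : ((lL b).map TS.mat).prod * ((lS b).map TS.mat).prod *
    ((lE b).map TS.mat).prod = ZP (Fin b) := by
  rw [← lZ_prod]
  apply TS.eq_of_mulVec
  intro v
  rw [← Matrix.mulVec_mulVec, ← Matrix.mulVec_mulVec, TS.prod_mulVec, TS.prod_mulVec,
    TS.prod_mulVec, TS.prod_mulVec, main]

theorem q_add {b : ℕ} (g : Fin b) :
    (lay g (pL g)).q + (lay g (pS g)).q + (lay g (pE g)).q = 2 ^ (b - 1) := by
  classical
  unfold TS.q
  simp only [lay_T]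
  have h1 : (univ.filter fun x : Fin b → Bool => x g = true).card = 2 ^ (b - 1) := by
    have : (univ.filter fun x : Fin b → Bool => x g = true) =
        Fintype.piFinset (fun i : Fin b => if i = g then {true} else univ) := by
      ext x
      simp only [mem_filter, mem_univ, true_and, Fintype.mem_piFinset]
      constructor
      · intro h i
        by_cases hi : i = g
        · subst hi; simp [h]
        · simp [hi]
      · intro h
        simpa using h g
    rw [this, Fintype.card_piFinset]
    rw [← Finset.mul_prod_erase univ _ (mem_univ g)]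
    rw [Finset.prod_congr rfl (g := fun _ => 2) (fun i hi => by
      rw [if_neg (Finset.ne_of_mem_erase hi)]; simp)]
    simp [Finset.card_erase_of_mem]
  rw [← h1]
  have d1 : Disjoint (univ.filter fun x : Fin b → Bool => x g = true ∧ pL g x)
      (univ.filter fun x : Fin b → Bool => x g = true ∧ pS g x) := by
    rw [Finset.disjoint_filter]
    rintro x _ ⟨_, h, hh, hx⟩ ⟨_, h2⟩
    have := h2 h hh.ne
    rw [this] at hx
    exact absurd hx (by simp)
  rw [← Finset.card_union_of_disjoint d1]
  have d2 : Disjoint ((univ.filter fun x : Fin b → Bool => x g = true ∧ pL g x) ∪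
      (univ.filter fun x : Fin b → Bool => x g = true ∧ pS g x))
      (univ.filter fun x : Fin b → Bool => x g = true ∧ pE g x) := by
    rw [Finset.disjoint_left]
    intro x hx
    simp only [mem_union, mem_filter, mem_univ, true_and] at hx ⊢
    rintro ⟨_, h3, h, hh, hx3⟩
    rcases hx with ⟨_, h', hh', hx'⟩ | ⟨_, h2⟩
    · have := h3 h' hh'
      rw [this] at hx'
      exact absurd hx' (by simp)
    · have := h2 h hh.ne'
      rw [this] at hx3
      exact absurd hx3 (by simp)
  rw [← Finset.card_union_of_disjoint d2]
  congr 1
  ext x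
  simp only [mem_union, mem_filter, mem_univ, true_and]
  constructor
  · rintro ((h | h) | h) <;> exact h.1
  · intro h
    by_cases hL : pL g x
    · exact Or.inl (Or.inl ⟨h, hL⟩)
    by_cases hS : pS g x
    · exact Or.inl (Or.inr ⟨h, hS⟩)
    refine Or.inr ⟨h, ?_, ?_⟩
    · intro k hk
      by_contra hc
      exact hL ⟨k, hk, by simpa using hc⟩
    · by_contra hc
      apply hS
      intro k hk
      by_contra hx
      rcases lt_or_gt_of_ne hk with h1 | h1
      · exact hL ⟨k, h1, by simpa using hx⟩
      · exact hc ⟨k, h1, by simpa using hx⟩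

theorem tot_LSE (b : ℕ) : TS.tot (lL b) + TS.tot (lS b) + TS.tot (lE b) = b * 2 ^ (b - 1) := by
  have hE : TS.tot (lE b) = ((List.finRange b).map fun g => (lay g (pE g)).q).sum := by
    unfold TS.tot lE
    rw [List.map_map, List.map_reverse, List.sum_reverse]
    rfl
  have hS : TS.tot (lS b) = ((List.finRange b).map fun g => (lay g (pS g)).q).sum := by
    unfold TS.tot lS
    rw [List.map_map]
    rfl
  have hL : TS.tot (lL b) = ((List.finRange b).map fun g => (lay g (pL g)).q).sum := by
    unfold TS.tot lL
    rw [List.map_map]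
    rfl
  rw [hE, hS, hL, ← List.sum_map_add, ← List.sum_map_add]
  have : ((List.finRange b).map fun g => (lay g (pL g)).q + (lay g (pS g)).q + (lay g (pE g)).q) =
      (List.finRange b).map fun _ => 2 ^ (b - 1) := by
    apply List.map_congr_left
    intro g _
    exact q_add g
  rw [this]
  simp

theorem len_lE (b : ℕ) : (lE b).length = b := by simp [lE]
theorem len_lS (b : ℕ) : (lS b).length = b := by simp [lS]
theorem len_lL (b : ℕ) : (lL b).length = b := by simp [lL]

end BWin

end Crest.Agent.R324
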