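import Crest.Agent.R324.BGen
import Crest.Agent.R324.BWin

set_option autoImplicit false

noncomputable section

namespace Crest.Agent.R324

open Matrix Finset

/-- layered programs for `star_b^{⊗ R}`: at most `N` layers, at most `T` transvections -/
def StarTS (R b N T : ℕ) : Prop :=
  ∃ l : List (TS (Fin R → Option (Fin b))), l.length ≤ N ∧ TS.tot l ≤ T ∧
    ∀ f c, TS.run l f c = starop R b f c

theorem starTS_of_sched (r b n : ℕ) (h : StarSched r b n) : StarTS r b n n := by
  obtain ⟨l, hn, hne, hrun⟩ := h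
  have hc : ∀ p ∈ l, ((p.2.2 : ℤ) : ℂ) ≠ 0 := fun p hp => by exact_mod_cast (hne p hp).2
  let f : {p // p ∈ l} → TS (Fin r → Option (Fin b)) := fun p =>
    TS.tv p.1.1 p.1.2.1 (hne p.1 p.2).1 ((p.1.2.2 : ℤ) : ℂ) (hc p.1 p.2)
  refine ⟨(l.attach.map f).reverse, ?_, ?_, ?_⟩
  · simpa using hn
  · have : TS.tot (l.attach.map f).reverse = l.length := by
      unfold TS.tot
      rw [List.map_reverse, List.sum_reverse, List.map_map]
      have e : (List.map (TS.q ∘ f) l.attach) = List.map (fun _ => 1) l.attach := by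
        apply List.map_congr_left
        intro p _
        exact TS.tv_q _ _ _ _ _
      rw [e]
      simp
    rw [this]
    exact hn
  · intro v c
    rw [← hrun v]
    unfold TS.run runl
    rw [List.foldr_reverse, List.foldl_map]
    have e : ∀ (L : List {p // p ∈ l}) (w : (Fin r → Option (Fin b)) → ℂ),
        List.foldl (fun x y => (f y).op x) w L =
        List.foldl (fun x y => tvop y x) w (L.map Subtype.val) := by
      intro L
      induction L with
      | nil => intro w; rfl
      | cons p L ih =>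
        intro w
        rw [List.foldl_cons, List.map_cons, List.foldl_cons, ih]
        congr 1
        ext i
        rw [TS.tv_op]
        unfold tvop
        by_cases hi : i = p.1.1
        · rw [if_pos hi, hi, Function.update_self]
        · rw [if_neg hi, Function.update_of_ne hi, add_zero]
    rw [e, List.attach_map_subtype_val]

namespace BBridge

/-- singletons -/
def enc (a : ℕ) : Option (Fin a) → (Fin a → Bool)
  | none => fun _ => false
  | some g => Function.update (fun _ => false) g true

theorem enc_inj (a : ℕ) : Function.Injective (enc a) := by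
  intro x y h
  rcases x with _ | g <;> rcases y with _ | g'
  · rfl
  · have := congrFun h g'
    simp [enc] at this
  · have := congrFun h g
    simp [enc] at this
  · have := congrFun h g
    simp only [enc, Function.update_self] at this
    by_cases hg : g = g'
    · rw [hg]
    · rw [Function.update_of_ne hg] at this
      exact absurd this (by simp)

theorem pS_iff {a : ℕ} (g : Fin a) (x : Fin a → Bool) :
    (x g = true ∧ BWin.pS g x) ↔ x = enc a (some g) := by
  constructor
  · rintro ⟨h1, h2⟩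
    ext i
    by_cases hi : i = g
    · subst hi; simp [enc, h1]
    · simp [enc, hi, h2 i hi]
  · rintro rfl
    refine ⟨by simp [enc], ?_⟩
    intro h hh
    simp [enc, hh]

theorem lay_mat {a : ℕ} (g : Fin a) :
    (BWin.lay g (BWin.pS g)).mat =
      (TS.tv (enc a (some g)) (enc a none) (fun h => by simpa using enc_inj a h) 1
        one_ne_zero).mat := by
  ext x y
  unfold TS.mat
  congr 1
  have e1 : ((BWin.lay g (BWin.pS g)).T x = true) ↔ x = enc a (some g) := by
    rw [BWin.lay_T, pS_iff]
  have e2 : ((TS.tv (enc a (some g)) (enc a none) (fun h => by simpa using enc_inj a h) 1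
        one_ne_zero).T x = true) ↔ x = enc a (some g) := by simp [TS.tv]
  simp only [e1, e2]
  by_cases hx : x = enc a (some g)
  · have e3 : (BWin.lay g (BWin.pS g)).σ x = enc a none := by
      subst hx
      ext i
      by_cases hi : i = g
      · subst hi; simp [BWin.lay, enc]
      · simp [BWin.lay, enc, hi]
    have e4 : (TS.tv (enc a (some g)) (enc a none) (fun h => by simpa using enc_inj a h) 1
        one_ne_zero).σ x = enc a none := by
      subst hx
      simp [TS.tv]
    rw [e3, e4]
    rfl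
  · simp [hx]

theorem lay_q {a : ℕ} (g : Fin a) : (BWin.lay g (BWin.pS g)).q = 1 := by
  classical
  unfold TS.q
  rw [Finset.card_eq_one]
  refine ⟨enc a (some g), ?_⟩
  ext x
  simp only [mem_filter, mem_univ, true_and, mem_singleton]
  rw [BWin.lay_T, pS_iff]

theorem lS_prod (a : ℕ) : ((BWin.lS a).map TS.mat).prod =
    ((sS (enc a) (enc_inj a)).map TS.mat).prod := by
  unfold BWin.lS sS
  rw [List.map_map, List.map_map]
  congr 1
  apply List.map_congr_left
  intro g _
  exact lay_mat g

theorem lS_tot (a : ℕ) : TS.tot (BWin.lS a) = a := by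
  unfold BWin.lS TS.tot
  rw [List.map_map]
  have : List.map (TS.q ∘ fun g => BWin.lay g (BWin.pS g)) (List.finRange a) =
      List.map (fun _ => 1) (List.finRange a) := by
    apply List.map_congr_left
    intro g _
    exact lay_q g
  rw [this]
  simp

theorem sS_tot {X0 : Type} [Fintype X0] {b : ℕ} (e : Option (Fin b) → X0)
    (he : Function.Injective e) : TS.tot (sS e he) = b := by
  unfold sS TS.tot
  rw [List.map_map]
  have : List.map (TS.q ∘ fun g => TS.tv (e (some g)) (e none) (fun h => by simpa using he h) 1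
      one_ne_zero) (List.finRange b) = List.map (fun _ => 1) (List.finRange b) := by
    apply List.map_congr_left
    intro g _
    exact TS.tv_q _ _ _ _ _
  rw [this]
  simp

/-- `(Fin (M*a) → Bool) ≃ (Fin M → Fin a → Bool)` -/
def eqv (M a : ℕ) (α : Type) : (Fin (M * a) → α) ≃ (Fin M → Fin a → α) :=
  (Equiv.arrowCongr finProdFinEquiv.symm (Equiv.refl α)).trans (Equiv.curry _ _ _)

theorem eqv_apply (M a : ℕ) (α : Type) (x : Fin (M * a) → α) (i : Fin M) (j : Fin a) :
    eqv M a α x i j = x (finProdFinEquiv (i, j)) := rfl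

theorem zp_tens (M a : ℕ) : (tens (S := Fin M) (ι := fun _ => (Fin a → Bool))
    (fun _ => ZP (Fin a))).submatrix (eqv M a Bool) (eqv M a Bool) = ZP (Fin (M * a)) := by
  ext x y
  simp only [Matrix.submatrix_apply, tens, ZP]
  have h1 : (∀ s, y s = true → x s = true) ↔ ∀ i j, eqv M a Bool y i j = true →
      eqv M a Bool x i j = true := by
    simp only [eqv_apply]
    constructor
    · intro h i j; exact h _
    · intro h s
      have := h (finProdFinEquiv.symm s).1 (finProdFinEquiv.symm s).2
      rw [Prod.mk.eta, Equiv.apply_symm_apply] at this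
      exact this
  by_cases h : ∀ s, y s = true → x s = true
  · rw [if_pos h]
    exact Finset.prod_eq_one (fun i _ => if_pos (h1.1 h i))
  · rw [if_neg h]
    have h2 : ∃ i, ¬ ∀ j, eqv M a Bool y i j = true → eqv M a Bool x i j = true := by
      by_contra hc
      push Not at hc
      exact h (h1.2 hc)
    obtain ⟨i, hi⟩ := h2
    exact Finset.prod_eq_zero (mem_univ i) (if_neg hi)

end BBridge

open BBridge in
/-- BRIDGE -/
theorem bridge (tm : StTensMul) (R a M N T : ℕ) (hm2 : 2 ≤ M * a) (hs : StarTS R a N T)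
    (θ : ℝ) (h0 : 0 < θ) (h1 : θ < 1)
    (num : (1 - θ) * ((3 * (M * a) + N : ℕ) + ((M * a : ℕ) : ℝ) * (Real.log ((M * a : ℕ) : ℝ) - 1)) <
      θ * (2 * ((M.choose R : ℝ) * ((2 ^ a - (a + 1) : ℕ) : ℝ) ^ (M - R)) *
        ((R * a * (a + 1) ^ (R - 1) : ℕ) - T : ℝ) / 2 ^ (M * a))) : HBt θ := by
  classical
  obtain ⟨lC, hN, hT, hrun⟩ := hs
  have hZ : ((BWin.lL a).map TS.mat).prod * ((sS (enc a) (enc_inj a)).map TS.mat).prod *
      ((BWin.lE a).map TS.mat).prod = ZP (Fin a) := by
    rw [← lS_prod, BWin.lLSE_prod]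
  have hT0 : TS.tot (BWin.lL a) + TS.tot (sS (enc a) (enc_inj a)) + TS.tot (BWin.lE a) =
      a * 2 ^ (a - 1) := by
    have := BWin.tot_LSE a
    rw [lS_tot] at this
    rw [sS_tot]
    exact this
  obtain ⟨l, hp, hl, ht⟩ := gen (enc a) tm (enc_inj a) M R (BWin.lL a) (BWin.lE a) (ZP (Fin a)) hZ
    _ hT0 lC hrun
  have hM0 : 1 ≤ M := by
    rcases Nat.eq_zero_or_pos M with h | h
    · subst h; simp at hm2
    · exact h
  have ha0 : 1 ≤ a := by
    rcases Nat.eq_zero_or_pos a with h | h
    · subst h; simp at hm2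
    · exact h
  refine hbt_of_ts θ h0 h1 (M * a) hm2 (l.map (TS.reindex (eqv M a Bool))) ?_ _ _ ?_ ?_ num
  · rw [TS.reindex_prod, hp, zp_tens]
  · rw [List.length_map, hl, BWin.len_lL, BWin.len_lE]
    nlinarith
  · rw [TS.reindex_tot]
    have hcard : Fintype.card (Fin a → Bool) = 2 ^ a := by simp
    rw [hcard] at ht
    have e1 : 2 * (M * (a * 2 ^ (a - 1)) * (2 ^ a) ^ (M - 1)) = M * a * 2 ^ (M * a) := by
      have e2 : 2 ^ (M * a) = 2 ^ a * (2 ^ a) ^ (M - 1) := by
        rw [← pow_succ', Nat.sub_add_cancel hM0, ← pow_mul, mul_comm M a]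
      have e3 : 2 ^ a = 2 * 2 ^ (a - 1) := by
        rw [← pow_succ', Nat.sub_add_cancel ha0]
      rw [e2]
      conv_rhs => rw [show (2 : ℕ) ^ a * (2 ^ a) ^ (M - 1) = 2 * 2 ^ (a - 1) * (2 ^ a) ^ (M - 1) by
        rw [← e3]]
      ring
    have ht' : (TS.tot l : ℝ) + (M.choose R : ℝ) * ((2 ^ a - (a + 1) : ℕ) : ℝ) ^ (M - R) *
        ((R * a * (a + 1) ^ (R - 1) : ℕ) : ℝ) ≤
        ((M * (a * 2 ^ (a - 1)) * (2 ^ a) ^ (M - 1) : ℕ) : ℝ) +
          (M.choose R : ℝ) * ((2 ^ a - (a + 1) : ℕ) : ℝ) ^ (M - R) * (TS.tot lC : ℝ) := by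
      exact_mod_cast ht
    have e1' : 2 * ((M * (a * 2 ^ (a - 1)) * (2 ^ a) ^ (M - 1) : ℕ) : ℝ) =
        ((M * a : ℕ) : ℝ) * 2 ^ (M * a) := by
      exact_mod_cast e1
    have hT' : (TS.tot lC : ℝ) ≤ T := by exact_mod_cast hT
    have hK : (0 : ℝ) ≤ (M.choose R : ℝ) * ((2 ^ a - (a + 1) : ℕ) : ℝ) ^ (M - R) := by positivity
    rw [div_le_iff₀ (by positivity)]
    have h2 : (0 : ℝ) < 2 ^ (M * a) := by positivity
    rw [sub_mul, div_mul_cancel₀ _ h2.ne']
    nlinarith [mul_le_mul_of_nonneg_left hT' hK]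

end Crest.Agent.R324
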