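import Crest.Agent.R324.Defs

/-!
# Row 324: interface of part (B) (helper13)

`StarSched r b n`: an in-place program of `n` transvections `x_t += c x_s` (`c ≠ 0`) on the
registers `Fin r → Option (Fin b)` computing `x_c := ∑_{c' ⊑ c} x_{c'}` (`c' ⊑ c`: `c'` arises from
`c` by replacing some coordinates by `none`), i.e. `star_b^{⊗ r}`.
-/

set_option autoImplicit false

noncomputable section

namespace Crest.Agent.R324

open Matrix Finset

/-- apply `x_t += c x_s` to the registers `f`, `p = (t, s, c)` -/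
def tvop {C : Type} [DecidableEq C] (p : C × C × ℤ) (f : C → ℂ) : C → ℂ :=
  Function.update f p.1 (f p.1 + (p.2.2 : ℂ) * f p.2.1)

/-- run a program (head of the list first) -/
def runl {C : Type} [DecidableEq C] (l : List (C × C × ℤ)) (f : C → ℂ) : C → ℂ :=
  l.foldl (fun f p => tvop p f) f

/-- `star_b^{⊗ r}` -/
def starop (r b : ℕ) (f : (Fin r → Option (Fin b)) → ℂ) : (Fin r → Option (Fin b)) → ℂ :=
  fun c => ∑ c' : Fin r → Option (Fin b), if ∀ j, c' j = c j ∨ c' j = none then f c' else 0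

/-- a program for `star_b^{⊗ r}` of length at most `n` -/
def StarSched (r b n : ℕ) : Prop :=
  ∃ l : List ((Fin r → Option (Fin b)) × (Fin r → Option (Fin b)) × ℤ), l.length ≤ n ∧
    (∀ p ∈ l, p.1 ≠ p.2.1 ∧ p.2.2 ≠ 0) ∧ ∀ f, runl l f = starop r b f

/-- the numerical condition (`w` = number of windows per group) -/
def BNum (r b w n : ℕ) : Prop :=
  (1 - Crest.FourierCircuit.savingExponent) *
      ((3 * (r * w * b : ℕ) + n : ℕ) + (r * w * b : ℕ) * (Real.log (r * w * b : ℕ) - 1)) <
    Crest.FourierCircuit.savingExponent *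
      (2 * ((w : ℝ) * (2 ^ b - b - 1) ^ (w - 1) / 2 ^ (b * w)) ^ r *
        ((r * b * (b + 1) ^ (r - 1) : ℕ) - n))

/-- BRIDGE (helper13): any program with a net saving gives `HB` -/
def StBridge : Prop := ∀ r b w n : ℕ, 1 ≤ r → 1 ≤ b → 1 ≤ w → 2 ≤ r * w * b → n ≤ r * b * (b + 1) ^ (r - 1) →
  StarSched r b n → BNum r b w n → HB

end Crest.Agent.R324
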