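import Crest.Agent.R324.BSec

set_option autoImplicit false

noncomputable section

namespace Crest.Agent.R324

open Matrix Finset

section Gen

variable {M R b : ℕ} {X0 : Type} (enc : Option (Fin b) → X0)

/-- frames: the set of the `R` low sites and the states of the other sites -/
def Fr (M R : ℕ) {b : ℕ} {X0 : Type} (enc : Option (Fin b) → X0) : Type :=
  Σ S : {S : Finset (Fin M) // S.card = R}, ({i : Fin M // i ∉ S.1} → {x : X0 // x ∉ Set.range enc})

/-- the state with frame `p.1` and low coordinates `p.2` -/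
def emb (p : Fr M R enc × (Fin R → Option (Fin b))) : Fin M → X0 := fun i =>
  if hi : i ∈ p.1.1.1 then enc (p.2 ((p.1.1.1.orderIsoOfFin p.1.1.2).symm ⟨i, hi⟩))
  else (p.1.2 ⟨i, hi⟩).1

theorem emb_mem (p : Fr M R enc × (Fin R → Option (Fin b))) (i : Fin M) (hi : i ∈ p.1.1.1) :
    emb enc p i = enc (p.2 ((p.1.1.1.orderIsoOfFin p.1.1.2).symm ⟨i, hi⟩)) := by
  unfold emb; rw [dif_pos hi]

theorem emb_iso (p : Fr M R enc × (Fin R → Option (Fin b))) (j : Fin R) :
    emb enc p (p.1.1.1.orderIsoOfFin p.1.1.2 j).1 = enc (p.2 j) := by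
  rw [emb_mem enc p _ (p.1.1.1.orderIsoOfFin p.1.1.2 j).2]
  exact congrArg (fun j => enc (p.2 j))
    (OrderIso.symm_apply_apply (p.1.1.1.orderIsoOfFin p.1.1.2) j)

theorem emb_not (p : Fr M R enc × (Fin R → Option (Fin b))) (i : Fin M) (hi : i ∉ p.1.1.1) :
    emb enc p i = (p.1.2 ⟨i, hi⟩).1 := by
  unfold emb; rw [dif_neg hi]

theorem emb_range (p : Fr M R enc × (Fin R → Option (Fin b))) (i : Fin M) :
    emb enc p i ∈ Set.range enc ↔ i ∈ p.1.1.1 := by
  constructor
  · intro h
    by_contra hi
    rw [emb_not enc p i hi] at h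
    exact (p.1.2 ⟨i, hi⟩).2 h
  · intro hi
    rw [emb_mem enc p i hi]
    exact ⟨_, rfl⟩

open Classical in
/-- the set of low sites -/
def lw (X : Fin M → X0) : Finset (Fin M) := univ.filter fun i => X i ∈ Set.range enc

theorem emb_lw (p : Fr M R enc × (Fin R → Option (Fin b))) : lw enc (emb enc p) = p.1.1.1 := by
  ext i
  simp only [lw, mem_filter, mem_univ, true_and]
  exact emb_range enc p i

theorem emb_inj (he : Function.Injective enc) :
    Function.Injective (emb enc : Fr M R enc × (Fin R → Option (Fin b)) → (Fin M → X0)) := by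
  rintro ⟨⟨⟨S, hS⟩, h⟩, c⟩ ⟨⟨⟨S', hS'⟩, h'⟩, c'⟩ hh
  have h1 : S = S' := by
    have e1 := emb_lw enc ((⟨⟨S, hS⟩, h⟩, c) : Fr M R enc × (Fin R → Option (Fin b)))
    have e2 := emb_lw enc ((⟨⟨S', hS'⟩, h'⟩, c') : Fr M R enc × (Fin R → Option (Fin b)))
    rw [hh] at e1
    exact e1.symm.trans e2
  subst h1
  have h2 : h = h' := by
    funext i
    have := congrFun hh i.1
    rw [emb_not enc _ i.1 i.2, emb_not enc _ i.1 i.2] at this
    exact Subtype.ext this
  subst h2
  have h3 : c = c' := by
    funext j
    have := congrFun hh (S.orderIsoOfFin hS j).1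
    rw [emb_iso enc ((⟨⟨S, hS⟩, h⟩, c) : Fr M R enc × (Fin R → Option (Fin b))) j] at this
    rw [emb_iso enc ((⟨⟨S, hS⟩, h⟩, c') : Fr M R enc × (Fin R → Option (Fin b))) j] at this
    exact he this
  subst h3
  rfl

theorem range_iff (X : Fin M → X0) :
    (∃ p : Fr M R enc × (Fin R → Option (Fin b)), emb enc p = X) ↔ (lw enc X).card = R := by
  classical
  constructor
  · rintro ⟨p, rfl⟩
    rw [emb_lw]
    exact p.1.1.2
  · intro hS
    have hm : ∀ i, i ∈ lw enc X ↔ X i ∈ Set.range enc := by intro i; simp [lw]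
    have hc : ∀ j : Fin R, ∃ o, enc o = X ((lw enc X).orderIsoOfFin hS j).1 := fun j =>
      (hm _).1 ((lw enc X).orderIsoOfFin hS j).2
    choose c hc using hc
    refine ⟨(⟨⟨lw enc X, hS⟩, fun i => ⟨X i.1, fun h => i.2 ((hm _).2 h)⟩⟩, c), ?_⟩
    funext i
    by_cases hi : i ∈ lw enc X
    · rw [emb_mem enc _ i hi]
      simp only
      rw [hc]
      simp
    · rw [emb_not enc _ i hi]

open Classical in
theorem tens_mulVec [Fintype X0] (v : (Fin M → X0) → ℂ) (X : Fin M → X0) :
    (tens (S := Fin M) (ι := fun _ => X0) (fun _ => Smat enc)).mulVec v X =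
      ∑ Y, if (∀ i, Y i = X i ∨ ((∃ g, X i = enc (some g)) ∧ Y i = enc none)) then v Y else 0 := by
  simp only [Matrix.mulVec, dotProduct, tens, Smat]
  apply Finset.sum_congr rfl
  intro Y _
  by_cases h : ∀ i, Y i = X i ∨ ((∃ g, X i = enc (some g)) ∧ Y i = enc none)
  · rw [if_pos h, Finset.prod_eq_one (fun i _ => if_pos (h i)), one_mul]
  · rw [if_neg h]
    push Not at h
    obtain ⟨i, hi⟩ := h
    rw [Finset.prod_eq_zero (mem_univ i) (if_neg (by push Not; exact hi)), zero_mul]

theorem tens_emb [Fintype X0] (he : Function.Injective enc) (v : (Fin M → X0) → ℂ)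
    (a : Fr M R enc) (c : Fin R → Option (Fin b)) :
    (tens (S := Fin M) (ι := fun _ => X0) (fun _ => Smat enc)).mulVec v (emb enc (a, c)) =
      starop R b (fun c' => v (emb enc (a, c'))) c := by
  classical
  rw [tens_mulVec]
  unfold starop
  rw [← Finset.sum_filter, ← Finset.sum_filter]
  symm
  refine Finset.sum_bij (fun c' _ => emb enc (a, c')) ?_ ?_ ?_ ?_
  · intro c' hc'
    simp only [mem_filter, mem_univ, true_and] at hc' ⊢
    intro i
    by_cases hi : i ∈ a.1.1
    · rw [emb_mem enc (a, c') i hi, emb_mem enc (a, c) i hi]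
      simp only
      set j := (a.1.1.orderIsoOfFin a.1.2).symm ⟨i, hi⟩
      rcases hc' j with h | h
      · left; rw [h]
      · rcases hcj : c j with _ | g
        · left; rw [h]
        · right; exact ⟨⟨g, rfl⟩, by rw [h]⟩
    · left
      rw [emb_not enc (a, c') i hi, emb_not enc (a, c) i hi]
  · intro c1 _ c2 _ h
    have := emb_inj enc he h
    simpa using this
  · intro Y hY
    simp only [mem_filter, mem_univ, true_and] at hY
    refine ⟨fun j => if Y (a.1.1.orderIsoOfFin a.1.2 j).1 = emb enc (a, c)
      (a.1.1.orderIsoOfFin a.1.2 j).1 then c j else none, ?_, ?_⟩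
    · simp only [mem_filter, mem_univ, true_and]
      intro j
      split_ifs
      · exact Or.inl rfl
      · exact Or.inr rfl
    · funext i
      by_cases hi : i ∈ a.1.1
      · rw [emb_mem enc _ i hi]
        simp only [OrderIso.apply_symm_apply]
        rcases hY i with h | ⟨_, h⟩
        · rw [if_pos h, h, emb_mem enc _ i hi]
        · by_cases h' : Y i = emb enc (a, c) i
          · rw [if_pos h', h', emb_mem enc _ i hi]
          · rw [if_neg h', h]
      · rw [emb_not enc _ i hi]
        rcases hY i with h | ⟨⟨g, h⟩, _⟩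
        · rw [h, emb_not enc _ i hi]
        · exfalso
          rw [emb_not enc _ i hi] at h
          exact (a.2 ⟨i, hi⟩).2 ⟨_, h.symm⟩
  · intro c' _
    rfl

theorem mem_lifts {K W : Type} [Fintype K] [DecidableEq K] (l : List (TS W)) (s : TS (K → W)) :
    s ∈ TS.lifts K l ↔ ∃ k, ∃ s' ∈ l, TS.lift k s' = s := by
  simp [TS.lifts]

/-- the sector is invariant -/
theorem sector_inv (he : Function.Injective enc) (s : TS (Fin M → X0))
    (hs : s ∈ TS.lifts (Fin M) (sS enc he)) (X : Fin M → X0) (hT : s.T X = true) :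
    lw enc (s.σ X) = lw enc X := by
  classical
  rw [mem_lifts] at hs
  obtain ⟨k, s', hs', rfl⟩ := hs
  simp only [sS, List.mem_map] at hs'
  obtain ⟨g, _, rfl⟩ := hs'
  have h1 : X k = enc (some g) := by simpa [TS.lift, TS.tv] using hT
  ext i
  simp only [lw, mem_filter, mem_univ, true_and, TS.lift, TS.tv]
  by_cases hi : i = k
  · subst hi
    rw [Function.update_self, h1, Equiv.swap_apply_left]
    simp
  · rw [Function.update_of_ne hi]

theorem key (tm : StTensMul) [Fintype X0] [DecidableEq X0] (he : Function.Injective enc)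
    (lC : List (TS (Fin R → Option (Fin b)))) (hC : ∀ f c, TS.run lC f c = starop R b f c)
    (w : (Fin M → X0) → ℂ) :
    TS.run ((TS.lifts (Fin M) (sS enc he)).map (TS.restrict fun X => ¬ (lw enc X).card = R))
      (TS.run (lC.map (TS.push (emb enc : Fr M R enc × _ → _) (emb_inj enc he))) w) =
    TS.run (TS.lifts (Fin M) (sS enc he)) w := by
  ext X
  by_cases hP : ∃ p : Fr M R enc × (Fin R → Option (Fin b)), emb enc p = X
  · obtain ⟨⟨a, c⟩, rfl⟩ := hP
    rw [TS.run_restrict_out _ _ _ _ (by
      rw [not_not]; exact (range_iff enc _).1 ⟨_, rfl⟩), TS.run_push_in, hC]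
    rw [← TS.prod_mulVec, TS.lifts_prod tm, sS_prod]
    exact (tens_emb enc he w a c).symm
  · apply TS.run_restrict_in
    · intro s hs X hT
      rw [sector_inv enc he s hs X hT]
    · intro X hX
      apply TS.run_push_out
      rw [range_iff]
      exact hX
    · rw [← range_iff]
      exact hP

open Classical in
instance [Fintype X0] : Fintype (Fr M R enc) := by
  unfold Fr; infer_instance

theorem card_Fr [Fintype X0] (he : Function.Injective enc) :
    Fintype.card (Fr M R enc) = M.choose R * (Fintype.card X0 - (b + 1)) ^ (M - R) := by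
  classical
  have h1 : Fintype.card {x : X0 // x ∉ Set.range enc} = Fintype.card X0 - (b + 1) := by
    rw [Fintype.card_subtype_compl]
    congr 1
    have : Fintype.card {x : X0 // x ∈ Set.range enc} = Fintype.card (Option (Fin b)) :=
      (Fintype.card_congr (Equiv.ofInjective enc he)).symm
    rw [this]
    simp
  have h2 : Fintype.card (Fr M R enc) =
      ∑ S : {S : Finset (Fin M) // S.card = R}, (Fintype.card X0 - (b + 1)) ^ (M - R) := by
    have h3 : Fintype.card (Fr M R enc) = ∑ S : {S : Finset (Fin M) // S.card = R},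
        Fintype.card ({i : Fin M // i ∉ S.1} → {x : X0 // x ∉ Set.range enc}) := by
      rw [← Fintype.card_sigma]
      apply Fintype.card_congr
      exact Equiv.refl _
    rw [h3]
    apply Finset.sum_congr rfl
    intro S _
    rw [Fintype.card_fun]
    have e1 : Fintype.card {x : X0 // x ∉ Set.range enc} = Fintype.card X0 - (b + 1) := h1
    have e2 : Fintype.card {i : Fin M // i ∉ S.1} = M - R := by
      rw [Fintype.card_subtype_compl]
      simp [S.2]
    rw [e1, e2]
  rw [h2, Finset.sum_const, smul_eq_mul, Finset.card_univ]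
  congr 1
  have := Fintype.card_finset_len (α := Fin M) R
  simpa using this

theorem tot_sum {K : Type} [Fintype K] [DecidableEq K] {ι : Type} [Fintype ι]
    (f : K → List (TS ι)) :
    TS.tot ((univ : Finset K).toList.flatMap f) = ∑ k, TS.tot (f k) := by
  rw [← Finset.sum_map_toList]
  generalize (univ : Finset K).toList = L
  induction L with
  | nil => rfl
  | cons k L ih => rw [List.flatMap_cons, TS.tot_append, ih, List.map_cons, List.sum_cons]

theorem tot_ge [Fintype X0] [DecidableEq X0] (he : Function.Injective enc) :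
    Fintype.card (Fr M R enc) * (R * b * (b + 1) ^ (R - 1)) ≤
      TS.tot ((TS.lifts (Fin M) (sS enc he)).map (TS.restrict fun X => (lw enc X).card = R)) := by
  classical
  have e1 : TS.tot ((TS.lifts (Fin M) (sS enc he)).map
      (TS.restrict fun X => (lw enc X).card = R)) =
      ∑ k : Fin M, ∑ g : Fin b,
        (univ.filter fun X : Fin M → X0 => X k = enc (some g) ∧ (lw enc X).card = R).card := by
    unfold TS.lifts
    rw [List.map_flatMap, tot_sum]
    apply Finset.sum_congr rfl
    intro k _
    unfold TS.tot sS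
    rw [List.map_map, List.map_map, List.map_map, Fin.sum_univ_def]
    congr 1
    apply List.map_congr_left
    intro g _
    simp only [Function.comp_apply, TS.q, TS.restrict_T]
    congr 1
    ext X
    simp [TS.lift, TS.tv]
  rw [e1, Finset.sum_comm]
  have e2 : ∀ g : Fin b, Fintype.card (Fr M R enc) * (R * (b + 1) ^ (R - 1)) ≤
      ∑ k : Fin M, (univ.filter fun X : Fin M → X0 =>
        X k = enc (some g) ∧ (lw enc X).card = R).card := by
    intro g
    rw [← Finset.card_sigma]
    have e3 : (univ.filter fun q : Fin R × (Fr M R enc × (Fin R → Option (Fin b))) =>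
        q.2.2 q.1 = some g).card = Fintype.card (Fr M R enc) * (R * (b + 1) ^ (R - 1)) := by
      have e4 : (univ.filter fun q : Fin R × (Fr M R enc × (Fin R → Option (Fin b))) =>
          q.2.2 q.1 = some g) = ((univ : Finset (Fin R)).sigma (fun j =>
            (univ : Finset (Fr M R enc)) ×ˢ (Fintype.piFinset (fun i : Fin R =>
              if i = j then ({some g} : Finset (Option (Fin b))) else univ)))).map
                (Equiv.sigmaEquivProd (Fin R) (Fr M R enc × (Fin R → Option (Fin b)))).toEmbedding := by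
        ext ⟨j, a, c⟩
        simp only [mem_filter, mem_univ, true_and, mem_map, mem_sigma, mem_product,
          Fintype.mem_piFinset, Equiv.coe_toEmbedding]
        constructor
        · intro h
          refine ⟨⟨j, a, c⟩, ?_, rfl⟩
          intro i
          by_cases hi : i = j
          · subst hi; simp [h]
          · simp [hi]
        · rintro ⟨⟨j', a', c'⟩, h, h'⟩
          simp only [Equiv.sigmaEquivProd_apply, Prod.mk.injEq] at h'
          obtain ⟨rfl, rfl, rfl⟩ := h'
          simpa using h j'
      rw [e4, Finset.card_map, Finset.card_sigma]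
      have e5 : ∀ j : Fin R, ((univ : Finset (Fr M R enc)) ×ˢ (Fintype.piFinset
          (fun i : Fin R => if i = j then ({some g} : Finset (Option (Fin b))) else univ))).card =
          Fintype.card (Fr M R enc) * (b + 1) ^ (R - 1) := by
        intro j
        rw [Finset.card_product, Finset.card_univ, Fintype.card_piFinset,
          ← Finset.mul_prod_erase univ _ (mem_univ j)]
        rw [Finset.prod_congr rfl (g := fun _ => b + 1) (fun i hi => by
          rw [if_neg (Finset.ne_of_mem_erase hi)]; simp)]
        simp [Finset.card_erase_of_mem]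
      rw [Finset.sum_congr rfl (fun j _ => e5 j), Finset.sum_const, Finset.card_univ,
        Fintype.card_fin, smul_eq_mul]
      ring
    rw [← e3]
    refine Finset.card_le_card_of_injOn
      (fun q => ⟨(q.2.1.1.1.orderIsoOfFin q.2.1.1.2 q.1).1, emb enc q.2⟩) ?_ ?_
    · intro q hq
      simp only [coe_filter, mem_univ, true_and, Set.mem_setOf_eq] at hq
      simp only [coe_sigma, Set.mem_sigma_iff, coe_univ, Set.mem_univ, true_and, coe_filter,
        mem_univ, Set.mem_setOf_eq]
      refine ⟨?_, ?_⟩
      · rw [emb_iso, hq]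
      · rw [emb_lw]; exact q.2.1.1.2
    · rintro ⟨j, p⟩ _ ⟨j', p'⟩ _ h
      simp only [Sigma.mk.injEq, heq_eq_eq] at h
      have hp := emb_inj enc he h.2
      subst hp
      have h1 := h.1
      have h2 : j = j' := by
        apply (p.1.1.1.orderIsoOfFin p.1.1.2).injective
        exact Subtype.ext h1
      subst h2
      rfl
  calc Fintype.card (Fr M R enc) * (R * b * (b + 1) ^ (R - 1))
      = ∑ _g : Fin b, Fintype.card (Fr M R enc) * (R * (b + 1) ^ (R - 1)) := by
        rw [Finset.sum_const, Finset.card_univ, Fintype.card_fin, smul_eq_mul]; ring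
    _ ≤ _ := Finset.sum_le_sum fun g _ => e2 g

/-- the general construction -/
theorem gen (tm : StTensMul) [Fintype X0] [DecidableEq X0] (he : Function.Injective enc)
    (M R : ℕ) (lL lE : List (TS X0)) (Z : Matrix X0 X0 ℂ)
    (hZ : (lL.map TS.mat).prod * ((sS enc he).map TS.mat).prod * (lE.map TS.mat).prod = Z) (T0 : ℕ)
    (hT : TS.tot lL + TS.tot (sS enc he) + TS.tot lE = T0)
    (lC : List (TS (Fin R → Option (Fin b)))) (hC : ∀ f c, TS.run lC f c = starop R b f c) :
    ∃ l : List (TS (Fin M → X0)),
      (l.map TS.mat).prod = tens (S := Fin M) (ι := fun _ => X0) (fun _ => Z) ∧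
      l.length = M * (lL.length + b + lE.length) + lC.length ∧
      TS.tot l + M.choose R * (Fintype.card X0 - (b + 1)) ^ (M - R) * (R * b * (b + 1) ^ (R - 1)) ≤
        M * T0 * Fintype.card X0 ^ (M - 1) +
          M.choose R * (Fintype.card X0 - (b + 1)) ^ (M - R) * TS.tot lC := by
  classical
  refine ⟨TS.lifts (Fin M) lL ++ ((TS.lifts (Fin M) (sS enc he)).map
    (TS.restrict fun X => ¬ (lw enc X).card = R) ++
    (lC.map (TS.push (emb enc : Fr M R enc × _ → _) (emb_inj enc he)) ++
      TS.lifts (Fin M) lE)), ?_, ?_, ?_⟩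
  · rw [← hZ]
    have h1 : tens (S := Fin M) (ι := fun _ => X0) (fun _ => (lL.map TS.mat).prod *
        ((sS enc he).map TS.mat).prod * (lE.map TS.mat).prod) =
        ((TS.lifts (Fin M) lL).map TS.mat).prod *
          ((TS.lifts (Fin M) (sS enc he)).map TS.mat).prod *
          ((TS.lifts (Fin M) lE).map TS.mat).prod := by
      rw [TS.lifts_prod tm, TS.lifts_prod tm, TS.lifts_prod tm, ← tm.1, ← tm.1]
    rw [h1]
    apply TS.eq_of_mulVec
    intro v
    rw [TS.prod_mulVec, TS.run_append, TS.run_append, TS.run_append, key enc tm he lC hC,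
      ← Matrix.mulVec_mulVec, ← Matrix.mulVec_mulVec, TS.prod_mulVec, TS.prod_mulVec,
      TS.prod_mulVec]
  · simp only [List.length_append, List.length_map, TS.lifts_length, Fintype.card_fin]
    have : (sS enc he).length = b := by simp [sS]
    rw [this]
    ring
  · rw [TS.tot_append, TS.tot_append, TS.tot_append, TS.tot_push, TS.lifts_tot, TS.lifts_tot]
    have h1 := tot_ge (M := M) (R := R) enc he
    have h2 := TS.tot_restrict_add (fun X : Fin M → X0 => (lw enc X).card = R)
      (TS.lifts (Fin M) (sS enc he))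
    rw [TS.lifts_tot] at h2
    rw [card_Fr enc he] at h1 ⊢
    simp only [Fintype.card_fin] at h2 ⊢
    rw [← hT]
    have e : M * (TS.tot lL + TS.tot (sS enc he) + TS.tot lE) * Fintype.card X0 ^ (M - 1) =
        M * (TS.tot lL * Fintype.card X0 ^ (M - 1)) +
        M * (TS.tot (sS enc he) * Fintype.card X0 ^ (M - 1)) +
        M * (TS.tot lE * Fintype.card X0 ^ (M - 1)) := by ring
    rw [e]
    omega

end Gen

end Crest.Agent.R324
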