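import Crest.Agent.R324.CDefs

set_option autoImplicit false
set_option linter.unusedSectionVars false

noncomputable section

namespace Crest.Agent.R324

open Crest.FourierCircuit
open Matrix Finset

namespace BlkProof

variable {A D κ ι : Type} [Fintype A] [Fintype D] [Fintype κ] [Fintype ι]
  [DecidableEq A] [DecidableEq D] (N : Matrix κ κ ℂ) (e : ι ≃ (A × κ) ⊕ D) {k : ℕ}

/-- label of a state -/
def lab (x : Fin k → ι) : Fin k → A ⊕ D := fun i => (e (x i)).map Prod.fst id

/-- active coordinates of a label -/
def act (b : Fin k → A ⊕ D) : Finset (Fin k) := univ.filter fun i => (b i).isLeft = true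

/-- auxiliary: fill a label at one place -/
def fill (s : A ⊕ D) (β : s.isLeft = true → κ) : (A × κ) ⊕ D :=
  match s, β with
  | .inl a, β => .inl (a, β rfl)
  | .inr d, _ => .inr d

theorem fill_map (s : A ⊕ D) (β : s.isLeft = true → κ) : (fill s β).map Prod.fst id = s := by
  cases s <;> rfl

theorem fill_blk (s : A ⊕ D) (β γ : s.isLeft = true → κ) :
    blk A D N (fill s β) (fill s γ) = if h : s.isLeft = true then N (β h) (γ h) else 1 := by
  cases s <;> simp [fill, blk]

theorem fill_inj (s : A ⊕ D) (β γ : s.isLeft = true → κ) (h : fill s β = fill s γ) : β = γ := by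
  cases s with
  | inl a =>
    simp only [fill, Sum.inl.injEq, Prod.mk.injEq, true_and] at h
    funext _
    exact h
  | inr d =>
    funext h'
    exact absurd h' (by simp)

theorem fill_surj (t : (A × κ) ⊕ D) (s : A ⊕ D) (h : t.map Prod.fst id = s) :
    ∃ β : s.isLeft = true → κ, fill s β = t := by
  subst h
  cases t with
  | inl p => exact ⟨fun _ => p.2, rfl⟩
  | inr d => exact ⟨fun h => absurd h (by simp), rfl⟩

/-- the fibre over a label -/
def G (b : Fin k → A ⊕ D) (β : (act b) → κ) : {x : Fin k → ι // lab e x = b} :=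
  ⟨fun i => e.symm (fill (b i) fun h => β ⟨i, by simpa [act] using h⟩), by
    funext i
    simp only [lab, Equiv.apply_symm_apply, fill_map]⟩

theorem G_bij (b : Fin k → A ⊕ D) : Function.Bijective (G (κ := κ) e b) := by
  constructor
  · intro β γ h
    funext i
    have h1 := congrFun (congrArg Subtype.val h) i.1
    simp only [G] at h1
    have h2 := fill_inj _ _ _ (e.symm.injective h1)
    exact congrFun h2 (Finset.mem_filter.1 i.2).2
  · rintro ⟨x, hx⟩
    have h : ∀ i, ∃ β : (b i).isLeft = true → κ, fill (b i) β = e (x i) := fun i =>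
      fill_surj _ _ (congrFun hx i)
    choose β hβ using h
    refine ⟨fun i => β i.1 (Finset.mem_filter.1 i.2).2, ?_⟩
    apply Subtype.ext
    funext i
    simp only [G]
    rw [Equiv.symm_apply_eq]
    exact hβ i

theorem tens_zero {x y : Fin k → ι} (h : lab e x ≠ lab e y) :
    tens (S := Fin k) (ι := fun _ => ι) (fun _ => (blk A D N).submatrix e e) x y = 0 := by
  rw [ne_eq, funext_iff, not_forall] at h
  obtain ⟨i, hi⟩ := h
  refine Finset.prod_eq_zero (Finset.mem_univ i) ?_
  simp only [lab] at hi
  show blk A D N (e (x i)) (e (y i)) = 0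
  revert hi
  generalize e (x i) = s
  generalize e (y i) = t
  intro hi
  cases s <;> cases t
  · rw [blk]
    simp only [Sum.map_inl, Sum.inl.injEq] at hi
    rw [if_neg hi]
  · rfl
  · rfl
  · rw [blk]
    simp only [Sum.map_inr, id_eq, Sum.inr.injEq] at hi
    rw [if_neg hi]

theorem sum_cost (z : ℕ → ℕ) : ∑ b : Fin k → A ⊕ D, z (act b).card =
    ∑ U : Finset (Fin k), Fintype.card A ^ U.card * Fintype.card D ^ (k - U.card) * z U.card := by
  have h1 : ∀ b : Fin k → A ⊕ D, z (act b).card = ∑ U : Finset (Fin k), (∏ i, if i ∈ U then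
      (if (b i).isLeft = true then 1 else 0)
      else (if (b i).isLeft = true then 0 else 1)) * z U.card := by
    intro b
    rw [Finset.sum_eq_single (act b)]
    · rw [Finset.prod_eq_one, one_mul]
      intro i _
      by_cases h : (b i).isLeft = true <;> simp [act, h]
    · intro U _ hU
      obtain ⟨i, hi⟩ : ∃ i, ¬ (i ∈ U ↔ i ∈ act b) := by
        by_contra hc
        push Not at hc
        exact hU (Finset.ext hc)
      rw [Finset.prod_eq_zero (Finset.mem_univ i), zero_mul]
      by_cases h : (b i).isLeft = true
      · have : i ∉ U := by simpa [act, h] using hi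
        simp [this, h]
      · have : i ∈ U := by simpa [act, h] using hi
        simp [this, h]
    · intro h; exact absurd (Finset.mem_univ _) h
  rw [Finset.sum_congr rfl fun b _ => h1 b, Finset.sum_comm]
  refine Finset.sum_congr rfl fun U _ => ?_
  rw [← Finset.sum_mul]
  congr 1
  have h2 := Finset.prod_univ_sum (fun i : Fin k => (Finset.univ : Finset (A ⊕ D)))
    (fun i a => if i ∈ U then (if a.isLeft = true then 1 else 0)
        else (if a.isLeft = true then 0 else 1 : ℕ))
  rw [Fintype.piFinset_univ] at h2
  rw [← h2, ← Finset.prod_mul_prod_compl U]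
  congr 1
  · rw [Finset.prod_congr rfl (g := fun _ => Fintype.card A) fun i hi => ?_]
    · simp
    · simp only [hi, if_true]
      rw [Fintype.sum_sum_type]
      simp
  · rw [Finset.prod_congr rfl (g := fun _ => Fintype.card D) fun i hi => ?_]
    · simp [Finset.card_compl]
    · simp only [Finset.mem_compl] at hi
      simp only [hi, if_false]
      rw [Fintype.sum_sum_type]
      simp

theorem fiber_cost (lib : Lib) (z : ℕ → ℕ) (hz : ∀ j, MC (tens fun _ : Fin j => N) (z j))
    (b : Fin k → A ⊕ D) :
    MC ((tens (S := Fin k) (ι := fun _ => ι) (fun _ => (blk A D N).submatrix e e)).submatrix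
      (Subtype.val : {x // lab e x = b} → Fin k → ι)
      (Subtype.val : {x // lab e x = b} → Fin k → ι)) (z (act b).card) := by
  classical
  let g := Equiv.ofBijective _ (G_bij (κ := κ) e b)
  let f : act b ≃ Fin (act b).card := (act b).equivFin
  let h : (act b → κ) ≃ (Fin (act b).card → κ) := f.arrowCongr (Equiv.refl _)
  have h1 := lib.sub (g.symm.trans h) (g.symm.trans h) (hz (act b).card)
  refine cast ?_ h1
  congr 1
  ext x y
  obtain ⟨β, rfl⟩ := g.surjective x
  obtain ⟨γ, rfl⟩ := g.surjective y
  simp only [Matrix.submatrix_apply, Equiv.trans_apply, Equiv.symm_apply_apply]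
  have e1 : ∀ i : Fin k, (blk A D N).submatrix e e ((g β).1 i) ((g γ).1 i) =
      if hi : (b i).isLeft = true then
        N (β ⟨i, by simpa [act] using hi⟩) (γ ⟨i, by simpa [act] using hi⟩) else 1 := by
    intro i
    rw [Matrix.submatrix_apply]
    have : ∀ β : act b → κ, e ((g β).1 i) = fill (b i) fun h => β ⟨i, by simpa [act] using h⟩ := by
      intro β
      simp only [g, Equiv.ofBijective_apply, G, Equiv.apply_symm_apply]
    rw [this, this, fill_blk]
  unfold tens
  rw [Finset.prod_congr rfl fun i _ => e1 i]
  have e2 : ∏ i : Fin k, (if hi : (b i).isLeft = true then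
        N (β ⟨i, by simpa [act] using hi⟩) (γ ⟨i, by simpa [act] using hi⟩) else 1) =
      ∏ i : act b, N (β i) (γ i) := by
    rw [← Finset.prod_subset (Finset.subset_univ (act b)), ← Finset.prod_coe_sort]
    · refine Finset.prod_congr rfl fun i _ => ?_
      rw [dif_pos (Finset.mem_filter.1 i.2).2]
    · intro i _ hi
      rw [dif_neg (by simpa [act] using hi)]
  rw [e2]
  refine Fintype.prod_equiv f.symm _ _ fun i => ?_
  simp only [h, Equiv.arrowCongr_apply, Function.comp_apply, Equiv.refl_apply]

end BlkProof

open BlkProof in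
theorem blk_ : StBlk := by
  intro lib A D κ ι _ _ _ _ _ _ N e z hz k
  rw [← sum_cost]
  refine lib.block (lab e) (lab e) (fun b => z (act b).card) (fun x y h => tens_zero N e h) ?_
  intro b
  exact fiber_cost N e lib z hz b

end Crest.Agent.R324
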