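import Crest.Agent.R324.BTS

set_option autoImplicit false

noncomputable section

namespace Crest.Agent.R324

open Matrix Finset

namespace TS

variable {K W : Type}

/-- act on the coordinate `k` -/
def lift [DecidableEq K] (k : K) (s : TS W) : TS (K → W) where
  σ := fun X => Function.update X k (s.σ (X k))
  T := fun X => s.T (X k)
  c := s.c
  inv := by intro X; simp [s.inv]
  ht := by intro X h; simpa using s.ht _ h
  hc := s.hc

theorem lift_q [Fintype K] [DecidableEq K] [Fintype W] (k : K) (s : TS W) :
    (lift k s).q = s.q * Fintype.card W ^ (Fintype.card K - 1) := by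
  classical
  unfold q
  have : (univ.filter fun X : K → W => (lift k s).T X = true) =
      Fintype.piFinset (fun i : K => if i = k then (univ.filter fun w => s.T w = true) else univ) := by
    ext X
    simp only [mem_filter, mem_univ, true_and, Fintype.mem_piFinset, lift]
    constructor
    · intro h i
      by_cases hi : i = k
      · subst hi; simp [h]
      · simp [hi]
    · intro h
      simpa using h k
  rw [this, Fintype.card_piFinset, ← Finset.mul_prod_erase univ _ (mem_univ k), if_pos rfl]
  congr 1
  rw [Finset.prod_congr rfl (g := fun _ => Fintype.card W) (fun i hi => by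
    rw [if_neg (Finset.ne_of_mem_erase hi)]; simp)]
  simp [Finset.card_erase_of_mem]

theorem lift_mat [Fintype K] [DecidableEq K] [DecidableEq W] (k : K) (s : TS W) :
    (lift k s).mat = tens (S := K) (ι := fun _ => W) (Function.update (fun _ => 1) k s.mat) := by
  ext X Y
  have h1 : tens (S := K) (ι := fun _ => W) (Function.update (fun _ => 1) k s.mat) X Y =
      s.mat (X k) (Y k) * if (∀ i, i ≠ k → Y i = X i) then 1 else 0 := by
    unfold tens
    rw [← Finset.mul_prod_erase univ _ (mem_univ k), Function.update_self]
    congr 1
    by_cases h : ∀ i, i ≠ k → Y i = X i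
    · rw [if_pos h]
      apply Finset.prod_eq_one
      intro i hi
      rw [Function.update_of_ne (Finset.ne_of_mem_erase hi), h i (Finset.ne_of_mem_erase hi),
        Matrix.one_apply_eq]
    · rw [if_neg h]
      push Not at h
      obtain ⟨i, hi, hX⟩ := h
      apply Finset.prod_eq_zero (Finset.mem_erase.2 ⟨hi, mem_univ i⟩)
      rw [Function.update_of_ne hi, Matrix.one_apply_ne (Ne.symm hX)]
  rw [h1]
  unfold mat
  by_cases h : ∀ i, i ≠ k → Y i = X i
  · rw [if_pos h, mul_one]
    have e1 : Y = X ↔ Y k = X k := by
      constructor
      · intro h'; rw [h']
      · intro h'; ext i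
        by_cases hi : i = k
        · rw [hi, h']
        · exact h i hi
    have e2 : Y = (lift k s).σ X ↔ Y k = s.σ (X k) := by
      constructor
      · intro h'; rw [h']; simp [lift]
      · intro h'; ext i
        by_cases hi : i = k
        · subst hi; simp [lift, h']
        · simp [lift, hi, h i hi]
    simp only [e1, e2]
    rfl
  · rw [if_neg h, mul_zero]
    have e1 : ¬ Y = X := fun h' => h (fun i _ => by rw [h'])
    have e2 : ¬ Y = (lift k s).σ X := fun h' => h (fun i hi => by rw [h']; simp [lift, hi])
    simp [e1, e2]

theorem lift_prod (tm : StTensMul) [Fintype K] [DecidableEq K] [Fintype W] [DecidableEq W] (k : K)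
    (l : List (TS W)) :
    ((l.map (lift k)).map mat).prod =
      tens (S := K) (ι := fun _ => W) (Function.update (fun _ => 1) k (l.map mat).prod) := by
  induction l with
  | nil =>
    simp only [List.map_nil, List.prod_nil, Function.update_eq_self_iff.2 rfl]
    exact (tm.2 K (fun _ => W)).symm
  | cons s l ih =>
    simp only [List.map_cons, List.prod_cons]
    rw [ih, lift_mat, ← tm.1]
    congr 1
    ext1 i
    by_cases hi : i = k
    · subst hi; simp
    · simp [hi]

/-- all lifts -/
def lifts (K : Type) {W : Type} [Fintype K] [DecidableEq K] (l : List (TS W)) : List (TS (K → W)) :=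
  (univ : Finset K).toList.flatMap fun k => l.map (lift k)

theorem lifts_prod (tm : StTensMul) [Fintype K] [DecidableEq K] [Fintype W] [DecidableEq W]
    (l : List (TS W)) :
    ((lifts K l).map mat).prod = tens (S := K) (ι := fun _ => W) (fun _ => (l.map mat).prod) := by
  have h : ∀ L : List K, L.Nodup → ((L.flatMap fun k => l.map (lift k)).map mat).prod =
      tens (S := K) (ι := fun _ => W) (fun k => if k ∈ L then (l.map mat).prod else 1) := by
    intro L hL
    induction L with
    | nil => simpa using (tm.2 K (fun _ => W)).symm
    | cons k L ih =>
      rw [List.flatMap_cons, List.map_append, List.prod_append, ih (List.nodup_cons.1 hL).2,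
        lift_prod tm, ← tm.1]
      congr 1
      ext1 i
      by_cases hi : i = k
      · subst hi; simp [(List.nodup_cons.1 hL).1]
      · simp [hi]
  have := h (univ : Finset K).toList (Finset.nodup_toList _)
  simpa [lifts] using this

theorem lifts_tot [Fintype K] [DecidableEq K] [Fintype W] (l : List (TS W)) :
    tot (lifts K l) = Fintype.card K * (tot l * Fintype.card W ^ (Fintype.card K - 1)) := by
  have h1 : ∀ k : K, tot (l.map (lift k)) = tot l * Fintype.card W ^ (Fintype.card K - 1) := by
    intro k
    unfold tot
    rw [List.map_map, ← List.sum_map_mul_right]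
    congr 1
    apply List.map_congr_left
    intro s _
    exact lift_q k s
  have h : ∀ L : List K, tot (L.flatMap fun k => l.map (lift k)) =
      L.length * (tot l * Fintype.card W ^ (Fintype.card K - 1)) := by
    intro L
    induction L with
    | nil => simp
    | cons k L ih =>
      rw [List.flatMap_cons, tot_append, ih, h1, List.length_cons]
      ring
  have := h (univ : Finset K).toList
  simpa [lifts] using this

theorem lifts_length [Fintype K] [DecidableEq K] (l : List (TS W)) :
    (lifts K l).length = Fintype.card K * l.length := by
  simp [lifts]

end TS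

end Crest.Agent.R324
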