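import Crest.Agent.R324.BLift

set_option autoImplicit false

noncomputable section

namespace Crest.Agent.R324

open Matrix Finset

namespace TS

variable {ι κ X C : Type}

open Classical in
/-- the transvection `x_t += c x_s` -/
def tv (t s : ι) (h : t ≠ s) (c : ℂ) (hc : c ≠ 0) : TS ι where
  σ := Equiv.swap t s
  T := fun i => decide (i = t)
  c := c
  inv := by intro i; simp
  ht := by
    intro i hi
    have : i = t := by simpa using hi
    subst this
    simp [h.symm]
  hc := hc

open Classical in
theorem tv_op (t s : ι) (h : t ≠ s) (c : ℂ) (hc : c ≠ 0) (v : ι → ℂ) (i : ι) :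
    (tv t s h c hc).op v i = v i + if i = t then c * v s else 0 := by
  unfold op tv
  by_cases hi : i = t
  · subst hi; simp
  · simp [hi]

theorem tv_q [Fintype ι] (t s : ι) (h : t ≠ s) (c : ℂ) (hc : c ≠ 0) : (tv t s h c hc).q = 1 := by
  classical
  unfold q tv
  rw [Finset.card_eq_one]
  exact ⟨t, by ext i; simp⟩

open Classical in
/-- restrict the targets -/
def restrict (Q : ι → Prop) (s : TS ι) : TS ι where
  σ := s.σ
  T := fun i => s.T i && decide (Q i)
  c := s.c
  inv := s.inv
  ht := by
    intro i h
    simp only [Bool.and_eq_true, decide_eq_true_eq] at h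
    simp [s.ht i h.1]
  hc := s.hc

open Classical in
theorem restrict_op (Q : ι → Prop) (s : TS ι) (v : ι → ℂ) (i : ι) :
    (restrict Q s).op v i = v i + if s.T i = true ∧ Q i then s.c * v (s.σ i) else 0 := by
  unfold op restrict
  by_cases h : s.T i = true ∧ Q i
  · simp [h]
  · by_cases h1 : s.T i = true
    · have h2 : ¬ Q i := fun h2 => h ⟨h1, h2⟩
      simp [h1, h2]
    · simp [h1]

theorem restrict_T (Q : ι → Prop) (s : TS ι) (i : ι) :
    (restrict Q s).T i = true ↔ s.T i = true ∧ Q i := by
  simp [restrict]

theorem run_restrict_in (Q : ι → Prop) (l : List (TS ι))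
    (hQ : ∀ s ∈ l, ∀ i, s.T i = true → (Q (s.σ i) ↔ Q i)) (v w : ι → ℂ)
    (hvw : ∀ i, Q i → v i = w i) :
    ∀ i, Q i → run (l.map (restrict Q)) v i = run l w i := by
  induction l with
  | nil => exact hvw
  | cons s l ih =>
    intro i hi
    have ih' := ih (fun s' hs' => hQ s' (List.mem_cons_of_mem _ hs'))
    rw [List.map_cons, run_cons, run_cons, restrict_op, ih' i hi]
    unfold op
    by_cases h : s.T i = true
    · rw [if_pos ⟨h, hi⟩, if_pos h, ih' _ ((hQ s List.mem_cons_self i h).2 hi)]
    · rw [if_neg (fun h' => h h'.1), if_neg h]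

theorem run_restrict_out (Q : ι → Prop) (l : List (TS ι)) (v : ι → ℂ) :
    ∀ i, ¬ Q i → run (l.map (restrict Q)) v i = v i := by
  induction l with
  | nil => intro i _; rfl
  | cons s l ih =>
    intro i hi
    rw [List.map_cons, run_cons, restrict_op, ih i hi, if_neg (fun h => hi h.2), add_zero]

theorem q_restrict_add [Fintype ι] (Q : ι → Prop) (s : TS ι) :
    (restrict Q s).q + (restrict (fun i => ¬ Q i) s).q = s.q := by
  classical
  unfold q
  simp only [restrict_T]
  rw [← Finset.card_filter_add_card_filter_not (s := univ.filter fun i => s.T i = true) Q,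
    Finset.filter_filter, Finset.filter_filter]

theorem tot_restrict_add [Fintype ι] (Q : ι → Prop) (l : List (TS ι)) :
    tot (l.map (restrict Q)) + tot (l.map (restrict (fun i => ¬ Q i))) = tot l := by
  induction l with
  | nil => rfl
  | cons s l ih =>
    simp only [List.map_cons, tot_cons]
    have := q_restrict_add Q s
    omega

open Classical in
/-- transport a layer through an injection `κ × C → X` -/
def push (f : κ × C → X) (hf : Function.Injective f) (s : TS C) : TS X where
  σ := fun x => if h : ∃ p, f p = x then f (h.choose.1, s.σ h.choose.2) else x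
  T := fun x => if h : ∃ p, f p = x then s.T h.choose.2 else false
  c := s.c
  inv := by
    intro x
    by_cases h : ∃ p, f p = x
    · obtain ⟨p, rfl⟩ := h
      have h1 : ∃ p', f p' = f p := ⟨p, rfl⟩
      have h2 : h1.choose = p := hf h1.choose_spec
      rw [dif_pos h1, h2]
      have h3 : ∃ p', f p' = f (p.1, s.σ p.2) := ⟨_, rfl⟩
      have h4 : h3.choose = (p.1, s.σ p.2) := hf h3.choose_spec
      rw [dif_pos h3, h4]
      simp [s.inv]
    · rw [dif_neg h, dif_neg h]
  ht := by
    intro x
    by_cases h : ∃ p, f p = x
    · obtain ⟨p, rfl⟩ := h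
      have h1 : ∃ p', f p' = f p := ⟨p, rfl⟩
      have h2 : h1.choose = p := hf h1.choose_spec
      rw [dif_pos h1, dif_pos h1, h2]
      have h3 : ∃ p', f p' = f (p.1, s.σ p.2) := ⟨_, rfl⟩
      have h4 : h3.choose = (p.1, s.σ p.2) := hf h3.choose_spec
      rw [dif_pos h3, h4]
      exact s.ht _
    · rw [dif_neg h]
      intro h'
      exact absurd h' (by simp)
  hc := s.hc

theorem push_σ (f : κ × C → X) (hf : Function.Injective f) (s : TS C) (p : κ × C) :
    (push f hf s).σ (f p) = f (p.1, s.σ p.2) := by
  have h1 : ∃ p', f p' = f p := ⟨p, rfl⟩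
  have h2 : h1.choose = p := hf h1.choose_spec
  unfold push
  simp only
  rw [dif_pos h1, h2]

theorem push_T (f : κ × C → X) (hf : Function.Injective f) (s : TS C) (p : κ × C) :
    (push f hf s).T (f p) = s.T p.2 := by
  have h1 : ∃ p', f p' = f p := ⟨p, rfl⟩
  have h2 : h1.choose = p := hf h1.choose_spec
  unfold push
  simp only
  rw [dif_pos h1, h2]

theorem push_T_out (f : κ × C → X) (hf : Function.Injective f) (s : TS C) (x : X)
    (h : ¬ ∃ p, f p = x) : (push f hf s).T x = false := by
  unfold push
  simp only
  rw [dif_neg h]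

theorem push_op_in (f : κ × C → X) (hf : Function.Injective f) (s : TS C) (v : X → ℂ)
    (a : κ) (c : C) : (push f hf s).op v (f (a, c)) = s.op (fun c' => v (f (a, c'))) c := by
  unfold op
  rw [push_T, push_σ]
  rfl

theorem push_op_out (f : κ × C → X) (hf : Function.Injective f) (s : TS C) (v : X → ℂ)
    (x : X) (h : ¬ ∃ p, f p = x) : (push f hf s).op v x = v x := by
  unfold op
  rw [push_T_out f hf s x h]
  simp

theorem run_push_in (f : κ × C → X) (hf : Function.Injective f) (l : List (TS C)) (v : X → ℂ)
    (a : κ) (c : C) :
    run (l.map (push f hf)) v (f (a, c)) = run l (fun c' => v (f (a, c'))) c := by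
  induction l generalizing c with
  | nil => rfl
  | cons s l ih =>
    rw [List.map_cons, run_cons, run_cons, push_op_in]
    congr 1
    ext c'
    exact ih c'

theorem run_push_out (f : κ × C → X) (hf : Function.Injective f) (l : List (TS C)) (v : X → ℂ)
    (x : X) (h : ¬ ∃ p, f p = x) : run (l.map (push f hf)) v x = v x := by
  induction l with
  | nil => rfl
  | cons s l ih => rw [List.map_cons, run_cons, push_op_out f hf s _ x h, ih]

theorem push_q [Fintype κ] [Fintype C] [Fintype X] (f : κ × C → X) (hf : Function.Injective f)
    (s : TS C) : (push f hf s).q = Fintype.card κ * s.q := by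
  classical
  unfold q
  have : (univ.filter fun x => (push f hf s).T x = true) =
      (univ ×ˢ (univ.filter fun c => s.T c = true)).map ⟨f, hf⟩ := by
    ext x
    simp only [mem_filter, mem_univ, true_and, mem_map, mem_product, Function.Embedding.coeFn_mk]
    constructor
    · intro h
      by_cases hx : ∃ p, f p = x
      · obtain ⟨p, rfl⟩ := hx
        rw [push_T] at h
        exact ⟨p, h, rfl⟩
      · rw [push_T_out f hf s x hx] at h
        exact absurd h (by simp)
    · rintro ⟨p, hp, rfl⟩
      rw [push_T]
      exact hp
  rw [this, Finset.card_map, Finset.card_product, Finset.card_univ]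

theorem tot_push [Fintype κ] [Fintype C] [Fintype X] (f : κ × C → X) (hf : Function.Injective f)
    (l : List (TS C)) : tot (l.map (push f hf)) = Fintype.card κ * tot l := by
  induction l with
  | nil => rfl
  | cons s l ih => rw [List.map_cons, tot_cons, tot_cons, ih, push_q]; ring

end TS

/-! ## star layers on a site -/

section Site

variable {X0 : Type} {b : ℕ}

/-- the layers `x_{enc g} += x_{enc none}` -/
def sS (enc : Option (Fin b) → X0) (he : Function.Injective enc) : List (TS X0) :=
  (List.finRange b).map fun g =>
    TS.tv (enc (some g)) (enc none) (fun h => by simpa using he h) 1 one_ne_zero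

open Classical in
/-- matrix of the star -/
def Smat (enc : Option (Fin b) → X0) : Matrix X0 X0 ℂ := fun x y =>
  if y = x ∨ ((∃ g, x = enc (some g)) ∧ y = enc none) then 1 else 0

theorem sS_prod [Fintype X0] [DecidableEq X0] (enc : Option (Fin b) → X0)
    (he : Function.Injective enc) : ((sS enc he).map TS.mat).prod = Smat enc := by
  classical
  apply TS.eq_of_mulVec
  intro v
  rw [TS.prod_mulVec]
  have hne : ∀ g, enc none ≠ enc (some g) := fun g h => by simpa using he h
  have h : ∀ L : List (Fin b), L.Nodup → ∀ x,
      TS.run (L.map fun g => TS.tv (enc (some g)) (enc none) (fun h => by simpa using he h) 1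
        one_ne_zero) v x = v x + if (∃ g ∈ L, x = enc (some g)) then v (enc none) else 0 := by
    intro L hL
    induction L with
    | nil => intro x; simp
    | cons g L ih =>
      intro x
      have ih' := ih (List.nodup_cons.1 hL).2
      rw [List.map_cons, TS.run_cons, TS.tv_op, ih' x, ih' (enc none),
        if_neg (fun ⟨g', _, h⟩ => hne g' h : ¬ ∃ g' ∈ L, enc none = enc (some g'))]
      by_cases hx : x = enc (some g)
      · have h1 : ¬ ∃ g' ∈ L, x = enc (some g') := by
          rintro ⟨g', hg', h⟩
          have : g = g' := by simpa using he (hx.symm.trans h)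
          subst this
          exact (List.nodup_cons.1 hL).1 hg'
        rw [if_pos hx, if_neg h1, if_pos ⟨g, List.mem_cons_self, hx⟩]
        ring
      · rw [if_neg hx, add_zero]
        congr 1
        apply if_congr _ rfl rfl
        constructor
        · rintro ⟨g', hg', h⟩; exact ⟨g', List.mem_cons_of_mem _ hg', h⟩
        · rintro ⟨g', hg', h⟩
          rcases List.mem_cons.1 hg' with rfl | hg'
          · exact absurd h hx
          · exact ⟨g', hg', h⟩
  ext x
  have h2 := h (List.finRange b) (List.nodup_finRange b) x
  rw [show TS.run (sS enc he) v x = _ from h2]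
  simp only [List.mem_finRange, true_and, Smat, Matrix.mulVec, dotProduct, ite_mul, one_mul,
    zero_mul]
  by_cases hx : ∃ g, x = enc (some g)
  · obtain ⟨g, hg⟩ := hx
    have hne' : x ≠ enc none := by rw [hg]; exact (hne g).symm
    rw [if_pos ⟨g, hg⟩]
    rw [Finset.sum_ite, Finset.sum_const_zero, add_zero]
    have : (univ.filter fun y => y = x ∨ ((∃ g, x = enc (some g)) ∧ y = enc none)) =
        {x, enc none} := by
      ext y
      simp only [mem_filter, mem_univ, true_and, mem_insert, mem_singleton]
      constructor
      · rintro (h | ⟨_, h⟩)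
        · exact Or.inl h
        · exact Or.inr h
      · rintro (h | h)
        · exact Or.inl h
        · exact Or.inr ⟨⟨g, hg⟩, h⟩
    rw [this, Finset.sum_pair hne']
  · rw [if_neg hx]
    simp [hx]

end Site

end Crest.Agent.R324
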