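import Crest.Agent.R324.BDefs

set_option autoImplicit false

noncomputable section

namespace Crest.Agent.R324

open Matrix Finset

/-- layer of disjoint transvections with a common coefficient -/
structure TS (ι : Type) where
  σ : ι → ι
  T : ι → Bool
  c : ℂ
  inv : ∀ i, σ (σ i) = i
  ht : ∀ i, T i = true → T (σ i) = false
  hc : c ≠ 0

namespace TS

variable {ι κ : Type}

def op (s : TS ι) (v : ι → ℂ) : ι → ℂ := fun i => v i + if s.T i = true then s.c * v (s.σ i) else 0

def mat [DecidableEq ι] (s : TS ι) : Matrix ι ι ℂ := fun i j =>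
  (if j = i then 1 else 0) + (if s.T i = true ∧ j = s.σ i then s.c else 0)

def q [Fintype ι] (s : TS ι) : ℕ := (univ.filter fun i => s.T i = true).card

theorem mat_mulVec [Fintype ι] [DecidableEq ι] (s : TS ι) (v : ι → ℂ) :
    s.mat.mulVec v = s.op v := by
  ext i
  simp only [mat, Matrix.mulVec, dotProduct, op, add_mul, Finset.sum_add_distrib, ite_mul, one_mul,
    zero_mul, Finset.sum_ite_eq', Finset.mem_univ, if_true]
  congr 1
  by_cases h : s.T i = true
  · simp [h]
  · simp [h]

/-- run a list of layers, the last one first (as in the product of matrices) -/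
def run (l : List (TS ι)) (v : ι → ℂ) : ι → ℂ := l.foldr (fun s w => s.op w) v

@[simp] theorem run_nil (v : ι → ℂ) : run [] v = v := rfl
@[simp] theorem run_cons (s : TS ι) (l : List (TS ι)) (v : ι → ℂ) :
    run (s :: l) v = s.op (run l v) := rfl
theorem run_append (l l' : List (TS ι)) (v : ι → ℂ) : run (l ++ l') v = run l (run l' v) := by
  simp [run]

theorem prod_mulVec [Fintype ι] [DecidableEq ι] (l : List (TS ι)) (v : ι → ℂ) :
    (l.map mat).prod.mulVec v = run l v := by
  induction l with
  | nil => simp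
  | cons s l ih => rw [List.map_cons, List.prod_cons, ← Matrix.mulVec_mulVec, ih, mat_mulVec, run_cons]

theorem eq_of_mulVec [Fintype ι] [DecidableEq ι] (M N : Matrix ι ι ℂ)
    (h : ∀ v, M.mulVec v = N.mulVec v) : M = N := by
  ext i j
  have := congrFun (h (Pi.single j 1)) i
  simpa using this

def tot [Fintype ι] (l : List (TS ι)) : ℕ := (l.map q).sum

@[simp] theorem tot_nil [Fintype ι] : tot ([] : List (TS ι)) = 0 := rfl
@[simp] theorem tot_cons [Fintype ι] (s : TS ι) (l : List (TS ι)) : tot (s :: l) = s.q + tot l := rfl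
theorem tot_append [Fintype ι] (l l' : List (TS ι)) : tot (l ++ l') = tot l + tot l' := by
  simp [tot]

/-- relabelling -/
def reindex (e : κ ≃ ι) (s : TS ι) : TS κ where
  σ := fun k => e.symm (s.σ (e k))
  T := fun k => s.T (e k)
  c := s.c
  inv := by intro i; simp [s.inv]
  ht := by intro i h; simpa using s.ht _ h
  hc := s.hc

theorem reindex_mat [DecidableEq ι] [DecidableEq κ] (e : κ ≃ ι) (s : TS ι) :
    (s.reindex e).mat = s.mat.submatrix e e := by
  ext i j
  simp only [mat, reindex, Matrix.submatrix_apply, e.injective.eq_iff]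
  congr 1
  have : (j = e.symm (s.σ (e i))) ↔ (e j = s.σ (e i)) := by
    rw [Equiv.eq_symm_apply]
  simp only [this]

theorem reindex_q [Fintype ι] [Fintype κ] (e : κ ≃ ι) (s : TS ι) : (s.reindex e).q = s.q := by
  unfold q
  refine Finset.card_bij (fun k _ => e k) ?_ ?_ ?_
  · intro k hk; simpa [reindex] using hk
  · intro a _ b _ h; exact e.injective h
  · intro b hb
    exact ⟨e.symm b, by simpa [reindex] using hb, by simp⟩

theorem reindex_prod [Fintype ι] [DecidableEq ι] [Fintype κ] [DecidableEq κ] (e : κ ≃ ι)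
    (l : List (TS ι)) :
    ((l.map (reindex e)).map mat).prod = ((l.map mat).prod).submatrix e e := by
  induction l with
  | nil =>
    simp only [List.map_nil, List.prod_nil]
    exact (Matrix.submatrix_one_equiv e).symm
  | cons s l ih =>
    simp only [List.map_cons, List.prod_cons, ih, reindex_mat]
    rw [Matrix.submatrix_mul_equiv]

theorem reindex_tot [Fintype ι] [Fintype κ] (e : κ ≃ ι) (l : List (TS ι)) :
    tot (l.map (reindex e)) = tot l := by
  unfold tot
  rw [List.map_map]
  congr 1
  apply List.map_congr_left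
  intro s _
  exact reindex_q e s

/-! ### conversion to steps -/

def st1 (s : TS ι) : Step ι where
  π := 1
  d := fun i => if s.T i = true then s.c else 1
  σ := s.σ
  T := s.T
  inv := s.inv
  ht := s.ht

def st2 (s : TS ι) : Step ι where
  π := 1
  d := fun i => if s.T i = true then s.c⁻¹ else 1
  σ := id
  T := fun _ => false
  inv := fun _ => rfl
  ht := fun _ h => by simp at h

theorem st_mat [Fintype ι] [DecidableEq ι] (s : TS ι) : s.st1.mat * s.st2.mat = s.mat := by
  ext i j
  have h2 : s.st2.mat = Matrix.diagonal (fun i => if s.T i = true then s.c⁻¹ else 1) := by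
    ext i j
    simp only [Step.mat, st2, Equiv.Perm.coe_one, id_eq, Bool.false_eq_true, false_and, or_false,
      Matrix.diagonal_apply, eq_comm]
  rw [h2, Matrix.mul_diagonal]
  simp only [Step.mat, st1, mat, Equiv.Perm.coe_one, id_eq]
  by_cases hT : s.T i = true
  · have hT' := s.ht i hT
    have hne : s.σ i ≠ i := by
      intro h; rw [h] at hT'; rw [hT'] at hT; exact absurd hT (by simp)
    by_cases hj : j = i
    · subst hj
      simp [hT, s.hc, hne.symm]
    · by_cases hj2 : j = s.σ i
      · subst hj2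
        simp [hT, hT', hj]
      · simp [hT, hj, hj2]
  · by_cases hj : j = i
    · subst hj
      simp [hT]
    · simp [hT, hj]

def steps (l : List (TS ι)) : List (Step ι) := l.flatMap fun s => [s.st1, s.st2]

theorem steps_prod [Fintype ι] [DecidableEq ι] (l : List (TS ι)) :
    ((steps l).map Step.mat).prod = (l.map mat).prod := by
  induction l with
  | nil => simp [steps]
  | cons s l ih =>
    have : steps (s :: l) = s.st1 :: s.st2 :: steps l := by simp [steps]
    rw [this, List.map_cons, List.map_cons, List.prod_cons, List.prod_cons, ih, List.map_cons,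
      List.prod_cons, ← mul_assoc, st_mat]

end TS

/-- weighted AM-GM -/
theorem rpow_le_lin (θ w : ℝ) (h0 : 0 < θ) (h1 : θ < 1) (hw : 0 ≤ w) :
    w ^ θ ≤ θ * w + (1 - θ) := by
  have h := Real.geom_mean_le_arith_mean2_weighted h0.le (by linarith : 0 ≤ 1 - θ) hw zero_le_one
    (by ring)
  simpa using h

theorem sum_steps_le (m : ℕ) (θ : ℝ) (h0 : 0 < θ) (h1 : θ < 1) (l : List (TS (Fin m → Bool))) :
    ((TS.steps l).map fun s => (2 * (s.q : ℝ) / 2 ^ m) ^ θ).sum ≤
      θ * (2 * (TS.tot l : ℝ) / 2 ^ m) + (1 - θ) * l.length := by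
  induction l with
  | nil => simp [TS.steps]
  | cons s l ih =>
    have h : TS.steps (s :: l) = s.st1 :: s.st2 :: TS.steps l := by simp [TS.steps]
    rw [h, List.map_cons, List.map_cons, List.sum_cons, List.sum_cons]
    have hq1 : s.st1.q = s.q := rfl
    have hq2 : s.st2.q = 0 := by simp [Step.q, TS.st2]
    rw [hq1, hq2]
    have h3 : (2 * ((0 : ℕ) : ℝ) / 2 ^ m) ^ θ = 0 := by
      simp [Real.zero_rpow h0.ne']
    have h4 := rpow_le_lin θ (2 * (s.q : ℝ) / 2 ^ m) h0 h1 (by positivity)
    rw [h3, TS.tot_cons, List.length_cons]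
    push_cast
    have e : θ * (2 * ((s.q : ℝ) + (TS.tot l : ℝ)) / 2 ^ m) =
      θ * (2 * (s.q : ℝ) / 2 ^ m) + θ * (2 * (TS.tot l : ℝ) / 2 ^ m) := by ring
    rw [e]
    linarith

/-- `HBt` from a list of transvection layers -/
theorem hbt_of_ts (θ : ℝ) (h0 : 0 < θ) (h1 : θ < 1) (m : ℕ) (hm : 2 ≤ m)
    (l : List (TS (Fin m → Bool))) (hp : (l.map TS.mat).prod = ZP (Fin m)) (δ : ℝ) (N : ℕ)
    (hN : l.length ≤ N)
    (hq : 2 * (TS.tot l : ℝ) / 2 ^ m ≤ m - δ)
    (hnum : (1 - θ) * (N + m * (Real.log m - 1)) < θ * δ) : HBt θ := by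
  refine ⟨m, hm, TS.steps l, by rw [TS.steps_prod, hp], ?_⟩
  have h := sum_steps_le m θ h0 h1 l
  have hm0 : (0 : ℝ) < m := by positivity
  have h2 : (m : ℝ) * (1 - (1 - θ) * Real.log m) ≤ (m : ℝ) ^ θ := by
    have e : (m : ℝ) ^ θ = m * Real.exp (-((1 - θ) * Real.log m)) := by
      rw [Real.rpow_def_of_pos hm0]
      conv_rhs => rw [← Real.exp_log hm0]
      rw [← Real.exp_add]
      congr 1
      rw [Real.exp_log hm0]
      ring
    rw [e]
    apply mul_le_mul_of_nonneg_left _ hm0.le
    have := Real.add_one_le_exp (-((1 - θ) * Real.log m))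
    linarith
  have h3 : θ * (2 * (TS.tot l : ℝ) / 2 ^ m) ≤ θ * (m - δ) := mul_le_mul_of_nonneg_left hq h0.le
  have h4 : (1 - θ) * (l.length : ℝ) ≤ (1 - θ) * N :=
    mul_le_mul_of_nonneg_left (by exact_mod_cast hN) (by linarith)
  nlinarith [h, h2, h3, h4, hnum]

end Crest.Agent.R324
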