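import Crest.Agent.R324.Defs
import Crest.Agent.R324.BDefs

/-!
# Row 324, part (B), new route (helper11): the doubling chain

`star_b ⊗ star_b = L (star_{2b} ⊕ 1) E` with `L`, `E` sums of `b` copies of `star_b`; the loop is
closed at `B = 256` by an in-place program for `star_B^{⊗3}` with `1.7%` less than the naive cost.
-/

set_option autoImplicit false

noncomputable section

namespace Crest.Agent.R324

open Crest.FourierCircuit
open Matrix Finset

/-! ## matrices -/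

/-- star matrix on `Option β`: `x_s += x_none` -/
def SM (β : Type) [DecidableEq β] : Matrix (Option β) (Option β) ℂ := fun x y =>
  if x = y ∨ y = none then 1 else 0

/-- `star_b^{⊗k}` costs at most `c` -/
def SC (b k c : ℕ) : Prop := MC (tens fun _ : Fin k => SM (Fin b)) c

/-- `A` copies of `N` and an identity block on `D` -/
def blk (A D : Type) {κ : Type} [DecidableEq A] [DecidableEq D] (N : Matrix κ κ ℂ) :
    Matrix ((A × κ) ⊕ D) ((A × κ) ⊕ D) ℂ := fun x y =>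
  match x, y with
  | .inl p, .inl q => if p.1 = q.1 then N p.2 q.2 else 0
  | .inr d, .inr d' => if d = d' then 1 else 0
  | _, _ => 0

/-- BLK: tensor power of a block diagonal matrix -/
def StBlk : Prop := Lib → ∀ (A D κ ι : Type) [Fintype A] [Fintype D] [Fintype κ] [Fintype ι]
  [DecidableEq A] [DecidableEq D] (N : Matrix κ κ ℂ) (e : ι ≃ (A × κ) ⊕ D) (z : ℕ → ℕ),
  (∀ j, MC (tens fun _ : Fin j => N) (z j)) → ∀ k : ℕ,
  MC (tens fun _ : Fin k => (blk A D N).submatrix e e)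
    (∑ U : Finset (Fin k), Fintype.card A ^ U.card * Fintype.card D ^ (k - U.card) * z U.card)

/-- DBL: `(star_b ⊗ star_b)^{⊗k} = L^{⊗k} (star_{2b} ⊕ 1)^{⊗k} E^{⊗k}` -/
def StDbl : Prop := Lib → StTensMul → StBlk → ∀ (b : ℕ) (z z' : ℕ → ℕ),
  (∀ j, SC b j (z j)) → (∀ j, SC (2 * b) j (z' j)) → ∀ k : ℕ, SC b (2 * k)
    (2 * (∑ U : Finset (Fin k), b ^ U.card * (b + 1) ^ (k - U.card) * z U.card) +
      ∑ U : Finset (Fin k), (b * b) ^ (k - U.card) * z' U.card)

/-- TRV: a program for `star_B^{⊗3}` gives a bound for `star_B^{⊗3k}` (every `x_t += c x_s` is two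
steps, with `q = 0` and `q = 1`) -/
def StTrv : Prop := Lib → StTens → StTensMul → ∀ (B n : ℕ) (z : ℕ → ℕ), StarSched 3 B n → z 0 = 0 →
  (∀ j, MC (ZP (Fin j)) (z j)) → ∀ k : ℕ, SC B (3 * k)
    (n * (2 * ((B + 1) ^ 3) ^ k +
      ∑ U : Finset (Fin k), ((B + 1) ^ 3 - 2) ^ (k - U.card) * z U.card))

/-- INC: trivial facts -/
structure StInc : Prop where
  zero : ∀ b, SC b 0 0
  succ : ∀ b k c, SC b k c → SC b (k + 1) ((b + 1) * c + b * (b + 1) ^ k)
  z_of : ∀ k c, SC 1 k c → MC (ZP (Fin k)) c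

/-! ## numbers -/

/-- average of `t` over the binomial distribution -/
def EB (k : ℕ) (w : ℝ) (t : ℕ → ℝ) : ℝ :=
  ∑ U : Finset (Fin k), w ^ U.card * (1 - w) ^ (k - U.card) * t U.card

/-- SYS: a system of recursions (generalises `rec_`) -/
def StSys : Prop := ∀ (N : ℕ) (t : Fin N → ℕ → ℝ) (m : Fin N → ℕ) (A θ : ℝ)
  (L : Fin N → List (ℝ × Fin N × ℝ)) (c : Fin N → ℝ),
  (∀ i, 2 ≤ m i) → 0 < θ → θ < 1 → 0 ≤ A → (∀ i, 0 < c i) →
  (∀ i, ∀ p ∈ L i, 0 ≤ p.1 ∧ 0 ≤ p.2.2 ∧ p.2.2 ≤ 1) →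
  (∀ i, t i 0 = 0) → (∀ i k, 0 ≤ t i k) → (∀ i k, t i (k + 1) ≤ t i k + 1) →
  (∀ i k, t i (m i * k) ≤ A + ((L i).map fun p => p.1 * EB k p.2.2 (t p.2.1)).sum) →
  (∀ i, ((L i).map fun p => p.1 * (c p.2.1 * p.2.2 ^ θ)).sum < c i * (m i : ℝ) ^ θ) →
  ∃ K : ℝ, 0 ≤ K ∧ ∀ i k, t i k ≤ K * (k : ℝ) ^ θ

/-- length of the program for `star_256^{⊗3}` -/
def RR : ℕ := 49844992

/-- NUM: `θ = savingExponent`; try `c i = 2^i / (2^i + 1) * 0.998^i` -/
def StNum : Prop := ∃ c : ℕ → ℝ, (∀ i, 0 < c i) ∧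
  (∀ i < 8, 2 * (c i * ((2:ℝ) ^ i / (2 ^ i + 1)) ^ savingExponent) +
    c (i + 1) * ((2 * (2:ℝ) ^ i + 1) / (2 ^ i + 1) ^ 2) ^ savingExponent <
      c i * (2:ℝ) ^ savingExponent) ∧
  (RR : ℝ) * (c 0 * (2 / (257:ℝ) ^ 3) ^ savingExponent) < c 8 * (3:ℝ) ^ savingExponent

/-- ASMC: the tensor powers of `Z` -/
def StZB : Prop := Lib → StTens → StTensMul → StBlk → StDbl → StTrv → StInc → StSys → StCont →
  StNum → StarSched 3 256 RR → ∃ K : ℝ, 0 ≤ K ∧ ZB K savingExponent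

/-! ## the program -/

/-- programs: `(target, source, coefficient)`, head first -/
abbrev Pg (C : Type) := List (C × C × ℤ)

/-- registers of one block: `s = (i, e)`, `t = (j, d)` with `i`, `j` fixed -/
inductive LR (U : Type)
  | al (e d : Bool)
  | be (d : Bool) (u : U)
  | ga (e : Bool) (u : U)
  | X (e d : Bool) (u : U)
  deriving DecidableEq

def LR.isA {U : Type} : LR U → Bool
  | .al _ _ => true
  | .X _ _ _ => true
  | _ => false

def LR.isB {U : Type} : LR U → Bool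
  | .be _ _ => true
  | _ => false

def LR.isC {U : Type} : LR U → Bool
  | .ga _ _ => true
  | _ => false

/-- admissible instruction -/
def okI {U : Type} (p : LR U × LR U × ℤ) : Prop :=
  p.1 ≠ p.2.1 ∧ p.2.2 ≠ 0 ∧ (p.1.isB = true → p.2.1.isB = true) ∧
    (p.1.isC = true → p.2.1.isC = true)

/-- the top operation on one block -/
def topL {U : Type} (h : LR U → ℂ) : LR U → ℂ
  | .X e d u => h (.X e d u) + h (.al e d) + h (.be d u) + h (.ga e u)
  | x => h x

/-- GAD: the program of one block (`3K + r` slices) -/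
def StGad : Prop := ∀ K r : ℕ, 1 ≤ K → ∃ P : Pg (LR (Fin (3 * K + r))), (∀ p ∈ P, okI p) ∧
  (∀ h : LR (Fin (3 * K + r)) → ℂ, runl P h = topL h) ∧
  P.countP (fun p => p.1.isA) ≤ 35 * K + 10 + 12 * r ∧
  P.countP (fun p => p.1.isB) ≤ 16 * K ∧ P.countP (fun p => p.1.isC) ≤ 16 * K

/-- the top operation on `star^{⊗3}` -/
def topG {S T U : Type} (f : Option S × Option T × Option U → ℂ) :
    Option S × Option T × Option U → ℂ
  | (some s, some t, some u) => f (some s, some t, some u) + f (some s, some t, none) +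
      f (none, some t, some u) + f (some s, none, some u)
  | x => f x

/-- LOCK: all blocks in lockstep; `be`-instructions are executed once per `j`, `ga`-instructions
once per `i` -/
def StLock : Prop := ∀ (n : ℕ) (U : Type) [Fintype U] [DecidableEq U] (P : Pg (LR U)),
  (∀ p ∈ P, okI p) → (∀ h : LR U → ℂ, runl P h = topL h) →
  ∃ Q : Pg (Option (Fin n × Bool) × Option (Fin n × Bool) × Option U),
    (∀ p ∈ Q, p.1 ≠ p.2.1 ∧ p.2.2 ≠ 0) ∧ (∀ f, runl Q f = topG f) ∧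
    Q.length = n * n * P.countP (fun p => p.1.isA) + n * P.countP (fun p => p.1.isB) +
      n * P.countP (fun p => p.1.isC)

/-- PRE: `star^{⊗3} = Post ∘ Top ∘ Pre` -/
def StPre : Prop := ∀ (B N : ℕ) (S T U : Type) [DecidableEq S] [DecidableEq T] [DecidableEq U]
  (_ : S ≃ Fin B) (_ : T ≃ Fin B) (_ : U ≃ Fin B) (Q : Pg (Option S × Option T × Option U)),
  (∀ p ∈ Q, p.1 ≠ p.2.1 ∧ p.2.2 ≠ 0) → (∀ f, runl Q f = topG f) → Q.length ≤ N →
  StarSched 3 B (N + 6 * B ^ 2 + 3 * B)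

/-- SCHED -/
theorem sched (gad : StGad) (lock : StLock) (pre : StPre) : StarSched 3 256 RR := by
  obtain ⟨P, ok, hP, cA, cB, cC⟩ := gad 85 1 (by norm_num)
  obtain ⟨Q, okQ, hQ, hl⟩ := lock 128 (Fin (3 * 85 + 1)) P ok hP
  have e1 : Fin 128 × Bool ≃ Fin 256 :=
    Fintype.equivOfCardEq (by simp)
  have := pre 256 (128 * 128 * (35 * 85 + 10 + 12 * 1) + 128 * (16 * 85) + 128 * (16 * 85))
    (Fin 128 × Bool) (Fin 128 × Bool) (Fin (3 * 85 + 1)) e1 e1 (Equiv.refl _) Q okQ hQ (by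
      rw [hl]; gcongr)
  exact this

end Crest.Agent.R324
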