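import Crest.Agent.R324.Defs

set_option autoImplicit false

noncomputable section

namespace Crest.Agent.R324

open Crest.FourierCircuit
open Matrix Finset

namespace CircProof

/-- all available values -/
def vals {n : ℕ} (g : List LGate) (v : Fin n → ℂ) : List ℂ :=
  g.foldl (fun avail g => avail ++ [g.value avail]) (List.ofFn v ++ [0])

theorem vals_append {n : ℕ} (g : List LGate) (h : LGate) (v : Fin n → ℂ) :
    vals (g ++ [h]) v = vals g v ++ [h.value (vals g v)] := by
  simp [vals, List.foldl_append]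

theorem vals_length {n : ℕ} (g : List LGate) (v : Fin n → ℂ) :
    (vals g v).length = n + 1 + g.length := by
  induction g using List.reverseRecOn with
  | nil => simp [vals]
  | append_singleton g h ih => rw [vals_append, List.length_append, ih]; simp; ring

theorem reach_gates {n : ℕ} {A B : Set ((Fin n → ℂ) → ℂ)} {c : ℕ} (h : Reach A c B)
    (hA : A = Set.range (fun (i : Fin n) (v : Fin n → ℂ) => v i) ∪ {0}) :
    ∃ g : List LGate, g.length = c ∧ ∀ u ∈ B, ∃ p : ℕ, p < n + 1 + g.length ∧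
      ∀ v, (vals g v).getD p 0 = u v := by
  -- extend a list of gates
  have key : ∀ (g : List LGate) (h : LGate) (B : Set ((Fin n → ℂ) → ℂ)) (w : (Fin n → ℂ) → ℂ),
      (∀ u ∈ B, ∃ p : ℕ, p < n + 1 + g.length ∧ ∀ v, (vals g v).getD p 0 = u v) →
      (∀ v, h.value (vals g v) = w v) →
      ∀ u ∈ insert w B, ∃ p : ℕ, p < n + 1 + (g ++ [h]).length ∧
        ∀ v, (vals (g ++ [h]) v).getD p 0 = u v := by
    intro g h B w hB hw u hu
    rcases Set.mem_insert_iff.1 hu with rfl | hu
    · refine ⟨n + 1 + g.length, by simp, fun v => ?_⟩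
      rw [vals_append, List.getD_append_right _ _ _ _ (by rw [vals_length]), vals_length]
      simp [hw]
    · obtain ⟨p, hp, hv⟩ := hB u hu
      refine ⟨p, by simp; omega, fun v => ?_⟩
      rw [vals_append, List.getD_append _ _ _ _ (by rw [vals_length]; exact hp), hv]
  induction h with
  | refl =>
    refine ⟨[], rfl, ?_⟩
    intro u hu
    rw [hA] at hu
    rcases hu with ⟨i, rfl⟩ | hu
    · refine ⟨i, by have := i.2; omega, fun v => ?_⟩
      simp only [vals, List.foldl_nil]
      rw [List.getD_append _ _ _ _ (by simp)]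
      simp [List.getD_eq_getElem?_getD]
    · rw [Set.mem_singleton_iff] at hu
      refine ⟨n, by simp, fun v => ?_⟩
      simp only [vals, List.foldl_nil]
      rw [List.getD_append_right _ _ _ _ (by simp)]
      simp [hu]
  | add _ hu hv ih =>
    obtain ⟨g, hg, hB⟩ := ih
    obtain ⟨p, hp, hp'⟩ := hB _ hu
    obtain ⟨q, hq, hq'⟩ := hB _ hv
    refine ⟨g ++ [LGate.add p q], by simp [hg], key g _ _ _ hB fun v => ?_⟩
    simp only [LGate.value, hp', hq']
    rfl
  | sub _ hu hv ih =>
    obtain ⟨g, hg, hB⟩ := ih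
    obtain ⟨p, hp, hp'⟩ := hB _ hu
    obtain ⟨q, hq, hq'⟩ := hB _ hv
    refine ⟨g ++ [LGate.sub p q], by simp [hg], key g _ _ _ hB fun v => ?_⟩
    simp only [LGate.value, hp', hq']
    rfl
  | smul k _ hu ih =>
    obtain ⟨g, hg, hB⟩ := ih
    obtain ⟨p, hp, hp'⟩ := hB _ hu
    refine ⟨g ++ [LGate.smul k p], by simp [hg], key g _ _ _ hB fun v => ?_⟩
    simp only [LGate.value, hp']
    rfl

end CircProof

open CircProof in
theorem circ : StCirc := by
  intro n T c hT
  obtain ⟨c', hc', B', hB', hB⟩ := hT ((Fin n → ℂ) → ℂ)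
    (Set.range (fun (i : Fin n) (v : Fin n → ℂ) => v i) ∪ {0}) (fun i v => v i)
    (Or.inr rfl) (fun i => Or.inl ⟨i, rfl⟩)
  obtain ⟨g, hg, hgB⟩ := reach_gates hB' rfl
  have h1 : ∀ k : Fin n, ∃ p : ℕ, ∀ v, (vals g v).getD p 0 = T.mulVec v k := by
    intro k
    obtain ⟨p, _, hp⟩ := hgB _ (hB ⟨k, rfl⟩)
    refine ⟨p, fun v => ?_⟩
    rw [hp v]
    simp [Matrix.mulVec, dotProduct, Finset.sum_apply]
  choose out hout using h1
  exact ⟨⟨g, out⟩, fun v k => hout k v, by show g.length ≤ c; omega⟩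

end Crest.Agent.R324
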