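import Crest.Agent.R324.Defs

set_option autoImplicit false

noncomputable section

namespace Crest.Agent.R324

open Crest.FourierCircuit

theorem cont : StCont := by
  unfold StCont savingExponent
  constructor
  · exact Real.logb_pos (by norm_num) (by norm_num)
  · rw [Real.logb_lt_iff_lt_rpow (by norm_num) (by norm_num)]
    norm_num

end Crest.Agent.R324
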