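import Crest.Agent.R324.CDefs
import Crest.Agent.R324.BTS

set_option autoImplicit false

noncomputable section

namespace Crest.Agent.R324

open Matrix Finset

namespace DBL

/-- `star ⊗ star` -/
def S2 (b : ℕ) : Matrix (Option (Fin b) × Option (Fin b)) (Option (Fin b) × Option (Fin b)) ℂ :=
  fun p q => SM (Fin b) p.1 q.1 * SM (Fin b) p.2 q.2

/-- `Fin (m*k) → α ≃ Fin k → Fin m → α` -/
def cu (m k : ℕ) (α : Type) : (Fin (m * k) → α) ≃ (Fin k → Fin m → α) where
  toFun x := fun i j => x (finProdFinEquiv (j, i))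
  invFun y := fun a => y (finProdFinEquiv.symm a).2 (finProdFinEquiv.symm a).1
  left_inv := by
    intro x
    ext a
    show x (finProdFinEquiv ((finProdFinEquiv.symm a).1, (finProdFinEquiv.symm a).2)) = x a
    rw [Prod.mk.eta, Equiv.apply_symm_apply]
  right_inv := by
    intro y
    ext i j
    show y (finProdFinEquiv.symm (finProdFinEquiv (j, i))).2
      (finProdFinEquiv.symm (finProdFinEquiv (j, i))).1 = y i j
    rw [Equiv.symm_apply_apply]

theorem tens_cu (m k : ℕ) {α : Type} (N : Matrix α α ℂ) :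
    (tens fun _ : Fin (m * k) => N) =
      (tens fun _ : Fin k => (tens fun _ : Fin m => N)).submatrix (cu m k α) (cu m k α) := by
  ext x y
  simp only [Matrix.submatrix_apply, tens, cu, Equiv.coe_fn_mk]
  rw [← finProdFinEquiv.prod_comp, Fintype.prod_prod_type, Finset.prod_comm]

def tw (α : Type) : (Fin 2 → α) ≃ α × α := finTwoArrowEquiv α

theorem tens_two (b : ℕ) : (tens fun _ : Fin 2 => SM (Fin b)) =
    (S2 b).submatrix (tw (Option (Fin b))) (tw (Option (Fin b))) := by
  ext x y
  simp only [tens, Fin.prod_univ_two, Matrix.submatrix_apply, S2, tw, finTwoArrowEquiv_apply]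
  rfl

/-- index equivalence -/
def ix (b k : ℕ) : (Fin (2 * k) → Option (Fin b)) ≃ (Fin k → Option (Fin b) × Option (Fin b)) :=
  (cu 2 k _).trans (Equiv.piCongrRight fun _ => tw _)

theorem tens_ix (b k : ℕ) : (tens fun _ : Fin (2 * k) => SM (Fin b)) =
    (tens fun _ : Fin k => S2 b).submatrix (ix b k) (ix b k) := by
  rw [tens_cu, tens_two]
  ext x y
  simp only [Matrix.submatrix_apply, tens]
  rfl

def eL (b : ℕ) : Option (Fin b) × Option (Fin b) ≃ (Fin b × Option (Fin b)) ⊕ Option (Fin b) where
  toFun p := match p with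
    | (some s, t) => Sum.inl (s, t)
    | (none, t) => Sum.inr t
  invFun q := match q with
    | Sum.inl (s, t) => (some s, t)
    | Sum.inr t => (none, t)
  left_inv := by rintro ⟨_ | s, t⟩ <;> rfl
  right_inv := by rintro (⟨s, t⟩ | t) <;> rfl

def eE (b : ℕ) : Option (Fin b) × Option (Fin b) ≃ (Fin b × Option (Fin b)) ⊕ Option (Fin b) :=
  (Equiv.prodComm _ _).trans (eL b)

def ff (b : ℕ) : Fin b ⊕ Fin b ≃ Fin (2 * b) :=
  finSumFinEquiv.trans (finCongr (two_mul b).symm)

def eM (b : ℕ) : Option (Fin b) × Option (Fin b) ≃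
    (Unit × Option (Fin (2 * b))) ⊕ (Fin b × Fin b) where
  toFun p := match p with
    | (none, none) => Sum.inl ((), none)
    | (some s, none) => Sum.inl ((), some (ff b (Sum.inl s)))
    | (none, some t) => Sum.inl ((), some (ff b (Sum.inr t)))
    | (some s, some t) => Sum.inr (s, t)
  invFun q := match q with
    | Sum.inl (_, none) => (none, none)
    | Sum.inl (_, some g) => Sum.elim (fun s => (some s, none)) (fun t => (none, some t))
        ((ff b).symm g)
    | Sum.inr (s, t) => (some s, some t)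
  left_inv := by
    rintro ⟨_ | s, _ | t⟩
    · rfl
    · simp
    · simp
    · rfl
  right_inv := by
    rintro (⟨_, _ | g⟩ | ⟨s, t⟩)
    · rfl
    · simp only
      rcases h : (ff b).symm g with s | t
      · have h2 : ff b (Sum.inl s) = g := by rw [← h]; simp
        simp [h2]
      · have h2 : ff b (Sum.inr t) = g := by rw [← h]; simp
        simp [h2]
    · rfl

def ML (b : ℕ) := (blk (Fin b) (Option (Fin b)) (SM (Fin b))).submatrix (eL b) (eL b)
def ME (b : ℕ) := (blk (Fin b) (Option (Fin b)) (SM (Fin b))).submatrix (eE b) (eE b)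
def MM (b : ℕ) := (blk Unit (Fin b × Fin b) (SM (Fin (2 * b)))).submatrix (eM b) (eM b)

theorem sm_none {β : Type} [Fintype β] [DecidableEq β] (f : Option β → ℂ) :
    ∑ y, SM β none y * f y = f none := by
  rw [Fintype.sum_option]
  simp [SM]

theorem sm_some {β : Type} [Fintype β] [DecidableEq β] (f : Option β → ℂ) (s : β) :
    ∑ y, SM β (some s) y * f y = f none + f (some s) := by
  rw [Fintype.sum_option]
  simp [SM]

theorem ML_none (b : ℕ) (v : Option (Fin b) × Option (Fin b) → ℂ) (t : Option (Fin b)) :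
    (ML b).mulVec v (none, t) = v (none, t) := by
  simp only [Matrix.mulVec, dotProduct, Fintype.sum_prod_type, Fintype.sum_option (α := Fin b)]
  rcases t with _ | t <;> simp [ML, eL, blk]

theorem ML_some (b : ℕ) (v : Option (Fin b) × Option (Fin b) → ℂ) (s : Fin b)
    (t : Option (Fin b)) :
    (ML b).mulVec v (some s, t) = ∑ t', SM (Fin b) t t' * v (some s, t') := by
  simp only [Matrix.mulVec, dotProduct, Fintype.sum_prod_type, Fintype.sum_option (α := Fin b)]
  simp [ML, eL, blk, Finset.sum_add_distrib]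

theorem ME_none (b : ℕ) (v : Option (Fin b) × Option (Fin b) → ℂ) (t : Option (Fin b)) :
    (ME b).mulVec v (t, none) = v (t, none) := by
  simp only [Matrix.mulVec, dotProduct, Fintype.sum_prod_type, Fintype.sum_option (α := Fin b)]
  rcases t with _ | t <;> simp [ME, eE, eL, blk]

theorem ME_some (b : ℕ) (v : Option (Fin b) × Option (Fin b) → ℂ) (s : Fin b)
    (t : Option (Fin b)) :
    (ME b).mulVec v (t, some s) = ∑ t', SM (Fin b) t t' * v (t', some s) := by
  simp only [Matrix.mulVec, dotProduct, Fintype.sum_prod_type, Fintype.sum_option (α := Fin b)]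
  simp [ME, eE, eL, blk]

theorem MM_nn (b : ℕ) (v : Option (Fin b) × Option (Fin b) → ℂ) :
    (MM b).mulVec v (none, none) = v (none, none) := by
  simp only [Matrix.mulVec, dotProduct, Fintype.sum_prod_type, Fintype.sum_option (α := Fin b)]
  simp [MM, eM, blk, SM]

theorem MM_sn (b : ℕ) (v : Option (Fin b) × Option (Fin b) → ℂ) (s : Fin b) :
    (MM b).mulVec v (some s, none) = v (none, none) + v (some s, none) := by
  simp only [Matrix.mulVec, dotProduct, Fintype.sum_prod_type, Fintype.sum_option (α := Fin b)]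
  simp [MM, eM, blk, SM]

theorem MM_ns (b : ℕ) (v : Option (Fin b) × Option (Fin b) → ℂ) (t : Fin b) :
    (MM b).mulVec v (none, some t) = v (none, none) + v (none, some t) := by
  simp only [Matrix.mulVec, dotProduct, Fintype.sum_prod_type, Fintype.sum_option (α := Fin b)]
  simp [MM, eM, blk, SM]

theorem MM_ss (b : ℕ) (v : Option (Fin b) × Option (Fin b) → ℂ) (s t : Fin b) :
    (MM b).mulVec v (some s, some t) = v (some s, some t) := by
  simp only [Matrix.mulVec, dotProduct, Fintype.sum_prod_type, Fintype.sum_option (α := Fin b)]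
  simp [MM, eM, blk, ite_and]

theorem S2_mulVec (b : ℕ) (v : Option (Fin b) × Option (Fin b) → ℂ) (s t : Option (Fin b)) :
    (S2 b).mulVec v (s, t) = ∑ s', SM (Fin b) s s' * ∑ t', SM (Fin b) t t' * v (s', t') := by
  simp only [Matrix.mulVec, dotProduct, Fintype.sum_prod_type, S2, Finset.mul_sum, mul_assoc]

theorem fact (b : ℕ) : ML b * MM b * ME b = S2 b := by
  apply TS.eq_of_mulVec
  intro v
  rw [← Matrix.mulVec_mulVec, ← Matrix.mulVec_mulVec]
  ext ⟨s, t⟩
  rw [S2_mulVec]
  rcases s with _ | s <;> rcases t with _ | t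
  · rw [ML_none, MM_nn, ME_none, sm_none, sm_none]
  · rw [ML_none, MM_ns, ME_none, ME_some, sm_none, sm_none, sm_some]
  · rw [ML_some, sm_none, MM_sn, ME_none, ME_none, sm_some, sm_none, sm_none]
  · rw [ML_some, sm_some, MM_sn, MM_ss, ME_none, ME_none, ME_some, sm_some, sm_some, sm_some,
      sm_some]
    ring

end DBL

open DBL in
theorem dbl : StDbl := by
  intro lib tm hblk b z z' hz hz' k
  unfold SC
  rw [tens_ix]
  refine lib.sub (ix b k) (ix b k) ?_
  have e1 : (tens fun _ : Fin k => S2 b) = (tens fun _ : Fin k => ML b) *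
      (tens fun _ : Fin k => MM b) * (tens fun _ : Fin k => ME b) := by
    rw [← tm.1, ← tm.1]
    congr 1
    ext1 i
    exact (fact b).symm
  rw [e1]
  have hL := hblk lib (Fin b) (Option (Fin b)) (Option (Fin b))
    (Option (Fin b) × Option (Fin b)) (SM (Fin b)) (eL b) z hz k
  have hE := hblk lib (Fin b) (Option (Fin b)) (Option (Fin b))
    (Option (Fin b) × Option (Fin b)) (SM (Fin b)) (eE b) z hz k
  have hM := hblk lib Unit (Fin b × Fin b) (Option (Fin (2 * b)))
    (Option (Fin b) × Option (Fin b)) (SM (Fin (2 * b))) (eM b) z' hz' k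
  have h := lib.mul (lib.mul hL hM) hE
  refine lib.mono h (le_of_eq ?_)
  simp only [Fintype.card_fin, Fintype.card_option, Fintype.card_unit, one_pow, one_mul,
    Fintype.card_prod]
  ring

end Crest.Agent.R324
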