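import Mathlib
import Crest.Prelude.Def_LinCircuit

/-!
# Row 324 (S0501): interface

`MC T c`: the matrix `T` can be applied with `c` gates, in any complex vector space.
`Step ι`: one in-place layer on registers `ι`: simultaneous disjoint transvections `x_t += x_{σ t}`,
then a permutation and an arbitrary diagonal.
`HB`: the finite in-place identity (part B).
-/

set_option autoImplicit false

noncomputable section

namespace Crest.Agent.R324

open Crest.FourierCircuit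
open Matrix Finset

/-! ## Circuits in a module -/

/-- from the available set `A`, exactly `c` gates give the available set `B` -/
inductive Reach {X : Type} [AddCommGroup X] [Module ℂ X] : Set X → ℕ → Set X → Prop
  | refl (A : Set X) : Reach A 0 A
  | add {A B : Set X} {c : ℕ} {u v : X} (h : Reach A c B) (hu : u ∈ B) (hv : v ∈ B) :
      Reach A (c + 1) (insert (u + v) B)
  | sub {A B : Set X} {c : ℕ} {u v : X} (h : Reach A c B) (hu : u ∈ B) (hv : v ∈ B) :
      Reach A (c + 1) (insert (u - v) B)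
  | smul {A B : Set X} {c : ℕ} (k : ℂ) {u : X} (h : Reach A c B) (hu : u ∈ B) :
      Reach A (c + 1) (insert (k • u) B)

/-- everything in `B` is computable from `A` with at most `c` gates -/
def Comp {X : Type} [AddCommGroup X] [Module ℂ X] (A : Set X) (c : ℕ) (B : Set X) : Prop :=
  ∃ c' ≤ c, ∃ B', Reach A c' B' ∧ B ⊆ B'

/-- the matrix `T` can be applied with at most `c` gates -/
def MC {κ ι : Type} [Fintype ι] (T : Matrix κ ι ℂ) (c : ℕ) : Prop :=
  ∀ (X : Type) [AddCommGroup X] [Module ℂ X] (A : Set X) (x : ι → X), (0 : X) ∈ A →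
    (∀ i, x i ∈ A) → Comp A c (Set.range fun k => ∑ i, T k i • x i)

/-- Library of closure properties (helper15 writes `lib : Lib`) -/
structure Lib : Prop where
  mono : ∀ {κ ι : Type} [Fintype ι] {T : Matrix κ ι ℂ} {c d : ℕ}, MC T c → c ≤ d → MC T d
  mul : ∀ {κ μ ι : Type} [Fintype μ] [Fintype ι] {S : Matrix κ μ ℂ} {T : Matrix μ ι ℂ} {c d : ℕ},
    MC S c → MC T d → MC (S * T) (c + d)
  /-- each row has at most one nonzero entry: one gate per row -/
  row : ∀ {κ ι : Type} [Fintype κ] [Fintype ι] {T : Matrix κ ι ℂ},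
    (∀ k, ∀ i j, T k i ≠ 0 → T k j ≠ 0 → i = j) → MC T (Fintype.card κ)
  /-- each row is zero or a unit vector: free -/
  sel : ∀ {κ ι : Type} [Fintype ι] [DecidableEq ι] {T : Matrix κ ι ℂ},
    (∀ k, (∀ i, T k i = 0) ∨ ∃ j, ∀ i, T k i = if i = j then 1 else 0) → MC T 0
  /-- block structure: `f` labels rows, `g` labels columns -/
  block : ∀ {κ ι β : Type} [Fintype ι] [Fintype β] [DecidableEq β] {T : Matrix κ ι ℂ}
    (f : κ → β) (g : ι → β) (c : β → ℕ), (∀ k i, f k ≠ g i → T k i = 0) →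
    (∀ b, MC (T.submatrix (Subtype.val : {k // f k = b} → κ) (Subtype.val : {i // g i = b} → ι))
      (c b)) → MC T (∑ b, c b)
  /-- select rows, relabel columns -/
  sub : ∀ {κ κ' ι ι' : Type} [Fintype ι] [Fintype ι'] {T : Matrix κ ι ℂ} {c : ℕ} (e : κ' → κ)
    (f : ι' ≃ ι), MC T c → MC (T.submatrix e f) c
  add : ∀ {κ ι : Type} [Fintype κ] [Fintype ι] {S T : Matrix κ ι ℂ} {c d : ℕ},
    MC S c → MC T d → MC (S + T) (c + d + Fintype.card κ)

/-- conversion to `LinCircuit` -/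
def StCirc : Prop := ∀ (n : ℕ) (T : Matrix (Fin n) (Fin n) ℂ) (c : ℕ), MC T c →
  ∃ P : LinCircuit n, P.Computes T ∧ P.size ≤ c

/-! ## Kronecker powers of `Z` and steps -/

/-- `Z^{⊗S}`: output `x` is the sum of the inputs `y ≤ x` -/
def ZP (S : Type) [Fintype S] : Matrix (S → Bool) (S → Bool) ℂ := fun x y =>
  if ∀ s, y s = true → x s = true then 1 else 0

/-- one in-place layer: `x_t += x_{σ t}` for all `t` with `T t`, then `y_i = d_i x_{π i}` -/
structure Step (ι : Type) where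
  π : Equiv.Perm ι
  d : ι → ℂ
  σ : ι → ι
  T : ι → Bool
  inv : ∀ i, σ (σ i) = i
  ht : ∀ i, T i = true → T (σ i) = false

def Step.mat {ι : Type} [DecidableEq ι] (s : Step ι) : Matrix ι ι ℂ := fun i j =>
  if j = s.π i ∨ (s.T (s.π i) = true ∧ j = s.σ (s.π i)) then s.d i else 0

/-- number of transvections of the layer -/
def Step.q {ι : Type} [Fintype ι] (s : Step ι) : ℕ := (univ.filter fun i => s.T i = true).card

/-- `M` is a product of `n` steps -/
def Steps {ι : Type} [Fintype ι] [DecidableEq ι] (M : Matrix ι ι ℂ) (n : ℕ) : Prop :=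
  ∃ l : List (Step ι), l.length = n ∧ (l.map Step.mat).prod = M

/-- the finite in-place identity with exponent `θ` -/
def HBt (θ : ℝ) : Prop := ∃ m : ℕ, 2 ≤ m ∧ ∃ l : List (Step (Fin m → Bool)),
  (l.map Step.mat).prod = ZP (Fin m) ∧
  (l.map fun s => (2 * (s.q : ℝ) / 2 ^ m) ^ θ).sum < (m : ℝ) ^ θ

/-- PART B (helper11) -/
def HB : Prop := HBt savingExponent

/-- `0 < θ < 1` -/
def StCont : Prop := 0 < savingExponent ∧ savingExponent < 1

/-- tensor product of a family of matrices -/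
def tens {S : Type} [Fintype S] {ι : S → Type} (M : ∀ i, Matrix (ι i) (ι i) ℂ) :
    Matrix (∀ i, ι i) (∀ i, ι i) ℂ := fun x y => ∏ i, M i (x i) (y i)

/-- tensor product of steps (needs `Lib`) -/
def StTens : Prop := ∀ (S : Type) [Fintype S] [DecidableEq S] (ι : S → Type)
  [∀ i, Fintype (ι i)] [∀ i, DecidableEq (ι i)] (s : ∀ i, Step (ι i)) (z : ℕ → ℕ),
  (∀ j, MC (ZP (Fin j)) (z j)) →
  MC (tens fun i => (s i).mat) (∏ i, Fintype.card (ι i) +
    ∑ U : Finset S, ((∏ i ∈ U, (s i).q) * ∏ i ∈ Uᶜ, (Fintype.card (ι i) - 2 * (s i).q)) * z U.card)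

def StTensMul : Prop := (∀ (S : Type) [Fintype S] [DecidableEq S] (ι : S → Type)
  [∀ i, Fintype (ι i)] (M N : ∀ i, Matrix (ι i) (ι i) ℂ),
    tens (fun i => M i * N i) = tens M * tens N) ∧
  ∀ (S : Type) [Fintype S] [DecidableEq S] (ι : S → Type)
  [∀ i, Fintype (ι i)] [∀ i, DecidableEq (ι i)], tens (fun i => (1 : Matrix (ι i) (ι i) ℂ)) = 1

/-- `Z^{⊗j}` costs at most `K 2^j j^θ` -/
def ZB (K θ : ℝ) : Prop := ∃ z : ℕ → ℕ, (∀ j, MC (ZP (Fin j)) (z j)) ∧
  ∀ j, (z j : ℝ) ≤ K * 2 ^ j * (j : ℝ) ^ θ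

/-- the recursion -/
def StRec : Prop := Lib → StTens → StTensMul → ∀ θ : ℝ, 0 < θ → θ < 1 → HBt θ → ∃ K : ℝ, 0 ≤ K ∧ ZB K θ

/-- tensor product of products of steps, crude bound -/
def StTensSteps : Prop := Lib → StTens → StTensMul → ∀ (K θ : ℝ), 0 ≤ K → 0 < θ → ZB K θ →
  ∀ (S : Type) [Fintype S] [DecidableEq S] (ι : S → Type)
  [∀ i, Fintype (ι i)] [∀ i, DecidableEq (ι i)] (M : ∀ i, Matrix (ι i) (ι i) ℂ) (L : ℕ),
  (∀ i, Steps (M i) L) → ∃ c : ℕ, MC (tens M) c ∧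
    (c : ℝ) ≤ L * (∏ i, (Fintype.card (ι i) : ℝ)) * (1 + K * (Fintype.card S : ℝ) ^ θ)

/-! ## In-place factorisations -/

/-- Vandermonde matrix of a geometric progression -/
def VM (q : ℕ) (ω : ℂ) : Matrix (Fin q) (Fin q) ℂ := fun j k => ω ^ ((j : ℕ) * (k : ℕ))

/-- lower triangular Toeplitz matrix -/
def LT (q : ℕ) (t : ℕ → ℂ) : Matrix (Fin q) (Fin q) ℂ := fun i j =>
  if (j : ℕ) ≤ i then t (i - j) else 0

/-- `q`-binomial factorisation -/
def StQB : Prop := ∀ (q : ℕ) (ω : ℂ), (∀ i, 0 < i → i < q → ω ^ i ≠ 1) →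
  ∃ (a b : Fin q → ℂ) (t : ℕ → ℂ), t 0 = 1 ∧
    VM q ω = diagonal a * LT q t * diagonal b * (LT q t)ᵀ * diagonal a

/-- registers `y k += ∑ X k l · (register z l)` -/
def Ad {ι a b : Type} [DecidableEq ι] [Fintype a] [Fintype b] (y : a → ι) (z : b → ι)
    (X : Matrix a b ℂ) : Matrix ι ι ℂ := fun i j =>
  (if i = j then 1 else 0) + ∑ k, ∑ l, if i = y k ∧ j = z l then X k l else 0

/-- `M` on the range of `e`, identity elsewhere -/
def ext {ι κ : Type} [Fintype κ] [DecidableEq ι] (e : κ → ι) (M : Matrix κ κ ℂ) :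
    Matrix ι ι ℂ := fun i j =>
  if (∃ k, i = e k) ∧ (∃ l, j = e l) then ∑ k, ∑ l, if i = e k ∧ j = e l then M k l else 0
  else if i = j then 1 else 0

/-- Library of in-place operations -/
structure SLib : Prop where
  mono : ∀ {ι : Type} [Fintype ι] [DecidableEq ι] {M : Matrix ι ι ℂ} {n n' : ℕ},
    Steps M n → n ≤ n' → Steps M n'
  mul : ∀ {ι : Type} [Fintype ι] [DecidableEq ι] {M N : Matrix ι ι ℂ} {n n' : ℕ},
    Steps M n → Steps N n' → Steps (M * N) (n + n')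
  one : ∀ {ι : Type} [Fintype ι] [DecidableEq ι], Steps (1 : Matrix ι ι ℂ) 0
  diag : ∀ {ι : Type} [Fintype ι] [DecidableEq ι] (d : ι → ℂ), Steps (diagonal d) 1
  perm : ∀ {ι : Type} [Fintype ι] [DecidableEq ι] (π : Equiv.Perm ι),
    Steps (fun i j => if j = π i then 1 else 0 : Matrix ι ι ℂ) 1
  /-- relabelling -/
  reindex : ∀ {ι κ : Type} [Fintype ι] [DecidableEq ι] [Fintype κ] [DecidableEq κ] (e : κ ≃ ι)
    {M : Matrix ι ι ℂ} {n : ℕ}, Steps M n → Steps (M.submatrix e e) n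
  /-- parallel composition of two independent register sets -/
  par : ∀ {ι κ : Type} [Fintype ι] [DecidableEq ι] [Fintype κ] [DecidableEq κ]
    {M : Matrix ι ι ℂ} {N : Matrix κ κ ℂ} {n : ℕ}, Steps M n → Steps N n →
    Steps (fromBlocks M 0 0 N) n
  /-- act on a subset of the registers -/
  ext : ∀ {ι κ : Type} [Fintype ι] [DecidableEq ι] [Fintype κ] [DecidableEq κ] (e : κ → ι),
    Function.Injective e → ∀ {M : Matrix κ κ ℂ} {n : ℕ}, Steps M n → Steps (ext e M) n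
  /-- disjoint transvections with arbitrary coefficients -/
  trans : ∀ {ι a : Type} [Fintype ι] [DecidableEq ι] [Fintype a] [DecidableEq a] (y z : a → ι),
    Function.Injective y → Function.Injective z → (∀ k l, y k ≠ z l) → ∀ c : a → ℂ,
    Steps (Ad y z (diagonal c)) 3

/-- power of two Fourier transform, in place -/
def StFFT : Prop := SLib → ∀ (j : ℕ) (ω : ℂ), IsPrimitiveRoot ω (2 ^ j) →
  Steps (VM (2 ^ j) ω) (12 * j + 1)

/-- circulant matrices of order a power of two with nonzero eigenvalues, and Toeplitz operations -/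
def StToep : Prop := SLib → StFFT → ∃ C : ℕ, ∀ (ι : Type) [Fintype ι] [DecidableEq ι] (a b j : ℕ)
  (y : Fin a → ι) (v : Fin (2 ^ j) → ι) (c : ℤ → ℂ) (hab : a + b ≤ 2 ^ j),
  Function.Injective y → Function.Injective v → (∀ k l, y k ≠ v l) →
  Steps (Ad y (fun l : Fin b => v ⟨l, by omega⟩) (fun k l => c ((k : ℤ) - (l : ℤ)))) (C * (j + 1))

/-- additive operation with a product of matrices through dirty registers `w` -/
def StAdMul : Prop := ∀ (ι a b c : Type) [Fintype ι] [DecidableEq ι] [Fintype a] [Fintype b]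
  [Fintype c] [DecidableEq a] [DecidableEq b] [DecidableEq c]
  (y : a → ι) (w : c → ι) (z : b → ι), Function.Injective y → Function.Injective w →
  Function.Injective z → (∀ k l, y k ≠ w l) → (∀ k l, y k ≠ z l) → (∀ k l, w k ≠ z l) →
  ∀ (P : Matrix a c ℂ) (Q : Matrix c b ℂ),
    Ad y z (P * Q) = Ad y w (-P) * Ad w z (-Q) * Ad y w P * Ad w z Q

/-- block recursion for triangular Toeplitz matrices, in place -/
def StLT : Prop := SLib → StFFT → StToep → StAdMul → ∃ C : ℕ, ∀ (q : ℕ) (t : ℕ → ℂ), t 0 = 1 →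
  Steps (LT q t) (C * (Nat.log 2 q + 1) ^ 2)

/-- `VM q ω` in place -/
def StInp : Prop := SLib → StQB →
  (∃ C : ℕ, ∀ (q : ℕ) (t : ℕ → ℂ), t 0 = 1 → Steps (LT q t) (C * (Nat.log 2 q + 1) ^ 2)) →
  ∃ C : ℕ, ∀ (q : ℕ) (ω : ℂ), (∀ i, 0 < i → i < q → ω ^ i ≠ 1) →
    Steps (VM q ω) (C * (Nat.log 2 q + 1) ^ 2)

/-! ## Number theory and assembly -/

/-- Good–Thomas -/
def StGT : Prop := Lib → ∀ (s : ℕ) (p : Fin s → ℕ), (∀ i, 2 ≤ p i) →
  (∀ i j, i ≠ j → Nat.Coprime (p i) (p j)) → ∀ ω : ℂ, IsPrimitiveRoot ω (∏ i, p i) →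
  ∃ w : Fin s → ℂ, (∀ i, IsPrimitiveRoot (w i) (p i)) ∧
    ∀ c, MC (tens fun i => VM (p i) (w i)) c → MC (VM (∏ i, p i) ω) c

/-- choice of the length -/
def StPick : Prop := ∃ C : ℝ, ∀ n : ℕ, 3 ≤ n → ∃ (s : ℕ) (p : Fin s → ℕ), (∀ i, (p i).Prime) ∧
  Function.Injective p ∧ 2 * n ≤ ∏ i, p i ∧ ∏ i, p i ≤ 8 * n ∧ ∀ i, (p i : ℝ) ≤ C * Real.log n ^ 2

/-- reduction of the transform of order `n` to transforms of order `N ≥ 2n` -/
def StOut : Prop := Lib → StQB → ∀ (n N c : ℕ), 1 ≤ n → 2 * n ≤ N →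
  (∀ ω : ℂ, IsPrimitiveRoot ω N → MC (VM N ω) c) → MC (dftMatrix n) (4 * c + 20 * N)

/-- final assembly -/
def StFin : Prop := Lib → StCirc → StTensSteps → StTens → StTensMul → StGT → StPick → StOut → StQB →
  (∃ C : ℕ, ∀ (q : ℕ) (ω : ℂ), (∀ i, 0 < i → i < q → ω ^ i ≠ 1) →
    Steps (VM q ω) (C * (Nat.log 2 q + 1) ^ 2)) →
  (∀ θ K : ℝ, 0 < θ → θ < 1 → 0 ≤ K → ZB K θ →
    ∃ C : ℝ, ∃ N₀ : ℕ, ∀ n ≥ N₀, ∃ P : LinCircuit n, P.Computes (dftMatrix n) ∧
      (P.size : ℝ) ≤ C * n * Real.log n ^ θ * Real.log (Real.log n) ^ (4 - θ))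

end Crest.Agent.R324
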