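import Crest.Agent.R324.Defs

set_option autoImplicit false

namespace Crest.Agent.R324

open Finset Matrix

namespace FFT

theorem ad_lr (N : ℕ) (c : Fin N → ℂ) :
    Ad (Sum.inl : Fin N → Fin N ⊕ Fin N) Sum.inr (diagonal c) = fromBlocks 1 (diagonal c) 0 1 := by
  ext i j
  rcases i with i | i <;> rcases j with j | j
  · simp [Ad, Matrix.one_apply]
  · simp [Ad, ite_and]
  · simp [Ad]
  · simp [Ad, Matrix.one_apply]

theorem ad_rl (N : ℕ) (c : Fin N → ℂ) :
    Ad (Sum.inr : Fin N → Fin N ⊕ Fin N) Sum.inl (diagonal c) = fromBlocks 1 0 (diagonal c) 1 := by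
  ext i j
  rcases i with i | i <;> rcases j with j | j
  · simp [Ad, Matrix.one_apply]
  · simp [Ad]
  · simp [Ad, ite_and]
  · simp [Ad, Matrix.one_apply]

/-- interleaving -/
def il (N : ℕ) : Fin N ⊕ Fin N → Fin (N + N)
  | Sum.inl b => ⟨2 * b, by omega⟩
  | Sum.inr b => ⟨2 * b + 1, by omega⟩

theorem il_bij (N : ℕ) : Function.Bijective (il N) := by
  rw [Fintype.bijective_iff_injective_and_card]
  constructor
  · rintro (a | a) (b | b) h <;> simp only [il, Fin.mk.injEq] at h
    · congr 1
      ext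
      omega
    · omega
    · omega
    · congr 1
      ext
      omega
  · simp

noncomputable def ilE (N : ℕ) : Fin N ⊕ Fin N ≃ Fin (N + N) := Equiv.ofBijective _ (il_bij N)

theorem core (slib : SLib) (N n : ℕ) (ω : ℂ) (hω : ω ^ N = -1) (h : Steps (VM N (ω ^ 2)) n) :
    Steps (VM (N + N) ω) (n + 12) := by
  set F := VM N (ω ^ 2) with hF
  set D : Matrix (Fin N) (Fin N) ℂ := diagonal (fun k => ω ^ (k : ℕ)) with hD
  -- butterfly
  have hT1 := slib.trans (ι := Fin N ⊕ Fin N) (a := Fin N) Sum.inl Sum.inr Sum.inl_injective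
    Sum.inr_injective (by simp) (fun _ => 1)
  have hT2 := slib.trans (ι := Fin N ⊕ Fin N) (a := Fin N) Sum.inr Sum.inl Sum.inr_injective
    Sum.inl_injective (by simp) (fun _ => 1)
  rw [ad_lr] at hT1
  rw [ad_rl] at hT2
  have hd := slib.diag (ι := Fin N ⊕ Fin N) (Sum.elim (fun _ => 1) (fun _ => -2))
  have htw := slib.diag (ι := Fin N ⊕ Fin N) (Sum.elim (fun _ => 1) (fun k => ω ^ (k : ℕ)))
  rw [← Matrix.fromBlocks_diagonal] at hd htw
  have hall := slib.mul (slib.mul (slib.par h h) htw) (slib.mul hT2 (slib.mul hd hT1))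
  have hbl : (fromBlocks F 0 0 F * fromBlocks (diagonal fun _ : Fin N => (1:ℂ)) 0 0
      (diagonal fun k : Fin N => ω ^ (k : ℕ))) *
      (fromBlocks 1 0 (diagonal fun _ : Fin N => (1:ℂ)) 1 *
        (fromBlocks (diagonal fun _ : Fin N => (1:ℂ)) 0 0 (diagonal fun _ : Fin N => (-2:ℂ)) *
          fromBlocks 1 (diagonal fun _ : Fin N => (1:ℂ)) 0 1)) =
      fromBlocks F F (F * D) (-(F * D)) := by
    have h1 : (diagonal fun _ : Fin N => (1:ℂ)) = 1 := Matrix.diagonal_one
    have h2 : (diagonal fun _ : Fin N => (-2:ℂ)) = -2 := by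
      have : (diagonal fun _ : Fin N => (2:ℂ)) = 2 := by
        ext i j
        rw [Matrix.diagonal_apply, Matrix.ofNat_apply]
        split_ifs <;> simp
      rw [← this, ← Matrix.diagonal_neg]
    have h3 : (1 : Matrix (Fin N) (Fin N) ℂ) + -2 = -1 := by
      rw [← one_add_one_eq_two, neg_add, add_neg_cancel_left]
    rw [h1, h2, ← hD]
    simp only [h3, Matrix.mul_neg, fromBlocks_multiply, Matrix.mul_one, Matrix.one_mul, Matrix.mul_zero,
      Matrix.zero_mul, add_zero, zero_add, neg_zero]
  rw [hbl] at hall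
  have hre := slib.reindex (finSumFinEquiv (m := N) (n := N)).symm hall
  have hp := slib.perm ((ilE N).symm.trans (finSumFinEquiv (m := N) (n := N)))
  have hfin := slib.mul hp hre
  refine slib.mono (M := VM (N + N) ω) (n := 1 + (n + 1 + (3 + (1 + 3)))) ?_ (by omega)
  · convert hfin using 1
    ext i k
    rw [Matrix.mul_apply]
    simp only [ite_mul, one_mul, zero_mul, Finset.sum_ite_eq', Finset.mem_univ, if_true,
      Matrix.submatrix_apply, Equiv.trans_apply, Equiv.symm_apply_apply]
    obtain ⟨i', rfl⟩ := (ilE N).surjective i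
    obtain ⟨k', rfl⟩ := (finSumFinEquiv (m := N) (n := N)).surjective k
    rw [Equiv.symm_apply_apply, Equiv.symm_apply_apply]
    rcases i' with i' | i' <;> rcases k' with k' | k'
    · simp only [ilE, Equiv.ofBijective_apply, il, finSumFinEquiv_apply_left, fromBlocks_apply₁₁,
        VM, hF, Fin.val_castAdd]
      rw [← pow_mul, ← mul_assoc]
    · simp only [ilE, Equiv.ofBijective_apply, il, finSumFinEquiv_apply_right, fromBlocks_apply₁₂,
        VM, hF, Fin.val_natAdd]
      have : 2 * (i' : ℕ) * (N + k') = N * (2 * i') + 2 * (i' * k') := by ring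
      rw [this, pow_add, pow_mul, hω, ← pow_mul ω 2]
      simp [pow_mul]
    · simp only [ilE, Equiv.ofBijective_apply, il, finSumFinEquiv_apply_left, fromBlocks_apply₂₁,
        VM, hF, Fin.val_castAdd, hD, Matrix.mul_diagonal]
      rw [← pow_mul, ← pow_add]
      congr 1
      ring
    · simp only [ilE, Equiv.ofBijective_apply, il, finSumFinEquiv_apply_right, fromBlocks_apply₂₂,
        VM, hF, Fin.val_natAdd, hD, Matrix.mul_diagonal, Matrix.neg_apply]
      have : (2 * (i' : ℕ) + 1) * (N + k') = N * (2 * i' + 1) + (2 * (i' * k') + k') := by ring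
      rw [this, pow_add, pow_mul, hω, ← pow_mul ω 2, pow_add ω (2 * (i' * k'))]
      rw [Odd.neg_one_pow ⟨(i' : ℕ), rfl⟩]
      ring

end FFT

theorem fft : StFFT := by
  intro slib j
  induction j with
  | zero =>
    intro ω _
    refine slib.mono (n := 0) ?_ (by omega)
    have : VM (2 ^ 0) ω = 1 := by
      ext a b
      have h1 : (a : ℕ) = 0 := by have := a.2; simp at this; omega
      have h2 : a = b := by
        ext
        have := b.2
        simp at this
        omega
      subst h2
      simp [VM]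
    rw [this]
    exact slib.one
  | succ j ih =>
    intro ω hω
    have h2 : IsPrimitiveRoot (ω ^ 2) (2 ^ j) := by
      apply hω.pow (by positivity)
      rw [pow_succ]
      ring
    have hneg : ω ^ (2 ^ j) = -1 := by
      have h1 : (ω ^ (2 ^ j)) * (ω ^ (2 ^ j)) = 1 := by
        rw [← sq, ← pow_mul, ← pow_succ]
        exact hω.pow_eq_one
      have h3 : ω ^ (2 ^ j) ≠ 1 := by
        apply hω.pow_ne_one_of_pos_of_lt
        · positivity
        · exact Nat.pow_lt_pow_right (by norm_num) (by omega)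
      rcases mul_self_eq_one_iff.1 h1 with h | h
      · exact absurd h h3
      · exact h
    have := FFT.core slib (2 ^ j) _ ω hneg (ih _ h2)
    have he : 2 ^ (j + 1) = 2 ^ j + 2 ^ j := by ring
    rw [he]
    refine slib.mono this (by omega)

end Crest.Agent.R324
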