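import Crest.Agent.R324.Defs

set_option autoImplicit false

noncomputable section

namespace Crest.Agent.R324

open Crest.FourierCircuit
open Matrix Finset

namespace FinProof

/-- identity step -/
def idStep (ι : Type) : Step ι where
  π := Equiv.refl ι
  d := fun _ => 1
  σ := id
  T := fun _ => false
  inv := fun _ => rfl
  ht := fun _ h => absurd h (by simp)

theorem idStep_mat {ι : Type} [Fintype ι] [DecidableEq ι] : (idStep ι).mat = 1 := by
  ext i j
  simp [Step.mat, idStep, Matrix.one_apply, eq_comm]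

theorem steps_mono {ι : Type} [Fintype ι] [DecidableEq ι] {M : Matrix ι ι ℂ} {n n' : ℕ}
    (h : Steps M n) (hn : n ≤ n') : Steps M n' := by
  obtain ⟨k, rfl⟩ := Nat.exists_eq_add_of_le hn
  clear hn
  induction k with
  | zero => exact h
  | succ k ih =>
    obtain ⟨l, hl, hp⟩ := ih
    refine ⟨idStep ι :: l, by simp [hl]; ring, ?_⟩
    simp [idStep_mat, hp]

end FinProof

open FinProof in
theorem fin : StFin := by
  intro lib circ tensSteps tens_ tensMul gt pick out qb hinp θ K hθ0 hθ1 hK hz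
  obtain ⟨C₁, hC₁⟩ := hinp
  obtain ⟨C₀, hC₀⟩ := pick
  set C₂ : ℝ := max C₀ 1 with hC₂
  have hC₂1 : 1 ≤ C₂ := le_max_right _ _
  set D : ℝ := (Real.log C₂ + 2) / Real.log 2 + 1 with hD
  have hlog2 : 0 < Real.log 2 := Real.log_pos (by norm_num)
  have hlog2' : (2 : ℝ) / 3 ≤ Real.log 2 := by
    have := Real.log_two_gt_d9; linarith
  have hlC₂ : 0 ≤ Real.log C₂ := Real.log_nonneg hC₂1
  have hD0 : 0 ≤ D := by positivity
  refine ⟨32 * C₁ * D ^ 2 * (1 + 3 * K) + 160, max 8 ⌈Real.exp (Real.exp 1)⌉₊, ?_⟩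
  intro n hn
  have hn8 : 8 ≤ n := le_trans (le_max_left _ _) hn
  have hnR : (8 : ℝ) ≤ n := by exact_mod_cast hn8
  have hnpos : (0 : ℝ) < n := by linarith
  have hnE : Real.exp (Real.exp 1) ≤ n :=
    (Nat.le_ceil _).trans (by exact_mod_cast le_trans (le_max_right _ _) hn)
  have hlam : Real.exp 1 ≤ Real.log n := by
    rw [Real.le_log_iff_exp_le hnpos]; exact hnE
  have he1 : (1 : ℝ) ≤ Real.exp 1 := Real.one_le_exp (by norm_num)
  have hlam1 : 1 ≤ Real.log n := he1.trans hlam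
  have hlampos : 0 < Real.log n := by linarith
  have hell : 1 ≤ Real.log (Real.log n) := by
    rw [Real.le_log_iff_exp_le hlampos]; exact hlam
  set lam := Real.log n with hlamdef
  set ell := Real.log lam with helldef
  obtain ⟨s, p, hp, hinj, hN1, hN2, hpC⟩ := hC₀ n (by omega)
  set N := ∏ i, p i with hNdef
  have hNpos : 0 < N := by omega
  -- number of factors
  have hs : (s : ℝ) ≤ 3 * lam := by
    have h1 : 2 ^ s ≤ N := by
      have : ∏ _i : Fin s, 2 ≤ ∏ i, p i := Finset.prod_le_prod' fun i _ => (hp i).two_le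
      simpa using this
    have h2 : (2 : ℝ) ^ s ≤ 8 * n := by exact_mod_cast h1.trans hN2
    have h3 : (s : ℝ) * Real.log 2 ≤ Real.log (8 * n) := by
      rw [← Real.log_pow]; exact Real.log_le_log (by positivity) h2
    have h4 : Real.log (8 * n) ≤ 2 * lam := by
      rw [Real.log_mul (by norm_num) hnpos.ne']
      have := Real.log_le_log (by norm_num) hnR
      linarith
    have h5 : (s : ℝ) * (2 / 3) ≤ 2 * lam :=
      (mul_le_mul_of_nonneg_left hlog2' (Nat.cast_nonneg _)).trans (h3.trans h4)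
    linarith
  -- number of steps
  set Q : ℕ := ⌊C₂ * lam ^ 2⌋₊ with hQ
  have hpQ : ∀ i, p i ≤ Q := by
    intro i
    refine Nat.le_floor ((hpC i).trans ?_)
    exact mul_le_mul_of_nonneg_right (le_max_left _ _) (by positivity)
  set L : ℕ := C₁ * (Nat.log 2 Q + 1) ^ 2 with hL
  have hQ1 : (Nat.log 2 Q : ℝ) + 1 ≤ D * ell := by
    have h1 : (1 : ℝ) ≤ C₂ * lam ^ 2 := by nlinarith
    have hQpos : 1 ≤ Q := Nat.le_floor (by simpa using h1)
    have h2 : (2 : ℝ) ^ (Nat.log 2 Q) ≤ C₂ * lam ^ 2 := by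
      have h3 : 2 ^ (Nat.log 2 Q) ≤ Q := Nat.pow_log_le_self 2 (by omega)
      have h4 : ((2 ^ (Nat.log 2 Q) : ℕ) : ℝ) ≤ Q := by exact_mod_cast h3
      have h5 : (Q : ℝ) ≤ C₂ * lam ^ 2 := Nat.floor_le (by positivity)
      push_cast at h4
      linarith
    have h3 : (Nat.log 2 Q : ℝ) * Real.log 2 ≤ Real.log C₂ + 2 * ell := by
      rw [← Real.log_pow]
      refine (Real.log_le_log (by positivity) h2).trans (le_of_eq ?_)
      rw [Real.log_mul (by positivity) (by positivity), Real.log_pow, ← helldef]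
      norm_num
    have h4 : (Nat.log 2 Q : ℝ) ≤ (Real.log C₂ + 2 * ell) / Real.log 2 := by
      rw [le_div_iff₀ hlog2]; exact h3
    have h5 : (Real.log C₂ + 2 * ell) / Real.log 2 ≤ (Real.log C₂ + 2) / Real.log 2 * ell := by
      rw [div_mul_eq_mul_div]
      refine div_le_div_of_nonneg_right ?_ hlog2.le
      nlinarith
    calc (Nat.log 2 Q : ℝ) + 1 ≤ (Real.log C₂ + 2) / Real.log 2 * ell + 1 * ell := by linarith
      _ = D * ell := by rw [hD]; ring
  have hLr : (L : ℝ) ≤ C₁ * D ^ 2 * ell ^ 2 := by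
    rw [hL]
    push_cast
    have h1 : ((Nat.log 2 Q : ℝ) + 1) ^ 2 ≤ (D * ell) ^ 2 :=
      pow_le_pow_left₀ (by positivity) hQ1 2
    calc (C₁ : ℝ) * ((Nat.log 2 Q : ℝ) + 1) ^ 2 ≤ C₁ * (D * ell) ^ 2 :=
        mul_le_mul_of_nonneg_left h1 (Nat.cast_nonneg _)
      _ = C₁ * D ^ 2 * ell ^ 2 := by ring
  have hsteps : ∀ (i : Fin s) (w : ℂ), IsPrimitiveRoot w (p i) → Steps (VM (p i) w) L := by
    intro i w hw
    refine steps_mono (hC₁ (p i) w ?_) ?_
    · intro k hk0 hk h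
      exact absurd (hw.dvd_of_pow_eq_one k h) (Nat.not_dvd_of_pos_of_lt hk0 hk)
    · exact Nat.mul_le_mul_left _ (Nat.pow_le_pow_left
        (Nat.add_le_add_right (Nat.log_mono_right (hpQ i)) 1) 2)
  -- the cost of the transform of order N
  set B : ℕ := ⌊(L : ℝ) * N * (1 + K * (s : ℝ) ^ θ)⌋₊ with hB
  have hMC : ∀ ω : ℂ, IsPrimitiveRoot ω N → MC (VM N ω) B := by
    intro ω hω
    obtain ⟨w, hw, hw2⟩ := gt lib s p (fun i => (hp i).two_le)
      (fun i j hij => (Nat.coprime_primes (hp i) (hp j)).2 (fun h => hij (hinj h))) ω hω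
    refine hw2 B ?_
    obtain ⟨c, hc, hcB⟩ := tensSteps lib tens_ tensMul K θ hK hθ0 hz (Fin s)
      (fun i => Fin (p i)) (fun i => VM (p i) (w i)) L (fun i => hsteps i (w i) (hw i))
    refine lib.mono hc (Nat.le_floor ?_)
    refine hcB.trans (le_of_eq ?_)
    simp only [Fintype.card_fin]
    rw [hNdef]
    push_cast
    ring
  have hdft := out lib qb n N B (by omega) hN1 hMC
  obtain ⟨P, hP1, hP2⟩ := circ n _ _ hdft
  refine ⟨P, hP1, ?_⟩
  have hsz : (P.size : ℝ) ≤ 4 * ((L : ℝ) * N * (1 + K * (s : ℝ) ^ θ)) + 20 * N := by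
    have h1 : (P.size : ℝ) ≤ 4 * (B : ℝ) + 20 * N := by exact_mod_cast hP2
    have h2 : (B : ℝ) ≤ (L : ℝ) * N * (1 + K * (s : ℝ) ^ θ) := Nat.floor_le (by positivity)
    linarith
  refine hsz.trans ?_
  have hNr : (N : ℝ) ≤ 8 * n := by exact_mod_cast hN2
  have hlt : 1 ≤ lam ^ θ := Real.one_le_rpow hlam1 hθ0.le
  have hsθ : (s : ℝ) ^ θ ≤ 3 * lam ^ θ := by
    calc (s : ℝ) ^ θ ≤ (3 * lam) ^ θ := Real.rpow_le_rpow (Nat.cast_nonneg _) hs hθ0.le
      _ = 3 ^ θ * lam ^ θ := Real.mul_rpow (by norm_num) hlampos.le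
      _ ≤ 3 ^ (1 : ℝ) * lam ^ θ := by
        refine mul_le_mul_of_nonneg_right ?_ (by positivity)
        exact Real.rpow_le_rpow_of_exponent_le (by norm_num) hθ1.le
      _ = 3 * lam ^ θ := by rw [Real.rpow_one]
  have hell2 : ell ^ 2 ≤ ell ^ (4 - θ) := by
    rw [← Real.rpow_natCast ell 2]
    refine Real.rpow_le_rpow_of_exponent_le hell ?_
    push_cast
    linarith
  have hell1 : 1 ≤ ell ^ (4 - θ) := Real.one_le_rpow hell (by linarith)
  have h1 : 1 + K * (s : ℝ) ^ θ ≤ (1 + 3 * K) * lam ^ θ := by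
    have := mul_le_mul_of_nonneg_left hsθ hK
    nlinarith
  have h2 : (L : ℝ) * N * (1 + K * (s : ℝ) ^ θ) ≤
      (C₁ * D ^ 2 * ell ^ 2) * (8 * n) * ((1 + 3 * K) * lam ^ θ) := by
    refine mul_le_mul (mul_le_mul hLr hNr (Nat.cast_nonneg _) (by positivity)) h1
      (by positivity) (by positivity)
  have h3 : (C₁ * D ^ 2 * ell ^ 2) * (8 * n) * ((1 + 3 * K) * lam ^ θ) ≤
      (8 * C₁ * D ^ 2 * (1 + 3 * K)) * (n * lam ^ θ * ell ^ (4 - θ)) := by
    have : (C₁ * D ^ 2 * ell ^ 2) * (8 * n) * ((1 + 3 * K) * lam ^ θ) =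
        (8 * C₁ * D ^ 2 * (1 + 3 * K)) * (n * lam ^ θ * ell ^ 2) := by ring
    rw [this]
    refine mul_le_mul_of_nonneg_left ?_ (by positivity)
    exact mul_le_mul_of_nonneg_left hell2 (by positivity)
  have h4 : (N : ℝ) ≤ 8 * (n * lam ^ θ * ell ^ (4 - θ)) := by
    refine hNr.trans ?_
    have : (n : ℝ) * 1 * 1 ≤ n * lam ^ θ * ell ^ (4 - θ) := by
      refine mul_le_mul (mul_le_mul_of_nonneg_left hlt hnpos.le) hell1 (by norm_num) (by positivity)
    linarith
  calc 4 * ((L : ℝ) * N * (1 + K * (s : ℝ) ^ θ)) + 20 * N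
      ≤ 4 * ((8 * C₁ * D ^ 2 * (1 + 3 * K)) * (n * lam ^ θ * ell ^ (4 - θ))) +
        20 * (8 * (n * lam ^ θ * ell ^ (4 - θ))) := by linarith [h2.trans h3]
    _ = (32 * C₁ * D ^ 2 * (1 + 3 * K) + 160) * n * lam ^ θ * ell ^ (4 - θ) := by ring

end Crest.Agent.R324
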