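import Crest.Agent.R324.GADM

/-!
# Row 324: the program of one block, assembly (helper11)
-/

set_option autoImplicit false

noncomputable section

namespace Crest.Agent.R324

open Matrix Finset

namespace GAD

variable {U : Type} [DecidableEq U]

/-- the four outputs of a slice, naively -/
def lf (u : U) : Pg (LR U) :=
  [(.X false false u, .al false false, 1), (.X false false u, .be false u, 1),
    (.X false false u, .ga false u, 1),
    (.X false true u, .al false true, 1), (.X false true u, .be true u, 1),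
    (.X false true u, .ga false u, 1),
    (.X true false u, .al true false, 1), (.X true false u, .be false u, 1),
    (.X true false u, .ga true u, 1),
    (.X true true u, .al true true, 1), (.X true true u, .be true u, 1),
    (.X true true u, .ga true u, 1)]

/-- natural contents of the `α` registers -/
def nv (w : ℂ) (h : LR U → ℂ) : Bool → Bool → ℂ
  | false, false => w
  | e, d => h (.al e d)

theorem lf_run (u : U) (w : ℂ) (x : Bool × Bool × U → ℂ) (h : LR U → ℂ) :
    runl (lf u) (mk w x h) = mk w (fun q => x q +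
        if q.2.2 = u then nv w h q.1 q.2.1 + h (.be q.2.1 q.2.2) + h (.ga q.1 q.2.2) else 0) h := by
  unfold lf
  simp only [runl_cons, runl_nil]
  rw [mk_Xw, mk_XB, mk_XC, mk_XA2, mk_XB, mk_XC, mk_XA1, mk_XB, mk_XC, mk_XA1, mk_XB, mk_XC]
  congr 1
  funext q
  obtain ⟨e, d, u'⟩ := q
  simp only [ad, Prod.mk.injEq]
  by_cases hu : u' = u
  · subst hu
    cases e <;> cases d <;> simp [nv] <;> ring
  · simp [hu]

theorem lfs_run (l : List U) (hl : l.Nodup) (w : ℂ) (x : Bool × Bool × U → ℂ) (h : LR U → ℂ) :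
    runl (l.flatMap lf) (mk w x h) = mk w (fun q => x q +
        if q.2.2 ∈ l then nv w h q.1 q.2.1 + h (.be q.2.1 q.2.2) + h (.ga q.1 q.2.2) else 0) h := by
  induction l generalizing x with
  | nil => simp [runl_nil]
  | cons u l ih =>
    obtain ⟨h1, h2⟩ := List.nodup_cons.1 hl
    rw [List.flatMap_cons, runl_append, lf_run, ih h2]
    congr 1
    funext q
    by_cases hu : q.2.2 = u
    · have : q.2.2 ∉ l := by rw [hu]; exact h1
      simp [hu, h1]
    · simp [hu]

/-- difference form of `h` (`w` = content of `al00`) -/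
def hD (w : ℂ) (h : LR U → ℂ) : LR U → ℂ
  | .al false true => h (.al false true) - w
  | .al true false => h (.al true false) - w
  | .al true true => h (.al true true) - w
  | y => h y

def form : Pg (LR U) :=
  [(.al false true, .al false false, -1), (.al true false, .al false false, -1),
    (.al true true, .al false false, -1), (.al false false, .al false true, 1)]

def unform : Pg (LR U) :=
  [(.al false false, .al false true, -1), (.al false true, .al false false, 1),
    (.al true false, .al false false, 1), (.al true true, .al false false, 1)]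

theorem form_run (w : ℂ) (x : Bool × Bool × U → ℂ) (h : LR U → ℂ) :
    runl form (mk w x h) = mk (h (.al false true)) x (hD w h) := by
  funext y
  rcases y with ⟨_ | _, _ | _⟩ | _ | _ | _ <;>
    simp [form, runl, tvop, mk, hD, Function.update_apply] <;> ring

theorem unform_run (w : ℂ) (x : Bool × Bool × U → ℂ) (h : LR U → ℂ) :
    runl unform (mk (h (.al false true)) x (hD w h)) = mk w x h := by
  funext y
  rcases y with ⟨_ | _, _ | _⟩ | _ | _ | _ <;>
    simp [unform, runl, tvop, mk, hD, Function.update_apply] <;> ring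

/-- entering -/
def ent (u : U) : Pg (LR U) :=
  [(.al false false, .be true u, 1), (.al false false, .ga false u, 1)]

def lea (u : U) : Pg (LR U) :=
  [(.al false false, .be true u, -1), (.al false false, .ga false u, -1)]

/-- junction -/
def jun (u v : U) : Pg (LR U) :=
  cj (.be true v) (.be true u) (.al false false) ++ cj (.ga false v) (.ga false u) (.al false false)

theorem ent_run (u : U) (w : ℂ) (x : Bool × Bool × U → ℂ) (h : LR U → ℂ) :
    runl (ent u) (mk w x h) = mk (w + h (.be true u) + h (.ga false u)) x h := by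
  unfold ent
  simp only [runl_cons, runl_nil]
  rw [mk_wB, mk_wC]
  congr 1
  push_cast
  ring

theorem lea_run (u : U) (w : ℂ) (x : Bool × Bool × U → ℂ) (h : LR U → ℂ) :
    runl (lea u) (mk (w + h (.be true u) + h (.ga false u)) x h) = mk w x h := by
  unfold lea
  simp only [runl_cons, runl_nil]
  rw [mk_wB, mk_wC]
  congr 1
  push_cast
  ring

theorem jun_run (u v : U) (huv : v ≠ u) (w : ℂ) (x : Bool × Bool × U → ℂ) (h : LR U → ℂ) :
    runl (jun u v) (mk (w + h (.be true u) + h (.ga false u)) x h) =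
      mk (w + h (.be true v) + h (.ga false v)) x h := by
  unfold jun
  rw [runl_append, cj_wB _ _ _ _ _ _ _ (by simpa using huv),
    cj_wC _ _ _ _ _ _ _ (by simpa using huv)]
  congr 1
  ring

/-- `k + 1` groups -/
def main (f : ℕ → U) : ℕ → Pg (LR U)
  | 0 => ent (f 0) ++ M (f 0) (f 1) (f 2)
  | k + 1 => main f k ++ (jun (f (3 * k + 2)) (f (3 * k + 3)) ++
      M (f (3 * k + 3)) (f (3 * k + 4)) (f (3 * k + 5)))

theorem main_run (f : ℕ → U) (N : ℕ) (hf : ∀ i < N, ∀ j < N, f i = f j → i = j) (a : ℂ)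
    (x : Bool × Bool × U → ℂ) (h : LR U → ℂ) (k : ℕ) (hk : 3 * k + 3 ≤ N) :
    runl (main f k) (mk a x h) = mk (a + h (.be true (f (3 * k + 2))) + h (.ga false (f (3 * k + 2))))
      (fun q => x q + if ∃ i < 3 * k + 3, q.2.2 = f i then
        av a h q.1 q.2.1 + h (.be q.2.1 q.2.2) + h (.ga q.1 q.2.2) else 0) h := by
  have hne : ∀ i j : ℕ, i < N → j < N → i ≠ j → f i ≠ f j := fun i j hi hj hij he =>
    hij (hf i hi j hj he)
  induction k with
  | zero =>
    show runl (ent (f 0) ++ M (f 0) (f 1) (f 2)) (mk a x h) = _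
    rw [runl_append, ent_run, M_run _ _ _ (hne _ _ (by omega) (by omega) (by omega))
      (hne _ _ (by omega) (by omega) (by omega)) (hne _ _ (by omega) (by omega) (by omega))]
    congr 1
    funext q
    congr 1
    have : (q.2.2 = f 0 ∨ q.2.2 = f 1 ∨ q.2.2 = f 2) ↔ ∃ i < 3 * 0 + 3, q.2.2 = f i := by
      constructor
      · rintro (h | h | h)
        · exact ⟨0, by omega, h⟩
        · exact ⟨1, by omega, h⟩
        · exact ⟨2, by omega, h⟩
      · rintro ⟨i, hi, h⟩
        interval_cases i
        · exact Or.inl h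
        · exact Or.inr (Or.inl h)
        · exact Or.inr (Or.inr h)
    simp only [this]
  | succ k ih =>
    show runl (main f k ++ (jun (f (3 * k + 2)) (f (3 * k + 3)) ++
      M (f (3 * k + 3)) (f (3 * k + 4)) (f (3 * k + 5)))) (mk a x h) = _
    rw [runl_append, ih (by omega), runl_append, jun_run _ _ (hne _ _ (by omega) (by omega) (by omega)),
      M_run _ _ _ (hne _ _ (by omega) (by omega) (by omega))
      (hne _ _ (by omega) (by omega) (by omega)) (hne _ _ (by omega) (by omega) (by omega))]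
    rw [show 3 * (k + 1) + 2 = 3 * k + 5 by ring]
    congr 1
    funext q
    by_cases h1 : ∃ i < 3 * k + 3, q.2.2 = f i
    · obtain ⟨i, hi, hq⟩ := h1
      have h3 : ¬ (q.2.2 = f (3 * k + 3) ∨ q.2.2 = f (3 * k + 4) ∨ q.2.2 = f (3 * k + 5)) := by
        rw [hq]
        rintro (h | h | h)
        · exact hne _ _ (by omega) (by omega) (by omega) h
        · exact hne _ _ (by omega) (by omega) (by omega) h
        · exact hne _ _ (by omega) (by omega) (by omega) h
      rw [if_pos ⟨i, hi, hq⟩, if_neg h3, if_pos ⟨i, by omega, hq⟩, add_zero]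
    · rw [if_neg h1, add_zero]
      congr 1
      have : (q.2.2 = f (3 * k + 3) ∨ q.2.2 = f (3 * k + 4) ∨ q.2.2 = f (3 * k + 5)) ↔
          ∃ i < 3 * (k + 1) + 3, q.2.2 = f i := by
        constructor
        · rintro (h | h | h)
          · exact ⟨3 * k + 3, by omega, h⟩
          · exact ⟨3 * k + 4, by omega, h⟩
          · exact ⟨3 * k + 5, by omega, h⟩
        · rintro ⟨i, hi, h⟩
          by_cases hi3 : i < 3 * k + 3
          · exact absurd ⟨i, hi3, h⟩ h1
          · obtain rfl | rfl | rfl : i = 3 * k + 3 ∨ i = 3 * k + 4 ∨ i = 3 * k + 5 := by omega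
            · exact Or.inl h
            · exact Or.inr (Or.inl h)
            · exact Or.inr (Or.inr h)
      simp only [this]

/-- the full program with `k + 1` groups and `r` further slices -/
def prog (f : ℕ → U) (k r : ℕ) : Pg (LR U) :=
  ((List.range r).map fun i => f (3 * (k + 1) + i)).flatMap lf ++
    (form ++ (main f k ++ (lea (f (3 * k + 2)) ++ unform)))

theorem prog_run (f : ℕ → U) (k r : ℕ)
    (hf : ∀ i < 3 * (k + 1) + r, ∀ j < 3 * (k + 1) + r, f i = f j → i = j)
    (hs : ∀ u, ∃ i < 3 * (k + 1) + r, u = f i) (h : LR U → ℂ) :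
    runl (prog f k r) h = topL h := by
  have h0 : h = mk (h (.al false false)) (fun q => h (.X q.1 q.2.1 q.2.2)) h := by
    funext y
    rcases y with ⟨_ | _, _ | _⟩ | _ | _ | _ <;> simp [mk]
  unfold prog
  rw [runl_append, runl_append, runl_append, runl_append]
  conv_lhs => rw [h0]
  have hnd : ((List.range r).map fun i => f (3 * (k + 1) + i)).Nodup := by
    apply List.Nodup.map_on _ List.nodup_range
    intro i hi j hj hij
    rw [List.mem_range] at hi hj
    have := hf _ (by omega) _ (by omega) hij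
    omega
  rw [lfs_run _ hnd, form_run, main_run f (3 * (k + 1) + r) hf _ _ _ k (by omega), lea_run,
    unform_run]
  funext y
  rcases y with ⟨_ | _, _ | _⟩ | _ | _ | ⟨e, d, u⟩
  · rfl
  · rfl
  · rfl
  · rfl
  · rfl
  · rfl
  · obtain ⟨i, hi, rfl⟩ := hs u
    simp only [mk, topL, List.mem_map, List.mem_range]
    have hav : av (h (.al false true)) (hD (h (.al false false)) h) e d = h (.al e d) := by
      cases e <;> cases d <;> simp [av, hD]
    have hnv : nv (h (.al false false)) h e d = h (.al e d) := by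
      cases e <;> cases d <;> simp [nv]
    rw [hav, hnv]
    by_cases hi3 : i < 3 * k + 3
    · rw [if_neg, if_pos ⟨i, hi3, rfl⟩]
      · simp only [hD]
        ring
      · rintro ⟨j, hj, hji⟩
        have := hf _ (by omega) _ hi hji
        omega
    · rw [if_pos, if_neg]
      · ring
      · rintro ⟨j, hj, hji⟩
        have := hf _ hi _ (by omega) hji
        omega
      · exact ⟨i - (3 * (k + 1)), by omega, by congr 1; omega⟩

/-! ### counting -/

def cA (P : Pg (LR U)) : ℕ := P.countP fun p => p.1.isA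
def cB (P : Pg (LR U)) : ℕ := P.countP fun p => p.1.isB
def cC (P : Pg (LR U)) : ℕ := P.countP fun p => p.1.isC

theorem cA_app (P Q : Pg (LR U)) : cA (P ++ Q) = cA P + cA Q := List.countP_append
theorem cB_app (P Q : Pg (LR U)) : cB (P ++ Q) = cB P + cB Q := List.countP_append
theorem cC_app (P Q : Pg (LR U)) : cC (P ++ Q) = cC P + cC Q := List.countP_append

theorem c_lfs (l : List U) : cA (l.flatMap lf) = 12 * l.length ∧ cB (l.flatMap lf) = 0 ∧
    cC (l.flatMap lf) = 0 := by
  induction l with
  | nil => exact ⟨rfl, rfl, rfl⟩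
  | cons u l ih =>
    rw [List.flatMap_cons, cA_app, cB_app, cC_app, ih.1, ih.2.1, ih.2.2, List.length_cons]
    have h1 : cA (lf u) = 12 := by
      simp [lf, cA, List.countP_cons, LR.isA]
    have h2 : cB (lf u) = 0 := by
      simp [lf, cB, List.countP_cons, LR.isB]
    have h3 : cC (lf u) = 0 := by
      simp [lf, cC, List.countP_cons, LR.isC]
    omega

theorem cA_cons (p : LR U × LR U × ℤ) (P : Pg (LR U)) :
    cA (p :: P) = cA P + (if p.1.isA then 1 else 0) := List.countP_cons
theorem cB_cons (p : LR U × LR U × ℤ) (P : Pg (LR U)) :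
    cB (p :: P) = cB P + (if p.1.isB then 1 else 0) := List.countP_cons
theorem cC_cons (p : LR U × LR U × ℤ) (P : Pg (LR U)) :
    cC (p :: P) = cC P + (if p.1.isC then 1 else 0) := List.countP_cons
theorem cA_nil : cA ([] : Pg (LR U)) = 0 := rfl
theorem cB_nil : cB ([] : Pg (LR U)) = 0 := rfl
theorem cC_nil : cC ([] : Pg (LR U)) = 0 := rfl

theorem c_cjB (d d' : Bool) (u u' : U) (t : LR U) (ht : t.isA = true) :
    cA (cj (.be d u) (.be d' u') t) = 1 ∧ cB (cj (.be d u) (.be d' u') t) = 2 ∧
      cC (cj (.be d u) (.be d' u') t) = 0 := by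
  rcases t with _ | _ | _ | _ <;> simp [LR.isA] at ht <;>
    simp [cj, cA_cons, cB_cons, cC_cons, cA_nil, cB_nil, cC_nil, LR.isA, LR.isB, LR.isC]

theorem c_cjC (d d' : Bool) (u u' : U) (t : LR U) (ht : t.isA = true) :
    cA (cj (.ga d u) (.ga d' u') t) = 1 ∧ cB (cj (.ga d u) (.ga d' u') t) = 0 ∧
      cC (cj (.ga d u) (.ga d' u') t) = 2 := by
  rcases t with _ | _ | _ | _ <;> simp [LR.isA] at ht <;>
    simp [cj, cA_cons, cB_cons, cC_cons, cA_nil, cB_nil, cC_nil, LR.isA, LR.isB, LR.isC]

theorem c_M (u v w : U) : cA (M u v w) = 33 ∧ cB (M u v w) = 14 ∧ cC (M u v w) = 14 := by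
  unfold M
  simp only [cA_app, cB_app, cC_app, (c_cjB _ _ _ _ (.al false false) rfl).1,
    (c_cjB _ _ _ _ (.al false false) rfl).2.1, (c_cjB _ _ _ _ (.al false false) rfl).2.2,
    (c_cjC _ _ _ _ (.al false false) rfl).1,
    (c_cjC _ _ _ _ (.al false false) rfl).2.1, (c_cjC _ _ _ _ (.al false false) rfl).2.2,
    (c_cjB _ _ _ _ (.X _ _ _) rfl).1,
    (c_cjB _ _ _ _ (.X _ _ _) rfl).2.1, (c_cjB _ _ _ _ (.X _ _ _) rfl).2.2,
    (c_cjC _ _ _ _ (.X _ _ _) rfl).1,
    (c_cjC _ _ _ _ (.X _ _ _) rfl).2.1, (c_cjC _ _ _ _ (.X _ _ _) rfl).2.2,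
    cA_cons, cB_cons, cC_cons, cA_nil, cB_nil, cC_nil, LR.isA, LR.isB, LR.isC]
  simp

theorem c_main (f : ℕ → U) (k : ℕ) : cA (main f k) = 35 * k + 35 ∧ cB (main f k) = 16 * k + 14 ∧
    cC (main f k) = 16 * k + 14 := by
  induction k with
  | zero =>
    have e : main f 0 = ent (f 0) ++ M (f 0) (f 1) (f 2) := rfl
    rw [e, cA_app, cB_app, cC_app, (c_M _ _ _).1, (c_M _ _ _).2.1, (c_M _ _ _).2.2]
    simp [ent, cA_cons, cB_cons, cC_cons, cA_nil, cB_nil, cC_nil, LR.isA, LR.isB, LR.isC]
  | succ k ih =>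
    have e : main f (k + 1) = main f k ++ (jun (f (3 * k + 2)) (f (3 * k + 3)) ++
      M (f (3 * k + 3)) (f (3 * k + 4)) (f (3 * k + 5))) := rfl
    have hj : ∀ u v : U, cA (jun u v) = 2 ∧ cB (jun u v) = 2 ∧ cC (jun u v) = 2 := by
      intro u v
      unfold jun
      rw [cA_app, cB_app, cC_app]
      have h1 := c_cjB true true v u (.al false false) rfl
      have h2 := c_cjC false false v u (.al false false) rfl
      rw [h1.1, h1.2.1, h1.2.2, h2.1, h2.2.1, h2.2.2]
      exact ⟨rfl, rfl, rfl⟩
    rw [e, cA_app, cB_app, cC_app, cA_app, cB_app, cC_app, ih.1, ih.2.1, ih.2.2,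
      (c_M _ _ _).1, (c_M _ _ _).2.1, (c_M _ _ _).2.2, (hj _ _).1, (hj _ _).2.1, (hj _ _).2.2]
    omega

theorem c_prog (f : ℕ → U) (k r : ℕ) : cA (prog f k r) = 35 * (k + 1) + 10 + 12 * r ∧
    cB (prog f k r) ≤ 16 * (k + 1) ∧ cC (prog f k r) ≤ 16 * (k + 1) := by
  unfold prog
  simp only [cA_app, cB_app, cC_app]
  have hl := c_lfs ((List.range r).map fun i => f (3 * (k + 1) + i))
  rw [List.length_map, List.length_range] at hl
  have hm := c_main f k
  rw [hl.1, hl.2.1, hl.2.2, hm.1, hm.2.1, hm.2.2]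
  have h1 : cA (form : Pg (LR U)) = 4 := by simp [form, cA, List.countP_cons, LR.isA]
  have h2 : cB (form : Pg (LR U)) = 0 := by simp [form, cB, List.countP_cons, LR.isB]
  have h3 : cC (form : Pg (LR U)) = 0 := by simp [form, cC, List.countP_cons, LR.isC]
  have h4 : cA (unform : Pg (LR U)) = 4 := by simp [unform, cA, List.countP_cons, LR.isA]
  have h5 : cB (unform : Pg (LR U)) = 0 := by simp [unform, cB, List.countP_cons, LR.isB]
  have h6 : cC (unform : Pg (LR U)) = 0 := by simp [unform, cC, List.countP_cons, LR.isC]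
  have h7 : cA (lea (f (3 * k + 2))) = 2 := by simp [lea, cA, List.countP_cons, LR.isA]
  have h8 : cB (lea (f (3 * k + 2))) = 0 := by simp [lea, cB, List.countP_cons, LR.isB]
  have h9 : cC (lea (f (3 * k + 2))) = 0 := by simp [lea, cC, List.countP_cons, LR.isC]
  rw [h1, h2, h3, h4, h5, h6, h7, h8, h9]
  omega

/-! ### admissibility -/

def Ok (P : Pg (LR U)) : Prop := ∀ p ∈ P, okI p

theorem Ok.app {P Q : Pg (LR U)} (h1 : Ok P) (h2 : Ok Q) : Ok (P ++ Q) := by
  intro p hp
  rcases List.mem_append.1 hp with h | h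
  · exact h1 p h
  · exact h2 p h

theorem ok_cjB (d d' : Bool) (u u' : U) (hne : (d, u) ≠ (d', u')) (t : LR U) (ht : t.isA = true) :
    Ok (cj (.be d u) (.be d' u') t) := by
  intro p hp
  have hne' : ¬ (d = d' ∧ u = u') := by simpa using hne
  rcases t with _ | _ | _ | _ <;> simp [LR.isA] at ht <;>
    simp only [cj, List.mem_cons, List.not_mem_nil, or_false] at hp <;>
    rcases hp with rfl | rfl | rfl <;> simp [okI, LR.isB, LR.isC] <;> tauto

theorem ok_cjC (d d' : Bool) (u u' : U) (hne : (d, u) ≠ (d', u')) (t : LR U) (ht : t.isA = true) :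
    Ok (cj (.ga d u) (.ga d' u') t) := by
  intro p hp
  have hne' : ¬ (d = d' ∧ u = u') := by simpa using hne
  rcases t with _ | _ | _ | _ <;> simp [LR.isA] at ht <;>
    simp only [cj, List.mem_cons, List.not_mem_nil, or_false] at hp <;>
    rcases hp with rfl | rfl | rfl <;> simp [okI, LR.isB, LR.isC] <;> tauto

theorem ok_M (u0 u1 u2 : U) (h01 : u0 ≠ u1) (h02 : u0 ≠ u2) (h12 : u1 ≠ u2) : Ok (M u0 u1 u2) := by
  unfold M
  refine Ok.app (Ok.app (Ok.app (Ok.app (Ok.app (Ok.app (Ok.app (Ok.app (Ok.app (Ok.app (Ok.app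
    (Ok.app (Ok.app (Ok.app (Ok.app (Ok.app (Ok.app (Ok.app (Ok.app (Ok.app (Ok.app (Ok.app (Ok.app
    ?_ ?_) ?_) ?_) ?_) ?_) ?_) ?_) ?_) ?_) ?_) ?_) ?_) ?_) ?_) ?_) ?_) ?_) ?_) ?_) ?_) ?_) ?_) ?_
  all_goals first
    | exact ok_cjB _ _ _ _ (by simp [h01, h02, h12, h01.symm, h12.symm, h02.symm]) _ rfl
    | exact ok_cjC _ _ _ _ (by simp [h01, h02, h12, h01.symm, h12.symm, h02.symm]) _ rfl
    | (intro p hp
       simp only [List.mem_cons, List.not_mem_nil, or_false] at hp
       rcases hp with rfl | rfl | rfl <;> simp [okI, LR.isB, LR.isC])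
    | (intro p hp
       simp only [List.mem_cons, List.not_mem_nil, or_false] at hp
       rcases hp with rfl | rfl <;> simp [okI, LR.isB, LR.isC])
    | (intro p hp
       simp only [List.mem_cons, List.not_mem_nil, or_false] at hp
       subst hp
       simp [okI, LR.isB, LR.isC])

theorem ok_main (f : ℕ → U) (N : ℕ) (hf : ∀ i < N, ∀ j < N, f i = f j → i = j) (k : ℕ)
    (hk : 3 * k + 3 ≤ N) : Ok (main f k) := by
  have hne : ∀ i j : ℕ, i < N → j < N → i ≠ j → f i ≠ f j := fun i j hi hj hij he =>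
    hij (hf i hi j hj he)
  induction k with
  | zero =>
    show Ok (ent (f 0) ++ M (f 0) (f 1) (f 2))
    apply Ok.app
    · intro p hp
      simp only [ent, List.mem_cons, List.not_mem_nil, or_false] at hp
      rcases hp with rfl | rfl <;> simp [okI, LR.isB, LR.isC]
    · exact ok_M _ _ _ (hne _ _ (by omega) (by omega) (by omega))
        (hne _ _ (by omega) (by omega) (by omega)) (hne _ _ (by omega) (by omega) (by omega))
  | succ k ih =>
    show Ok (main f k ++ (jun (f (3 * k + 2)) (f (3 * k + 3)) ++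
      M (f (3 * k + 3)) (f (3 * k + 4)) (f (3 * k + 5))))
    apply Ok.app (ih (by omega))
    apply Ok.app
    · have := hne (3 * k + 3) (3 * k + 2) (by omega) (by omega) (by omega)
      exact Ok.app (ok_cjB _ _ _ _ (by simpa using this) _ rfl)
        (ok_cjC _ _ _ _ (by simpa using this) _ rfl)
    · exact ok_M _ _ _ (hne _ _ (by omega) (by omega) (by omega))
        (hne _ _ (by omega) (by omega) (by omega)) (hne _ _ (by omega) (by omega) (by omega))

theorem ok_prog (f : ℕ → U) (k r : ℕ)
    (hf : ∀ i < 3 * (k + 1) + r, ∀ j < 3 * (k + 1) + r, f i = f j → i = j) : Ok (prog f k r) := by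
  unfold prog
  apply Ok.app
  · intro p hp
    obtain ⟨u, -, hp⟩ := List.mem_flatMap.1 hp
    simp only [lf, List.mem_cons, List.not_mem_nil, or_false] at hp
    rcases hp with rfl | rfl | rfl | rfl | rfl | rfl | rfl | rfl | rfl | rfl | rfl | rfl <;>
      simp [okI, LR.isB, LR.isC]
  · apply Ok.app
    · intro p hp
      simp only [form, List.mem_cons, List.not_mem_nil, or_false] at hp
      rcases hp with rfl | rfl | rfl | rfl <;> simp [okI, LR.isB, LR.isC]
    · apply Ok.app (ok_main f _ hf k (by omega))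
      apply Ok.app
      · intro p hp
        simp only [lea, List.mem_cons, List.not_mem_nil, or_false] at hp
        rcases hp with rfl | rfl <;> simp [okI, LR.isB, LR.isC]
      · intro p hp
        simp only [unform, List.mem_cons, List.not_mem_nil, or_false] at hp
        rcases hp with rfl | rfl | rfl | rfl <;> simp [okI, LR.isB, LR.isC]

end GAD

theorem gad : StGad := by
  intro K r hK
  obtain ⟨k, rfl⟩ : ∃ k, K = k + 1 := ⟨K - 1, by omega⟩
  have hN : 0 < 3 * (k + 1) + r := by omega
  let f : ℕ → Fin (3 * (k + 1) + r) := fun i => ⟨i % (3 * (k + 1) + r), Nat.mod_lt _ hN⟩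
  have hf : ∀ i < 3 * (k + 1) + r, ∀ j < 3 * (k + 1) + r, f i = f j → i = j := by
    intro i hi j hj hij
    have := congrArg Fin.val hij
    simp only [f] at this
    rwa [Nat.mod_eq_of_lt hi, Nat.mod_eq_of_lt hj] at this
  have hs : ∀ u, ∃ i < 3 * (k + 1) + r, u = f i := by
    intro u
    refine ⟨u, u.2, ?_⟩
    apply Fin.ext
    simp only [f]
    rw [Nat.mod_eq_of_lt u.2]
  exact ⟨GAD.prog f k r, GAD.ok_prog f k r hf, GAD.prog_run f k r hf hs,
    (GAD.c_prog f k r).1.le, (GAD.c_prog f k r).2.1, (GAD.c_prog f k r).2.2⟩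

end Crest.Agent.R324
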