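import Crest.Agent.R324.CDefs

/-!
# Row 324: the program of one block (helper11)
-/

set_option autoImplicit false

noncomputable section

namespace Crest.Agent.R324

open Matrix Finset

namespace GAD

variable {U : Type} [DecidableEq U]

theorem runl_nil {C : Type} [DecidableEq C] (f : C → ℂ) : runl [] f = f := rfl

theorem runl_cons {C : Type} [DecidableEq C] (p : C × C × ℤ) (l : Pg C) (f : C → ℂ) :
    runl (p :: l) f = runl l (tvop p f) := rfl

theorem runl_append {C : Type} [DecidableEq C] (l l' : Pg C) (f : C → ℂ) :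
    runl (l ++ l') f = runl l' (runl l f) := by
  simp [runl, List.foldl_append]

/-- state with walker value `w`, outputs `x` and the other registers from `h` -/
def mk (w : ℂ) (x : Bool × Bool × U → ℂ) (h : LR U → ℂ) : LR U → ℂ
  | .al false false => w
  | .X e d u => x (e, d, u)
  | y => h y

/-- add `v` at `q` -/
def ad (x : Bool × Bool × U → ℂ) (q : Bool × Bool × U) (v : ℂ) : Bool × Bool × U → ℂ :=
  fun q' => x q' + if q' = q then v else 0

/-- conjugated move: `t += a - b` -/
def cj (a b t : LR U) : Pg (LR U) := [(a, b, -1), (t, a, 1), (a, b, 1)]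

theorem mk_wB (w : ℂ) (x : Bool × Bool × U → ℂ) (h : LR U → ℂ) (d : Bool) (u : U) (c : ℤ) :
    tvop (.al false false, .be d u, c) (mk w x h) = mk (w + c * h (.be d u)) x h := by
  funext y
  rcases y with ⟨_ | _, _ | _⟩ | _ | _ | _ <;> simp [tvop, mk, Function.update_apply]

theorem mk_wC (w : ℂ) (x : Bool × Bool × U → ℂ) (h : LR U → ℂ) (d : Bool) (u : U) (c : ℤ) :
    tvop (.al false false, .ga d u, c) (mk w x h) = mk (w + c * h (.ga d u)) x h := by
  funext y
  rcases y with ⟨_ | _, _ | _⟩ | _ | _ | _ <;> simp [tvop, mk, Function.update_apply]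

theorem mk_wA1 (w : ℂ) (x : Bool × Bool × U → ℂ) (h : LR U → ℂ) (d : Bool) (c : ℤ) :
    tvop (.al false false, .al true d, c) (mk w x h) = mk (w + c * h (.al true d)) x h := by
  funext y
  rcases y with ⟨_ | _, _ | _⟩ | _ | _ | _ <;> simp [tvop, mk, Function.update_apply]

theorem mk_wA2 (w : ℂ) (x : Bool × Bool × U → ℂ) (h : LR U → ℂ) (c : ℤ) :
    tvop (.al false false, .al false true, c) (mk w x h) = mk (w + c * h (.al false true)) x h := by
  funext y
  rcases y with ⟨_ | _, _ | _⟩ | _ | _ | _ <;> simp [tvop, mk, Function.update_apply]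

theorem mk_Xw (w : ℂ) (x : Bool × Bool × U → ℂ) (h : LR U → ℂ) (e d : Bool) (u : U) (c : ℤ) :
    tvop (.X e d u, .al false false, c) (mk w x h) = mk w (ad x (e, d, u) (c * w)) h := by
  funext y
  rcases y with ⟨_ | _, _ | _⟩ | _ | _ | ⟨e', d', u'⟩ <;>
    simp [tvop, mk, Function.update_apply, ad]
  split_ifs with h1 <;> simp_all

theorem mk_XA1 (w : ℂ) (x : Bool × Bool × U → ℂ) (h : LR U → ℂ) (e d d' : Bool) (u : U) (c : ℤ) :
    tvop (.X e d u, .al true d', c) (mk w x h) = mk w (ad x (e, d, u) (c * h (.al true d'))) h := by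
  funext y
  rcases y with ⟨_ | _, _ | _⟩ | _ | _ | ⟨e', d', u'⟩ <;>
    simp [tvop, mk, Function.update_apply, ad]
  split_ifs with h1 <;> simp_all

theorem mk_XA2 (w : ℂ) (x : Bool × Bool × U → ℂ) (h : LR U → ℂ) (e d : Bool) (u : U) (c : ℤ) :
    tvop (.X e d u, .al false true, c) (mk w x h) =
      mk w (ad x (e, d, u) (c * h (.al false true))) h := by
  funext y
  rcases y with ⟨_ | _, _ | _⟩ | _ | _ | ⟨e', d', u'⟩ <;>
    simp [tvop, mk, Function.update_apply, ad]
  split_ifs with h1 <;> simp_all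

theorem mk_XB (w : ℂ) (x : Bool × Bool × U → ℂ) (h : LR U → ℂ) (e d d' : Bool) (u u' : U) (c : ℤ) :
    tvop (.X e d u, .be d' u', c) (mk w x h) = mk w (ad x (e, d, u) (c * h (.be d' u'))) h := by
  funext y
  rcases y with ⟨_ | _, _ | _⟩ | _ | _ | ⟨e', d', u'⟩ <;>
    simp [tvop, mk, Function.update_apply, ad]
  split_ifs with h1 <;> simp_all

theorem mk_XC (w : ℂ) (x : Bool × Bool × U → ℂ) (h : LR U → ℂ) (e d d' : Bool) (u u' : U) (c : ℤ) :
    tvop (.X e d u, .ga d' u', c) (mk w x h) = mk w (ad x (e, d, u) (c * h (.ga d' u'))) h := by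
  funext y
  rcases y with ⟨_ | _, _ | _⟩ | _ | _ | ⟨e', d', u'⟩ <;>
    simp [tvop, mk, Function.update_apply, ad]
  split_ifs with h1 <;> simp_all

theorem cj_gen {C : Type} [DecidableEq C] (a b t : C) (f : C → ℂ) (hab : a ≠ b) (hta : t ≠ a)
    (htb : t ≠ b) : runl [(a, b, -1), (t, a, 1), (a, b, 1)] f =
      Function.update f t (f t + (f a - f b)) := by
  funext y
  simp only [runl, List.foldl_cons, List.foldl_nil, tvop]
  by_cases h1 : y = a
  · subst h1
    simp [Function.update_apply, hab, hab.symm, hta, hta.symm, htb, htb.symm]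
  · by_cases h2 : y = t
    · subst h2
      simp [Function.update_apply, hab, hab.symm, hta, hta.symm, htb, htb.symm]
      ring
    · simp [Function.update_apply, h1, h2]

theorem cj_wB (w : ℂ) (x : Bool × Bool × U → ℂ) (h : LR U → ℂ) (d d' : Bool) (u u' : U)
    (hne : (d, u) ≠ (d', u')) :
    runl (cj (.be d u) (.be d' u') (.al false false)) (mk w x h) =
      mk (w + (h (.be d u) - h (.be d' u'))) x h := by
  unfold cj
  rw [cj_gen _ _ _ _ (by simpa using hne) (by simp) (by simp)]
  funext y
  rcases y with ⟨_ | _, _ | _⟩ | _ | _ | _ <;> simp [mk, Function.update_apply]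

theorem cj_wC (w : ℂ) (x : Bool × Bool × U → ℂ) (h : LR U → ℂ) (d d' : Bool) (u u' : U)
    (hne : (d, u) ≠ (d', u')) :
    runl (cj (.ga d u) (.ga d' u') (.al false false)) (mk w x h) =
      mk (w + (h (.ga d u) - h (.ga d' u'))) x h := by
  unfold cj
  rw [cj_gen _ _ _ _ (by simpa using hne) (by simp) (by simp)]
  funext y
  rcases y with ⟨_ | _, _ | _⟩ | _ | _ | _ <;> simp [mk, Function.update_apply]

theorem cj_XB (w : ℂ) (x : Bool × Bool × U → ℂ) (h : LR U → ℂ) (e e' : Bool) (v : U)
    (d d' : Bool) (u u' : U) (hne : (d, u) ≠ (d', u')) :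
    runl (cj (.be d u) (.be d' u') (.X e e' v)) (mk w x h) =
      mk w (ad x (e, e', v) (h (.be d u) - h (.be d' u'))) h := by
  unfold cj
  rw [cj_gen _ _ _ _ (by simpa using hne) (by simp) (by simp)]
  funext y
  rcases y with ⟨_ | _, _ | _⟩ | _ | _ | ⟨e', d', u'⟩ <;>
    simp [mk, Function.update_apply, ad]
  split_ifs with h1 <;> simp_all

theorem cj_XC (w : ℂ) (x : Bool × Bool × U → ℂ) (h : LR U → ℂ) (e e' : Bool) (v : U)
    (d d' : Bool) (u u' : U) (hne : (d, u) ≠ (d', u')) :
    runl (cj (.ga d u) (.ga d' u') (.X e e' v)) (mk w x h) =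
      mk w (ad x (e, e', v) (h (.ga d u) - h (.ga d' u'))) h := by
  unfold cj
  rw [cj_gen _ _ _ _ (by simpa using hne) (by simp) (by simp)]
  funext y
  rcases y with ⟨_ | _, _ | _⟩ | _ | _ | ⟨e', d', u'⟩ <;>
    simp [mk, Function.update_apply, ad]
  split_ifs with h1 <;> simp_all

/-- the main part of a group -/
def M (u0 u1 u2 : U) : Pg (LR U) :=
  [(.X false true u0, .al false false, 1), (.al false false, .al false true, -1),
    (.X false false u0, .al false false, 1)] ++
  cj (.be false u0) (.be true u0) (.X false false u0) ++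
  cj (.ga true u0) (.ga false u0) (.al false false) ++
  [(.X true true u0, .al false false, 1), (.X true true u0, .al true true, 1)] ++
  cj (.be false u1) (.be true u0) (.al false false) ++
  [(.X false false u1, .al false false, 1)] ++
  cj (.ga false u1) (.ga true u0) (.X false false u1) ++
  [(.al false false, .al true false, 1), (.X true false u0, .al false false, 1)] ++
  cj (.be false u0) (.be false u1) (.X true false u0) ++
  cj (.ga true u1) (.ga true u0) (.al false false) ++
  [(.X true false u1, .al false false, 1)] ++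
  cj (.be false u2) (.be false u1) (.al false false) ++
  [(.X true false u2, .al false false, 1)] ++
  cj (.ga true u2) (.ga true u1) (.X true false u2) ++
  [(.al false false, .al true false, -1), (.X true true u1, .al false false, 1),
    (.X true true u1, .al true true, 1)] ++
  cj (.be true u1) (.be false u2) (.X true true u1) ++
  cj (.ga false u2) (.ga true u1) (.al false false) ++
  [(.X false false u2, .al false false, 1)] ++
  cj (.be true u2) (.be false u2) (.al false false) ++
  [(.X true true u2, .al false false, 1), (.X true true u2, .al true true, 1)] ++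
  cj (.ga true u2) (.ga false u2) (.X true true u2) ++
  [(.al false false, .al false true, 1), (.X false true u2, .al false false, 1),
    (.X false true u1, .al false false, 1)] ++
  cj (.be true u1) (.be true u2) (.X false true u1) ++
  cj (.ga false u1) (.ga false u2) (.X false true u1)

/-- value of `α_{ed}` in terms of the content `a` of the walker at `(0,1)` and the differences -/
def av (a : ℂ) (h : LR U → ℂ) : Bool → Bool → ℂ
  | false, true => a
  | false, false => a - h (.al false true)
  | true, false => a - h (.al false true) + h (.al true false)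
  | true, true => a - h (.al false true) + h (.al true true)

theorem M_run (u0 u1 u2 : U) (h01 : u0 ≠ u1) (h02 : u0 ≠ u2) (h12 : u1 ≠ u2) (a : ℂ)
    (x : Bool × Bool × U → ℂ) (h : LR U → ℂ) :
    runl (M u0 u1 u2) (mk (a + h (.be true u0) + h (.ga false u0)) x h) =
      mk (a + h (.be true u2) + h (.ga false u2)) (fun q => x q +
        if q.2.2 = u0 ∨ q.2.2 = u1 ∨ q.2.2 = u2 then
          av a h q.1 q.2.1 + h (.be q.2.1 q.2.2) + h (.ga q.1 q.2.2) else 0) h := by
  unfold M
  simp only [runl_append, runl_cons, runl_nil]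
  rw [mk_Xw, mk_wA2, mk_Xw, cj_XB _ _ _ _ _ _ _ _ _ _ (by simp),
    cj_wC _ _ _ _ _ _ _ (by simp), mk_Xw, mk_XA1, cj_wB _ _ _ _ _ _ _ (by simp), mk_Xw,
    cj_XC _ _ _ _ _ _ _ _ _ _ (by simp), mk_wA1, mk_Xw,
    cj_XB _ _ _ _ _ _ _ _ _ _ (by simp [h01]), cj_wC _ _ _ _ _ _ _ (by simp [h01.symm]), mk_Xw,
    cj_wB _ _ _ _ _ _ _ (by simp [h12.symm]), mk_Xw,
    cj_XC _ _ _ _ _ _ _ _ _ _ (by simp [h12.symm]), mk_wA1, mk_Xw, mk_XA1,
    cj_XB _ _ _ _ _ _ _ _ _ _ (by simp), cj_wC _ _ _ _ _ _ _ (by simp), mk_Xw,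
    cj_wB _ _ _ _ _ _ _ (by simp), mk_Xw, mk_XA1, cj_XC _ _ _ _ _ _ _ _ _ _ (by simp), mk_wA2,
    mk_Xw, mk_Xw, cj_XB _ _ _ _ _ _ _ _ _ _ (by simp [h12]),
    cj_XC _ _ _ _ _ _ _ _ _ _ (by simp [h12])]
  congr 1
  · push_cast
    ring
  · funext q
    obtain ⟨e, d, u⟩ := q
    simp only [ad, Prod.mk.injEq]
    by_cases hu0 : u = u0
    · subst hu0
      cases e <;> cases d <;> simp [av, h01, h02] <;> ring
    · by_cases hu1 : u = u1
      · subst hu1
        cases e <;> cases d <;> simp [av, h01.symm, h12] <;> ring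
      · by_cases hu2 : u = u2
        · subst hu2
          cases e <;> cases d <;> simp [av, h02.symm, h12.symm] <;> ring
        · simp [hu0, hu1, hu2]

end GAD

end Crest.Agent.R324
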