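import Crest.Agent.R324.Defs

/-!
# Row 324, task GT: Good–Thomas
-/

set_option autoImplicit false

noncomputable section

namespace Crest.Agent.R324

open Matrix Finset

namespace GTaux

/-- congruence modulo all `p i` gives congruence modulo the product -/
theorem modEq_prod {s : ℕ} (p : Fin s → ℕ) (hc : ∀ i j, i ≠ j → Nat.Coprime (p i) (p j))
    {a b : ℕ} (h : ∀ i, a ≡ b [MOD p i]) : a ≡ b [MOD ∏ i, p i] := by
  have h2 : ∀ t : Finset (Fin s), a ≡ b [MOD ∏ i ∈ t, p i] := by
    intro t
    induction t using Finset.induction_on with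
    | empty => simp [Nat.modEq_one]
    | insert i t hi ih =>
      rw [Finset.prod_insert hi]
      have hco : Nat.Coprime (p i) (∏ j ∈ t, p j) :=
        Nat.Coprime.prod_right fun j hj => hc i j (by rintro rfl; exact hi hj)
      exact (Nat.modEq_and_modEq_iff_modEq_mul hco).1 ⟨h i, ih⟩
  exact h2 Finset.univ

end GTaux

open GTaux in
theorem gt : StGT := by
  intro lib s p hp hc ω hω
  set N : ℕ := ∏ i, p i with hN
  have hppos : ∀ i, 0 < p i := fun i => lt_of_lt_of_le (by norm_num) (hp i)
  have hNpos : 0 < N := Finset.prod_pos fun i _ => hppos i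
  -- cofactors
  set M : Fin s → ℕ := fun i => ∏ j ∈ Finset.univ.erase i, p j with hM
  have hMN : ∀ i, p i * M i = N := fun i => Finset.mul_prod_erase _ _ (Finset.mem_univ i)
  have hMco : ∀ i, Nat.Coprime (M i) (p i) := by
    intro i
    refine Nat.Coprime.prod_left fun j hj => hc j i (Finset.ne_of_mem_erase hj)
  have hu : ∀ i, ∃ u : ℕ, M i * u ≡ 1 [MOD p i] := by
    intro i
    obtain ⟨u, hu⟩ := Nat.exists_mul_mod_eq_one_of_coprime (hMco i) (lt_of_lt_of_le one_lt_two (hp i))
    refine ⟨u, ?_⟩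
    have h2 := hu.2
    have : 1 % p i = 1 := Nat.mod_eq_of_lt (lt_of_lt_of_le one_lt_two (hp i))
    show M i * u % p i = 1 % p i
    rw [this]
    exact h2
  choose u hu using hu
  have huco : ∀ i, Nat.Coprime (u i) (p i) := by
    intro i
    have h1 : Nat.Coprime (M i * u i) (p i) := by
      have h2 := (hu i).gcd_eq
      simpa [Nat.coprime_iff_gcd_eq_one, Nat.gcd_one_left] using h2
    exact Nat.Coprime.coprime_mul_left h1
  set e : Fin s → ℕ := fun i => M i * u i with he
  have he0 : ∀ i l, i ≠ l → e i ≡ 0 [MOD p l] := by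
    intro i l hil
    have h1 : p l ∣ M i := Finset.dvd_prod_of_mem _ (Finset.mem_erase.2 ⟨hil.symm, Finset.mem_univ l⟩)
    exact (Nat.modEq_zero_iff_dvd).2 (Dvd.dvd.mul_right h1 _)
  refine ⟨fun i => ω ^ e i, ?_, ?_⟩
  · intro i
    have h1 : IsPrimitiveRoot (ω ^ M i) (p i) :=
      hω.pow hNpos (by rw [← hMN i, mul_comm])
    have h2 := h1.pow_of_coprime (u i) (huco i)
    rwa [← pow_mul] at h2
  · intro c hMC
    -- the CRT bijection
    let E : Fin N → ∀ i, Fin (p i) := fun j i => ⟨(j : ℕ) % p i, Nat.mod_lt _ (hppos i)⟩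
    have hEinj : Function.Injective E := by
      intro a b hab
      have h1 : (a : ℕ) ≡ b [MOD N] := by
        refine modEq_prod p hc fun i => ?_
        have h2 := congrArg (fun f => ((f i : Fin (p i)) : ℕ)) hab
        exact h2
      exact Fin.ext (Nat.ModEq.eq_of_lt_of_lt h1 a.2 b.2)
    have hEbij : Function.Bijective E := by
      rw [Fintype.bijective_iff_injective_and_card]
      refine ⟨hEinj, ?_⟩
      simp [hN]
    let F : Fin N ≃ ∀ i, Fin (p i) := Equiv.ofBijective E hEbij
    have hkey : VM N ω = (tens fun i => VM (p i) (ω ^ e i)).submatrix E F := by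
      ext j k
      simp only [VM, tens, Matrix.submatrix_apply, F, Equiv.ofBijective_apply, E]
      rw [Finset.prod_congr rfl (fun i _ => (pow_mul ω (e i) _).symm), Finset.prod_pow_eq_pow_sum]
      have h1 : (j : ℕ) * (k : ℕ) ≡ ∑ i, e i * ((j : ℕ) % p i * ((k : ℕ) % p i)) [MOD N] := by
        refine modEq_prod p hc fun l => ?_
        have h2 : ∑ i, e i * ((j : ℕ) % p i * ((k : ℕ) % p i)) ≡
            e l * ((j : ℕ) % p l * ((k : ℕ) % p l)) [MOD p l] := by
          rw [← Finset.add_sum_erase _ _ (Finset.mem_univ l)]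
          have h3 : ∑ i ∈ Finset.univ.erase l, e i * ((j : ℕ) % p i * ((k : ℕ) % p i)) ≡ 0
              [MOD p l] := by
            rw [Nat.modEq_zero_iff_dvd]
            refine Finset.dvd_sum fun i hi => ?_
            exact Dvd.dvd.mul_right ((Nat.modEq_zero_iff_dvd).1 (he0 i l (Finset.ne_of_mem_erase hi))) _
          simpa using (Nat.ModEq.refl (e l * ((j : ℕ) % p l * ((k : ℕ) % p l)))).add h3
        have h4 : e l * ((j : ℕ) % p l * ((k : ℕ) % p l)) ≡ 1 * ((j : ℕ) * k) [MOD p l] :=
          Nat.ModEq.mul (hu l) (Nat.ModEq.mul (Nat.mod_modEq _ _) (Nat.mod_modEq _ _))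
        rw [one_mul] at h4
        exact (h2.trans h4).symm
      rw [← pow_mod_orderOf ω ((j : ℕ) * k), ← hω.eq_orderOf,
        ← pow_mod_orderOf ω (∑ i, e i * ((j : ℕ) % p i * ((k : ℕ) % p i))), ← hω.eq_orderOf]
      exact congrArg _ h1
    rw [hkey]
    exact lib.sub E F hMC

end Crest.Agent.R324
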