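import Crest.Agent.R324.CDefs

set_option autoImplicit false
set_option linter.unusedSectionVars false

noncomputable section

namespace Crest.Agent.R324

open Crest.FourierCircuit
open Matrix Finset

namespace IncProof

/-- rows with `p = true` and rows with `p = false` separately -/
theorem mc_stack (lib : Lib) {κ ι : Type} [Fintype ι] [DecidableEq ι] (p : κ → Bool)
    (T : Matrix κ ι ℂ) (c : Bool → ℕ)
    (h : ∀ b, MC (T.submatrix (Subtype.val : {k // p k = b} → κ) (id : ι → ι)) (c b)) :
    MC T (∑ b, c b) := by
  let P : Matrix (Bool × ι) ι ℂ := fun q j => if j = q.2 then 1 else 0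
  let D : Matrix κ (Bool × ι) ℂ := fun k q => if p k = q.1 then T k q.2 else 0
  have hP : MC P 0 := lib.sel fun q => Or.inr ⟨q.2, fun i => rfl⟩
  have hD : MC D (∑ b, c b) := by
    refine lib.block p (fun q => q.1) c ?_ ?_
    · intro k q hk
      simp only [D]
      rw [if_neg hk]
    · intro b
      let g : {q : Bool × ι // q.1 = b} ≃ ι :=
        { toFun := fun q => q.1.2
          invFun := fun i => ⟨(b, i), rfl⟩
          left_inv := by rintro ⟨⟨a, i⟩, rfl⟩; rfl
          right_inv := fun i => rfl }
      have h1 := lib.sub (id : {k // p k = b} → {k // p k = b}) g (h b)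
      refine cast ?_ h1
      congr 1
      ext x y
      simp only [Matrix.submatrix_apply, D, id]
      rw [if_pos (x.2.trans y.2.symm)]
      rfl
  have := lib.mul hD hP
  rw [add_zero] at this
  refine cast ?_ this
  congr 1
  ext k j
  rw [Matrix.mul_apply, Fintype.sum_eq_single (p k, j)]
  · simp [D, P]
  · rintro ⟨a, i⟩ hne
    simp only [D, P]
    by_cases h1 : p k = a
    · by_cases h2 : j = i
      · subst h1; subst h2; exact absurd rfl hne
      · rw [if_neg h2, mul_zero]
    · rw [if_neg h1, zero_mul]

/-- block part -/
def BB (b k : ℕ) : Matrix (Fin (k+1) → Option (Fin b)) (Fin (k+1) → Option (Fin b)) ℂ := fun x y =>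
  if x 0 = y 0 then (tens fun _ : Fin k => SM (Fin b)) (fun s => x s.succ) (fun s => y s.succ) else 0

/-- additions -/
def EE (b k : ℕ) : Matrix (Fin (k+1) → Option (Fin b)) (Fin (k+1) → Option (Fin b)) ℂ := fun x y =>
  if x 0 ≠ none ∧ y = Fin.cons none (fun s => x s.succ) then 1 else 0

/-- subtype with fixed head is the tail -/
def headEquiv (b j : ℕ) (a : Option (Fin b)) :
    {y : Fin (j+1) → Option (Fin b) // y 0 = a} ≃ (Fin j → Option (Fin b)) where
  toFun y := fun s => y.1 s.succ
  invFun t := ⟨Fin.cons a t, by simp⟩
  left_inv := by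
    rintro ⟨y, hy⟩
    apply Subtype.ext
    funext s
    refine Fin.cases ?_ (fun s => ?_) s
    · simp [hy]
    · simp
  right_inv := by
    intro t
    funext s
    simp

theorem mcBB (lib : Lib) (b k c : ℕ) (h : SC b k c) : MC (BB b k) ((b + 1) * c) := by
  have := lib.block (T := BB b k) (fun x => x 0) (fun y => y 0) (fun _ => c)
      (by
        intro k i hki
        simp only [BB]
        rw [if_neg hki])
      (by
        intro a
        have h2 := lib.sub (κ' := {k : Fin (k+1) → Option (Fin b) // k 0 = a})
          (fun x => fun s => x.1 s.succ) (headEquiv b k a) h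
        refine cast ?_ h2
        congr 1
        ext x y
        simp only [Matrix.submatrix_apply, BB, headEquiv, Equiv.coe_fn_mk]
        rw [if_pos (x.2.trans y.2.symm)])
  refine lib.mono this (le_of_eq ?_)
  simp

theorem card_some (b k : ℕ) :
    Fintype.card {x : Fin (k+1) → Option (Fin b) // (x 0).isSome = true} = b * (b + 1) ^ k := by
  let g : {x : Fin (k+1) → Option (Fin b) // (x 0).isSome = true} ≃ Fin b × (Fin k → Option (Fin b)) :=
    { toFun := fun x => ((x.1 0).get x.2, fun s => x.1 s.succ)
      invFun := fun p => ⟨Fin.cons (some p.1) p.2, by simp⟩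
      left_inv := by
        rintro ⟨x, hx⟩
        apply Subtype.ext
        funext s
        refine Fin.cases ?_ (fun s => ?_) s
        · simp
        · simp
      right_inv := by
        rintro ⟨a, p⟩
        simp }
  rw [Fintype.card_congr g]
  simp

theorem mcA (lib : Lib) (b k : ℕ) :
    MC (1 + EE b k) (b * (b + 1) ^ k) := by
  have := mc_stack lib (fun x : Fin (k+1) → Option (Fin b) => (x 0).isSome) (1 + EE b k)
    (fun a => if a = true then b * (b + 1) ^ k else 0) (by
      intro a
      cases a with
      | false =>
        simp only [Bool.false_eq_true, if_false]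
        refine lib.sel ?_
        rintro ⟨x, hx⟩
        right
        refine ⟨x, fun i => ?_⟩
        have h0 : x 0 = none := by simpa using hx
        simp only [Matrix.submatrix_apply, Matrix.add_apply, EE, id, h0, ne_eq, not_true_eq_false,
          false_and, if_false, add_zero, Matrix.one_apply]
        simp only [eq_comm]
      | true =>
        simp only [if_true]
        have e : (1 + EE b k).submatrix (Subtype.val : {x : Fin (k+1) → Option (Fin b) //
          (x 0).isSome = true} → _) (id : (Fin (k+1) → Option (Fin b)) → _) =
          (1 : Matrix (Fin (k+1) → Option (Fin b)) (Fin (k+1) → Option (Fin b)) ℂ).submatrix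
            (Subtype.val : {x : Fin (k+1) → Option (Fin b) // (x 0).isSome = true} → _) id +
          (EE b k).submatrix (Subtype.val : {x : Fin (k+1) → Option (Fin b) //
            (x 0).isSome = true} → _) id := rfl
        rw [e]
        refine lib.mono (lib.add (c := 0) (d := 0) (lib.sel ?_) (lib.sel ?_)) ?_
        · rintro ⟨x, hx⟩
          right
          refine ⟨x, fun i => ?_⟩
          simp only [Matrix.submatrix_apply, id, Matrix.one_apply]
          simp only [eq_comm]
        · rintro ⟨x, hx⟩
          right
          have h0 : x 0 ≠ none := by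
            intro h; rw [h] at hx; simp at hx
          refine ⟨Fin.cons none (fun s => x s.succ), fun i => ?_⟩
          simp only [Matrix.submatrix_apply, id, EE, ne_eq, h0, not_false_eq_true, true_and]
        · rw [card_some]
          simp)
  simpa using this

theorem succ_ (lib : Lib) (b k c : ℕ) (h : SC b k c) :
    SC b (k + 1) ((b + 1) * c + b * (b + 1) ^ k) := by
  have hm := lib.mono (lib.mul (mcA lib b k) (mcBB lib b k c h))
    (le_of_eq (Nat.add_comm (b * (b + 1) ^ k) ((b + 1) * c)))
  refine cast ?_ hm
  unfold SC
  congr 1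
  rw [Matrix.add_mul, Matrix.one_mul]
  ext x y
  rw [Matrix.add_apply, Matrix.mul_apply]
  have : ∀ z, EE b k x z * BB b k z y = if z = Fin.cons none (fun s => x s.succ) then
      (if x 0 ≠ none then BB b k z y else 0) else 0 := by
    intro z
    unfold EE
    by_cases h1 : x 0 ≠ none <;> by_cases h2 : z = Fin.cons none (fun s => x s.succ) <;>
      simp [h1, h2]
  rw [Finset.sum_congr rfl (fun z _ => this z), Finset.sum_ite_eq' Finset.univ]
  simp only [Finset.mem_univ, if_true]
  unfold BB tens
  rw [Fin.prod_univ_succ]
  simp only [Fin.cons_zero, Fin.cons_succ]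
  generalize (∏ i : Fin k, SM (Fin b) (x i.succ) (y i.succ)) = t
  unfold SM
  by_cases h1 : x 0 = none
  · rw [h1]
    by_cases h2 : y 0 = none
    · rw [h2]; simp
    · have h3 : ¬ none = y 0 := fun h => h2 h.symm
      simp [h2, h3]
  · by_cases h2 : y 0 = none
    · rw [h2]; simp [h1]
    · by_cases h3 : x 0 = y 0
      · rw [← h3]
        have h4 : ¬ none = x 0 := fun h => h1 h.symm
        simp [h1, h4]
      · have h4 : ¬ none = y 0 := fun h => h2 h.symm
        simp [h2, h3, h4]

/-- `Bool ≃ Option (Fin 1)` -/
def bE : Bool ≃ Option (Fin 1) where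
  toFun a := if a = true then some 0 else none
  invFun o := o.isSome
  left_inv := by intro a; cases a <;> rfl
  right_inv := by
    intro o
    cases o with
    | none => rfl
    | some i => 
      have : i = 0 := Subsingleton.elim _ _
      subst this; rfl

theorem z_of_ (lib : Lib) (k c : ℕ) (h : SC 1 k c) : MC (ZP (Fin k)) c := by
  have h1 := lib.sub (fun (x : Fin k → Bool) (i : Fin k) => bE (x i))
    ((Equiv.refl (Fin k)).arrowCongr bE) h
  refine cast ?_ h1
  congr 1
  ext x y
  simp only [Matrix.submatrix_apply, tens, ZP]
  have e : ∀ i, SM (Fin 1) (bE (x i)) (((Equiv.refl (Fin k)).arrowCongr bE) y i) =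
      if (y i = true → x i = true) then 1 else 0 := by
    intro i
    simp only [Equiv.arrowCongr_apply, Equiv.refl_symm, Equiv.coe_refl, Function.comp_apply, id]
    cases x i <;> cases y i <;> simp [SM, bE]
  rw [Finset.prod_congr rfl fun i _ => e i]
  by_cases hh : ∀ i, y i = true → x i = true
  · rw [if_pos hh]
    exact Finset.prod_eq_one fun i _ => if_pos (hh i)
  · rw [if_neg hh]
    push Not at hh
    obtain ⟨i, h2, h3⟩ := hh
    refine Finset.prod_eq_zero (Finset.mem_univ i) (if_neg ?_)
    intro h4
    exact h3 (h4 h2)

end IncProof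

open IncProof in
theorem inc (lib : Lib) : StInc where
  zero := by
    intro b
    unfold SC
    refine lib.sel fun x => Or.inr ⟨x, fun i => ?_⟩
    have : i = x := Subsingleton.elim _ _
    simp [tens, this]
  succ := succ_ lib
  z_of := z_of_ lib

end Crest.Agent.R324
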