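import Crest.Agent.R324.Defs

set_option autoImplicit false

noncomputable section

namespace Crest.Agent.R324

open Crest.FourierCircuit
open Matrix Finset

theorem inp : StInp := by
  intro slib qb hlt
  obtain ⟨C, hC⟩ := hlt
  refine ⟨2 * C + 5, ?_⟩
  intro q ω hω
  obtain ⟨a, b, t, ht0, hV⟩ := qb q ω hω
  have hL := hC q t ht0
  -- the transpose
  have hP := slib.perm (Fin.revPerm : Equiv.Perm (Fin q))
  let J : Matrix (Fin q) (Fin q) ℂ := fun i j => if j = Fin.revPerm i then 1 else 0
  have hT : (LT q t)ᵀ = J * LT q t * J := by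
    ext i j
    have hJ1 : ∀ (M : Matrix (Fin q) (Fin q) ℂ) i j, (J * M) i j = M (Fin.rev i) j := by
      intro M i j
      rw [Matrix.mul_apply]
      rw [Finset.sum_eq_single (Fin.rev i)]
      · simp [J]
      · intro k _ hk
        have : J i k = 0 := by simp [J, hk]
        rw [this, zero_mul]
      · simp
    have hJ2 : ∀ (M : Matrix (Fin q) (Fin q) ℂ) i j, (M * J) i j = M i (Fin.rev j) := by
      intro M i j
      rw [Matrix.mul_apply]
      rw [Finset.sum_eq_single (Fin.rev j)]
      · simp [J]
      · intro k _ hk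
        have : J k j = 0 := by
          have h2 : ¬ j = Fin.rev k := fun h => hk (by rw [h, Fin.rev_rev])
          simp [J, h2]
        rw [this, mul_zero]
      · simp
    rw [hJ2, hJ1, Matrix.transpose_apply]
    unfold LT
    have hi := i.2
    have hj := j.2
    simp only [Fin.val_rev]
    by_cases h : (i : ℕ) ≤ j
    · rw [if_pos h, if_pos (by omega)]
      congr 1
      omega
    · rw [if_neg h, if_neg (by omega)]
  have hLT : Steps (LT q t)ᵀ (1 + C * (Nat.log 2 q + 1) ^ 2 + 1) := by
    rw [hT]; exact slib.mul (slib.mul hP hL) hP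
  rw [hV]
  refine slib.mono (slib.mul (slib.mul (slib.mul (slib.mul (slib.diag a) hL) (slib.diag b)) hLT)
    (slib.diag a)) ?_
  have : 1 ≤ (Nat.log 2 q + 1) ^ 2 := Nat.one_le_pow _ _ (by omega)
  nlinarith

end Crest.Agent.R324
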