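import Crest.Agent.R324.Defs

set_option autoImplicit false

noncomputable section

namespace Crest.Agent.R324

open Crest.FourierCircuit
open Matrix Finset

section Basic

variable {X : Type} [AddCommGroup X] [Module ℂ X]

theorem Reach.subset {A B : Set X} {c : ℕ} (h : Reach A c B) : A ⊆ B := by
  induction h with
  | refl => exact subset_rfl
  | add _ _ _ ih => exact ih.trans (Set.subset_insert _ _)
  | sub _ _ _ ih => exact ih.trans (Set.subset_insert _ _)
  | smul _ _ _ ih => exact ih.trans (Set.subset_insert _ _)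

theorem Reach.trans' {A B D : Set X} {c d : ℕ} (h : Reach A c B) (h' : Reach B d D) :
    Reach A (c + d) D := by
  induction h' with
  | refl => exact h
  | add _ hu hv ih => exact ih.add hu hv
  | sub _ hu hv ih => exact ih.sub hu hv
  | smul k _ hu ih => exact ih.smul k hu

theorem Reach.union {A B : Set X} {c : ℕ} (h : Reach A c B) (E : Set X) :
    Reach (A ∪ E) c (B ∪ E) := by
  induction h with
  | refl => exact Reach.refl _
  | add _ hu hv ih =>
    rw [Set.insert_union]; exact ih.add (Or.inl hu) (Or.inl hv)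
  | sub _ hu hv ih =>
    rw [Set.insert_union]; exact ih.sub (Or.inl hu) (Or.inl hv)
  | smul k _ hu ih =>
    rw [Set.insert_union]; exact ih.smul k (Or.inl hu)

theorem Comp.refl {A B : Set X} (h : B ⊆ A) : Comp A 0 B := ⟨0, le_rfl, A, Reach.refl A, h⟩

theorem Comp.mono {A A' B B' : Set X} {c c' : ℕ} (h : Comp A c B) (hA : A ⊆ A') (hc : c ≤ c')
    (hB : B' ⊆ B) : Comp A' c' B' := by
  obtain ⟨c₀, hc₀, D, hD, hBD⟩ := h
  refine ⟨c₀, hc₀.trans hc, D ∪ A', ?_, (hB.trans hBD).trans Set.subset_union_left⟩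
  have := hD.union A'
  rwa [Set.union_eq_self_of_subset_left hA] at this

/-- compute `B`, then `D` using everything in `A` and `B` -/
theorem Comp.trans {A B D : Set X} {c d : ℕ} (h : Comp A c B) (h' : Comp (A ∪ B) d D) :
    Comp A (c + d) (B ∪ D) := by
  obtain ⟨c₀, hc₀, E, hE, hBE⟩ := h
  obtain ⟨d₀, hd₀, F, hF, hDF⟩ := h'.mono (Set.union_subset hE.subset hBE) le_rfl subset_rfl
  exact ⟨c₀ + d₀, add_le_add hc₀ hd₀, F, hE.trans' hF,
    Set.union_subset (hBE.trans hF.subset) hDF⟩

theorem Comp.union {A B D : Set X} {c d : ℕ} (h : Comp A c B) (h' : Comp A d D) :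
    Comp A (c + d) (B ∪ D) :=
  h.trans (h'.mono Set.subset_union_left le_rfl subset_rfl)

theorem Comp.iUnion {β : Type} (s : Finset β) {A : Set X} {B : β → Set X} {c : β → ℕ}
    (h : ∀ b ∈ s, Comp A (c b) (B b)) : Comp A (∑ b ∈ s, c b) (⋃ b ∈ s, B b) := by
  classical
  induction s using Finset.induction_on with
  | empty => simpa using Comp.refl (Set.empty_subset A)
  | insert a s ha ih =>
    rw [Finset.sum_insert ha]
    have h1 := (h a (Finset.mem_insert_self _ _)).union
      (ih fun b hb => h b (Finset.mem_insert_of_mem hb))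
    refine h1.mono subset_rfl le_rfl ?_
    rw [Finset.set_biUnion_insert]

theorem Comp.smul {A : Set X} {u : X} (k : ℂ) (hu : u ∈ A) : Comp A 1 {k • u} :=
  ⟨1, le_rfl, _, (Reach.refl A).smul k hu, by simp⟩

theorem Comp.add {A : Set X} {u v : X} (hu : u ∈ A) (hv : v ∈ A) : Comp A 1 {u + v} :=
  ⟨1, le_rfl, _, (Reach.refl A).add hu hv, by simp⟩

theorem Comp.sub {A : Set X} {u v : X} (hu : u ∈ A) (hv : v ∈ A) : Comp A 1 {u - v} :=
  ⟨1, le_rfl, _, (Reach.refl A).sub hu hv, by simp⟩

end Basic

theorem lib : Lib where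
  mono := by
    intro κ ι _ T c d h hcd X _ _ A x h0 hx
    exact (h X A x h0 hx).mono subset_rfl hcd subset_rfl
  mul := by
    intro κ μ ι _ _ S T c d hS hT X _ _ A x h0 hx
    have h1 := hT X A x h0 hx
    have h2 := hS X (A ∪ Set.range fun k => ∑ i, T k i • x i) (fun k => ∑ i, T k i • x i)
      (Or.inl h0) (fun k => Or.inr ⟨k, rfl⟩)
    have h3 := h1.trans h2
    refine h3.mono subset_rfl (by omega) ?_
    rintro _ ⟨k, rfl⟩
    right
    refine ⟨k, ?_⟩
    simp only [Matrix.mul_apply, Finset.sum_smul, Finset.smul_sum, smul_smul]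
    rw [Finset.sum_comm]
  row := by
    intro κ ι _ _ T h X _ _ A x h0 hx
    have h1 : ∀ k : κ, Comp A 1 {∑ i, T k i • x i} := by
      intro k
      by_cases hk : ∃ i, T k i ≠ 0
      · obtain ⟨i, hi⟩ := hk
        have : ∑ j, T k j • x j = T k i • x i := by
          refine Finset.sum_eq_single i ?_ (by simp)
          intro j _ hj
          by_cases h' : T k j = 0
          · simp [h']
          · exact absurd (h k j i h' hi) hj
        rw [this]
        exact Comp.smul _ (hx i)
      · push Not at hk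
        have : ∑ j, T k j • x j = 0 := by simp [hk]
        rw [this]
        exact (Comp.refl (by simpa using h0)).mono subset_rfl (by omega) subset_rfl
    have h2 := Comp.iUnion Finset.univ (fun k _ => h1 k)
    refine h2.mono subset_rfl (by simp) ?_
    rintro _ ⟨k, rfl⟩
    simp
  sel := by
    intro κ ι _ _ T h X _ _ A x h0 hx
    refine Comp.refl ?_
    rintro _ ⟨k, rfl⟩
    rcases h k with h | ⟨j, h⟩
    · simpa [h] using h0
    · simpa [h] using hx j
  block := by
    intro κ ι β _ _ _ T f g c h hb X _ _ A x h0 hx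
    have h1 := Comp.iUnion Finset.univ (fun b _ => hb b X A (fun i => x i.1) h0 (fun i => hx i.1))
    refine h1.mono subset_rfl le_rfl ?_
    rintro _ ⟨k, rfl⟩
    simp only [Finset.mem_univ, Set.iUnion_true, Set.mem_iUnion]
    refine ⟨f k, ⟨⟨k, rfl⟩, ?_⟩⟩
    have h2 : ∑ i, T k i • x i = ∑ i ∈ Finset.univ.filter (fun i => g i = f k), T k i • x i := by
      rw [Finset.sum_filter]
      refine Finset.sum_congr rfl fun i _ => ?_
      split_ifs with hi
      · rfl
      · rw [h k i (fun e => hi e.symm), zero_smul]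
    show ∑ i : {i // g i = f k}, T k i.1 • x i.1 = ∑ i, T k i • x i
    rw [h2]
    exact (Finset.sum_subtype (Finset.univ.filter (fun i => g i = f k))
      (p := fun i => g i = f k) (by simp) (fun i => T k i • x i)).symm
  sub := by
    intro κ κ' ι ι' _ _ T c e f h X _ _ A x h0 hx
    refine (h X A (fun i => x (f.symm i)) h0 (fun i => hx _)).mono subset_rfl le_rfl ?_
    rintro _ ⟨k, rfl⟩
    refine ⟨e k, ?_⟩
    simp only [Matrix.submatrix_apply]
    rw [← Equiv.sum_comp f]
    simp
  add := by
    intro κ ι _ _ S T c d hS hT X _ _ A x h0 hx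
    have h1 := (hS X A x h0 hx).union (hT X A x h0 hx)
    have h2 := Comp.iUnion (A := A ∪ ((Set.range fun k => ∑ i, S k i • x i) ∪
        Set.range fun k => ∑ i, T k i • x i)) Finset.univ
      (fun (k : κ) _ => Comp.add (u := ∑ i, S k i • x i) (v := ∑ i, T k i • x i)
        (Or.inr (Or.inl ⟨k, rfl⟩)) (Or.inr (Or.inr ⟨k, rfl⟩)))
    refine (h1.trans h2).mono subset_rfl (by simp) ?_
    rintro _ ⟨k, rfl⟩
    right
    simp only [Finset.mem_univ, Set.iUnion_true, Set.mem_iUnion, Set.mem_singleton_iff]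
    refine ⟨k, ?_⟩
    simp [add_smul, Finset.sum_add_distrib]

end Crest.Agent.R324
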