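import Crest.Agent.R324.CDefs

/-!
# Row 324, task LOCK: all blocks in lockstep
-/

set_option autoImplicit false

noncomputable section

namespace Crest.Agent.R324

namespace LockAux

section layer

variable {C K : Type} [DecidableEq C]

theorem runl_append (l l' : Pg C) (f : C → ℂ) : runl (l ++ l') f = runl l' (runl l f) := by
  unfold runl
  rw [List.foldl_append]

theorem runl_nil (f : C → ℂ) : runl ([] : Pg C) f = f := rfl

theorem runl_cons (p : C × C × ℤ) (l : Pg C) (f : C → ℂ) : runl (p :: l) f = runl l (tvop p f) := rfl

/-- a layer of transvections with the registers outside the targets -/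
theorem runl_layer_ne (l : List K) (t s : K → C) (c : K → ℤ) (f : C → ℂ) (x : C)
    (hx : ∀ k ∈ l, x ≠ t k) : runl (l.map fun k => (t k, s k, c k)) f x = f x := by
  induction l generalizing f with
  | nil => rfl
  | cons a l ih =>
    rw [List.map_cons, runl_cons, ih _ (fun k hk => hx k (List.mem_cons_of_mem _ hk))]
    unfold tvop
    exact Function.update_of_ne (hx a List.mem_cons_self) _ _

/-- a layer of transvections with distinct targets, no target is a source -/
theorem runl_layer (l : List K) (t s : K → C) (c : K → ℤ)
    (hnd : l.Pairwise (fun a b => t a ≠ t b)) (hts : ∀ a ∈ l, ∀ b ∈ l, t a ≠ s b) (f : C → ℂ)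
    (k : K) (hk : k ∈ l) :
    runl (l.map fun k => (t k, s k, c k)) f (t k) = f (t k) + (c k : ℂ) * f (s k) := by
  induction l generalizing f with
  | nil => simp at hk
  | cons a l ih =>
    rw [List.map_cons, runl_cons]
    rw [List.pairwise_cons] at hnd
    rcases List.mem_cons.1 hk with rfl | hk'
    · rw [runl_layer_ne l t s c _ _ (fun b hb => hnd.1 b hb)]
      unfold tvop
      rw [Function.update_self]
    · rw [ih hnd.2 (fun a' ha' b hb => hts a' (List.mem_cons_of_mem _ ha') b (List.mem_cons_of_mem _ hb))
        _ hk']
      have h1 : t k ≠ t a := (hnd.1 k hk').symm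
      have h2 : s k ≠ t a := (hts a List.mem_cons_self k (List.mem_cons_of_mem _ hk')).symm
      unfold tvop
      simp only [Function.update_of_ne h1, Function.update_of_ne h2]

end layer

/-- registers of `star^{⊗3}` -/
abbrev GR (n : ℕ) (U : Type) := Option (Fin n × Bool) × Option (Fin n × Bool) × Option U

variable {n : ℕ} {U : Type}

/-- the registers of the block `(i, j)` -/
def emb (i j : Fin n) : LR U → GR n U
  | .al e d => (some (i, e), some (j, d), none)
  | .be d u => (none, some (j, d), some u)
  | .ga e u => (some (i, e), none, some u)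
  | .X e d u => (some (i, e), some (j, d), some u)

theorem emb_inj {i j i' j' : Fin n} {y y' : LR U} (h : emb i j y = emb i' j' y') : y = y' := by
  cases y <;> cases y' <;> simp_all [emb]

theorem emb_A {i j i' j' : Fin n} {y : LR U} (hy : y.isA = true) (h : emb i j y = emb i' j' y) :
    i = i' ∧ j = j' := by
  cases y <;> simp_all [emb, LR.isA]

theorem emb_B {i j i' j' : Fin n} {y : LR U} (hy : y.isB = true) :
    emb i j y = emb i' j' y ↔ j = j' := by
  cases y <;> simp_all [emb, LR.isB]

theorem emb_C {i j i' j' : Fin n} {y : LR U} (hy : y.isC = true) :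
    emb i j y = emb i' j' y ↔ i = i' := by
  cases y <;> simp_all [emb, LR.isC]

/-- one instruction in all blocks -/
def lock (n : ℕ) (p : LR U × LR U × ℤ) : Pg (GR n U) :=
  if p.1.isA = true then
    (List.finRange n ×ˢ List.finRange n).map
      fun k => (emb k.1 k.2 p.1, emb k.1 k.2 p.2.1, p.2.2)
  else (List.finRange n).map fun k => (emb k k p.1, emb k k p.2.1, p.2.2)

theorem lock_spec [DecidableEq U] {p : LR U × LR U × ℤ} (hp : okI p)
    (f : GR n U → ℂ) (i j : Fin n) :
    (fun y => runl (lock n p) f (emb i j y)) = tvop p (fun y => f (emb i j y)) := by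
  obtain ⟨hne, -, hB, hC⟩ := hp
  funext y
  by_cases hA : p.1.isA = true
  · have hl : lock n p = (List.finRange n ×ˢ List.finRange n).map
      fun k => (emb k.1 k.2 p.1, emb k.1 k.2 p.2.1, p.2.2) := by
      unfold lock; rw [if_pos hA]
    rw [hl]
    by_cases hy : y = p.1
    · subst hy
      have hk : (i, j) ∈ List.finRange n ×ˢ List.finRange n := by
        rw [List.mem_product]; exact ⟨List.mem_finRange _, List.mem_finRange _⟩
      have := runl_layer (List.finRange n ×ˢ List.finRange n)
        (fun k => emb k.1 k.2 p.1) (fun k => emb k.1 k.2 p.2.1) (fun _ => p.2.2) ?_ ?_ f (i, j) hk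
      · rw [this]
        unfold tvop
        rw [Function.update_self]
      · refine List.Nodup.pairwise_of_forall_ne
          ((List.nodup_finRange n).product (List.nodup_finRange n)) ?_
        intro a _ b _ hab h
        exact hab (Prod.ext (emb_A hA h).1 (emb_A hA h).2)
      · intro a _ b _ h
        exact hne (emb_inj h)
    · rw [runl_layer_ne _ _ _ (fun _ => p.2.2)]
      · unfold tvop
        rw [Function.update_of_ne hy]
      · intro k _ h
        exact hy (emb_inj h)
  · have hl : lock n p = (List.finRange n).map fun k => (emb k k p.1, emb k k p.2.1, p.2.2) := by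
      unfold lock; rw [if_neg hA]
    rw [hl]
    by_cases hy : y = p.1
    · subst hy
      have hBC : (p.1.isB = true ∧ p.2.1.isB = true) ∨ (p.1.isC = true ∧ p.2.1.isC = true) := by
        cases h : p.1 with
        | al e d => simp [h, LR.isA] at hA
        | X e d u => simp [h, LR.isA] at hA
        | be d u => left; exact ⟨rfl, hB (by rw [h]; rfl)⟩
        | ga e u => right; exact ⟨rfl, hC (by rw [h]; rfl)⟩
      obtain ⟨k, hk1, hk2⟩ : ∃ k : Fin n, emb i j p.1 = emb k k p.1 ∧
          emb i j p.2.1 = emb k k p.2.1 := by
        rcases hBC with h | h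
        · exact ⟨j, (emb_B h.1).2 rfl, (emb_B h.2).2 rfl⟩
        · exact ⟨i, (emb_C h.1).2 rfl, (emb_C h.2).2 rfl⟩
      have := runl_layer (List.finRange n)
        (fun k => emb k k p.1) (fun k => emb k k p.2.1) (fun _ => p.2.2) ?_ ?_ f k
        (List.mem_finRange _)
      · rw [hk1, this]
        unfold tvop
        rw [Function.update_self]
        simp only [hk1, hk2]
      · refine List.Nodup.pairwise_of_forall_ne (List.nodup_finRange n) ?_
        intro a _ b _ hab h
        rcases hBC with h2 | h2
        · exact hab ((emb_B h2.1).1 h)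
        · exact hab ((emb_C h2.1).1 h)
      · intro a _ b _ h
        exact hne (emb_inj h)
    · rw [runl_layer_ne _ _ _ (fun _ => p.2.2)]
      · unfold tvop
        rw [Function.update_of_ne hy]
      · intro k _ h
        exact hy (emb_inj h)

theorem lock_outside [DecidableEq U] (p : LR U × LR U × ℤ) (f : GR n U → ℂ) (x : GR n U)
    (hx : ∀ i j y, x ≠ emb i j y) : runl (lock n p) f x = f x := by
  unfold lock
  split_ifs
  · exact runl_layer_ne _ _ _ (fun _ => p.2.2) _ _ fun k _ => hx _ _ _
  · exact runl_layer_ne _ _ _ (fun _ => p.2.2) _ _ fun k _ => hx _ _ _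

theorem flat_spec [DecidableEq U] (P : Pg (LR U)) (hP : ∀ p ∈ P, okI p) (f : GR n U → ℂ)
    (i j : Fin n) :
    (fun y => runl (P.flatMap (lock n)) f (emb i j y)) = runl P (fun y => f (emb i j y)) := by
  induction P generalizing f with
  | nil => rfl
  | cons p P ih =>
    rw [List.flatMap_cons, runl_append, runl_cons, ih (fun q hq => hP q (List.mem_cons_of_mem _ hq)),
      lock_spec (hP p List.mem_cons_self)]

theorem flat_outside [DecidableEq U] (P : Pg (LR U)) (f : GR n U → ℂ) (x : GR n U)
    (hx : ∀ i j y, x ≠ emb i j y) : runl (P.flatMap (lock n)) f x = f x := by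
  induction P generalizing f with
  | nil => rfl
  | cons p P ih =>
    rw [List.flatMap_cons, runl_append, ih, lock_outside p f x hx]

theorem lock_length (p : LR U × LR U × ℤ) :
    (lock n p).length = if p.1.isA = true then n * n else n := by
  unfold lock
  split_ifs <;> simp [List.length_product]

theorem flat_length (P : Pg (LR U)) : (P.flatMap (lock n)).length =
    n * n * P.countP (fun p => p.1.isA) + n * P.countP (fun p => p.1.isB) +
      n * P.countP (fun p => p.1.isC) := by
  induction P with
  | nil => simp
  | cons p P ih =>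
    rw [List.flatMap_cons, List.length_append, ih, lock_length, List.countP_cons, List.countP_cons,
      List.countP_cons]
    obtain ⟨t, s, c⟩ := p
    cases t <;> simp [LR.isA, LR.isB, LR.isC] <;> ring

end LockAux

open LockAux in
theorem lock : StLock := by
  intro n U _ _ P hok hP
  refine ⟨P.flatMap (LockAux.lock n), ?_, ?_, flat_length P⟩
  · intro q hq
    rw [List.mem_flatMap] at hq
    obtain ⟨p, hp, hq⟩ := hq
    have hne := (hok p hp).1
    have hc := (hok p hp).2.1
    unfold LockAux.lock at hq
    split_ifs at hq
    · rw [List.mem_map] at hq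
      obtain ⟨k, -, rfl⟩ := hq
      exact ⟨fun h => hne (emb_inj h), hc⟩
    · rw [List.mem_map] at hq
      obtain ⟨k, -, rfl⟩ := hq
      exact ⟨fun h => hne (emb_inj h), hc⟩
  · intro f
    funext x
    have hin : ∀ i j y, runl (P.flatMap (LockAux.lock n)) f (emb i j y) =
        topL (fun y => f (emb i j y)) y := by
      intro i j y
      have h1 := congrFun (flat_spec (n := n) P hok f i j) y
      rw [hP] at h1
      exact h1
    have hout : (∀ i j y, x ≠ emb i j y) → runl (P.flatMap (LockAux.lock n)) f x = f x :=
      flat_outside P f x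
    obtain ⟨a, b, c⟩ := x
    rcases a with _ | ⟨i, e⟩ <;> rcases b with _ | ⟨j, d⟩ <;> rcases c with _ | u
    · exact hout (by intro i j y h; cases y <;> simp [emb] at h)
    · exact hout (by intro i j y h; cases y <;> simp [emb] at h)
    · exact hout (by intro i j y h; cases y <;> simp [emb] at h)
    · exact hin j j (.be d u)
    · exact hout (by intro i j y h; cases y <;> simp [emb] at h)
    · exact hin i i (.ga e u)
    · exact hin i j (.al e d)
    · exact hin i j (.X e d u)

end Crest.Agent.R324
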