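import Crest.Agent.R324.Defs

set_option autoImplicit false

noncomputable section

namespace Crest.Agent.R324

open Matrix Finset

namespace LTR

/-- block start -/
def bs (h r i : ℕ) : ℕ := if i < r then 0 else r + ((i - r) / h) * h

/-- partial matrix: target block starts at `S`, the sources `< c` are attached -/
def G (q h r : ℕ) (t : ℕ → ℂ) (S c : ℕ) : Matrix (Fin q) (Fin q) ℂ := fun i j =>
  if (j : ℕ) ≤ i ∧ (bs h r i ≤ j ∨ (i : ℕ) < S ∨ ((i : ℕ) < S + h ∧ (j : ℕ) < c)) then
    t (i - j) else 0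

/-- embedding of an interval -/
def em (q s b : ℕ) (hs : s + b ≤ q) : Fin b → Fin q := fun l => ⟨s + l, by omega⟩

theorem em_inj (q s b : ℕ) (hs : s + b ≤ q) : Function.Injective (em q s b hs) := by
  intro a b h
  have := congrArg Fin.val h
  simp only [em] at this
  exact Fin.ext (by omega)

theorem mul_Ad {ι a b : Type} [Fintype ι] [DecidableEq ι] [Fintype a] [Fintype b] (y : a → ι)
    (z : b → ι) (X : Matrix a b ℂ) (M : Matrix ι ι ℂ) (i j : ι) :
    (M * Ad y z X) i j = M i j + ∑ l, if j = z l then ∑ k, M i (y k) * X k l else 0 := by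
  rw [Matrix.mul_apply]
  unfold Ad
  simp only [mul_add, Finset.sum_add_distrib]
  congr 1
  · simp
  · simp only [Finset.mul_sum]
    rw [Finset.sum_comm]
    have : ∀ k : a, ∑ x, ∑ l, M i x * (if x = y k ∧ j = z l then X k l else 0) =
        ∑ l, if j = z l then M i (y k) * X k l else 0 := by
      intro k
      rw [Finset.sum_comm]
      refine Finset.sum_congr rfl fun l _ => ?_
      by_cases hj : j = z l
      · simp [hj]
      · simp [hj]
    rw [Finset.sum_congr rfl fun k _ => this k, Finset.sum_comm]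
    refine Finset.sum_congr rfl fun l _ => ?_
    by_cases hj : j = z l
    · simp [hj]
    · simp [hj]

/-- Toeplitz block -/
def Mb (t : ℕ → ℂ) (d h b : ℕ) : Matrix (Fin h) (Fin b) ℂ := fun k l =>
  t (((d : ℤ) + ((k : ℤ) - (l : ℤ))).toNat)

theorem bs_block (h r m a : ℕ) (ha : a < h) : bs h r (r + m * h + a) = r + m * h := by
  unfold bs
  have h0 : 0 < h := by omega
  rw [if_neg (by omega), show r + m * h + a - r = a + m * h by omega,
    Nat.add_mul_div_right _ _ h0, Nat.div_eq_of_lt ha, zero_add]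

theorem bs_le (h r i : ℕ) : bs h r i ≤ i := by
  unfold bs
  split_ifs with hi
  · omega
  · have := Nat.div_mul_le_self (i - r) h
    omega

theorem bs_ge (h r m i : ℕ) (hh : 0 < h) (hi : r + m * h ≤ i) : r + m * h ≤ bs h r i := by
  unfold bs
  rw [if_neg (by omega)]
  have : m ≤ (i - r) / h := by
    rw [Nat.le_div_iff_mul_le hh]; omega
  have := Nat.mul_le_mul_right h this
  omega

/-- transition -/
theorem G_step (q h r : ℕ) (hpos : 0 < h) (t t' : ℕ → ℂ) (ht : LT h t * LT h t' = 1) (m c b : ℕ)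
    (hS : r + m * h + h ≤ q) (hc : c + b ≤ r + m * h) :
    G q h r t (r + m * h) (c + b) = G q h r t (r + m * h) c *
      Ad (em q (r + m * h) h hS) (em q c b (by omega))
        (LT h t' * Mb t (r + m * h - c) h b) := by
  set S := r + m * h with hSdef
  ext i j
  rw [mul_Ad]
  by_cases hj : ∃ l : Fin b, j = em q c b (by omega) l
  · obtain ⟨l, hl⟩ := hj
    have hjv : (j : ℕ) = c + l := by rw [hl]; rfl
    have hsum : (∑ l' : Fin b, if j = em q c b (by omega) l' then
        ∑ k, G q h r t S c i (em q S h hS k) * (LT h t' * Mb t (S - c) h b) k l' else 0) =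
        ∑ k, G q h r t S c i (em q S h hS k) * (LT h t' * Mb t (S - c) h b) k l := by
      rw [Finset.sum_eq_single l]
      · rw [if_pos hl]
      · intro l' _ hne
        rw [if_neg]
        intro h'
        exact hne (em_inj _ _ _ _ (h'.symm.trans hl))
      · intro h'; exact absurd (Finset.mem_univ l) h'
    rw [hsum]
    by_cases hi : S ≤ (i : ℕ) ∧ (i : ℕ) < S + h
    · -- target row
      obtain ⟨a, ha⟩ : ∃ a : Fin h, (i : ℕ) = S + a := ⟨⟨i - S, by omega⟩, by simp; omega⟩
      have hbs : bs h r i = S := by rw [ha]; exact bs_block h r m a a.2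
      have h1 : ∀ k : Fin h, G q h r t S c i (em q S h hS k) = LT h t a k := by
        intro k
        unfold G LT
        have hk : ((em q S h hS k : Fin q) : ℕ) = S + k := rfl
        rw [hk, ha]
        have hbs' : bs h r (S + a) = S := by rw [← ha]; exact hbs
        by_cases hka : (k : ℕ) ≤ a
        · rw [if_pos ⟨by omega, Or.inl (by rw [hbs']; omega)⟩, if_pos hka]
          congr 1; omega
        · rw [if_neg (by omega), if_neg hka]
      simp only [h1]
      rw [← Matrix.mul_apply, ← Matrix.mul_assoc, ht, Matrix.one_mul]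
      unfold G Mb
      have hl2 := l.2
      rw [if_pos ⟨by omega, Or.inr (Or.inr ⟨by omega, by omega⟩)⟩, if_neg, zero_add]
      · congr 1
        omega
      · rintro ⟨_, h2 | h2 | ⟨_, h2⟩⟩
        · rw [hbs] at h2; omega
        · omega
        · omega
    · -- other rows
      have h1 : ∀ k : Fin h, G q h r t S c i (em q S h hS k) = 0 := by
        intro k
        unfold G
        have hk : ((em q S h hS k : Fin q) : ℕ) = S + k := rfl
        rw [hk, if_neg]
        rintro ⟨h2, h3⟩
        have hi2 : S + h ≤ (i : ℕ) := by omega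
        have : S + h ≤ bs h r i := by
          have := bs_ge h r (m + 1) i hpos (by rw [add_mul, one_mul]; omega)
          rw [add_mul, one_mul] at this
          omega
        have hk2 := k.2
        rcases h3 with h3 | h3 | h3 <;> omega
      simp only [h1, zero_mul, Finset.sum_const_zero, add_zero]
      unfold G
      have h2 : ((j : ℕ) ≤ i ∧ (bs h r i ≤ j ∨ (i : ℕ) < S ∨ (i : ℕ) < S + h ∧ (j : ℕ) < c + b)) ↔
        ((j : ℕ) ≤ i ∧ (bs h r i ≤ j ∨ (i : ℕ) < S ∨ (i : ℕ) < S + h ∧ (j : ℕ) < c)) := by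
        constructor
        · rintro ⟨h3, h4 | h4 | ⟨h4, h5⟩⟩
          · exact ⟨h3, Or.inl h4⟩
          · exact ⟨h3, Or.inr (Or.inl h4)⟩
          · exact ⟨h3, Or.inr (Or.inl (by omega))⟩
        · rintro ⟨h3, h4 | h4 | ⟨h4, h5⟩⟩
          · exact ⟨h3, Or.inl h4⟩
          · exact ⟨h3, Or.inr (Or.inl h4)⟩
          · exact ⟨h3, Or.inr (Or.inr ⟨h4, by omega⟩)⟩
      exact if_congr h2 rfl rfl
  · have hsum : (∑ l' : Fin b, if j = em q c b (by omega) l' then
        ∑ k, G q h r t S c i (em q S h hS k) * (LT h t' * Mb t (S - c) h b) k l' else 0) = 0 := by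
      apply Finset.sum_eq_zero
      intro l _
      rw [if_neg]
      intro h'
      exact hj ⟨l, h'⟩
    rw [hsum, add_zero]
    have hjc : ¬ (c ≤ (j : ℕ) ∧ (j : ℕ) < c + b) := by
      rintro ⟨h1, h2⟩
      exact hj ⟨⟨j - c, by omega⟩, Fin.ext (by simp only [em]; omega)⟩
    unfold G
    have h2 : ((j : ℕ) ≤ i ∧ (bs h r i ≤ j ∨ (i : ℕ) < S ∨ (i : ℕ) < S + h ∧ (j : ℕ) < c + b)) ↔
        ((j : ℕ) ≤ i ∧ (bs h r i ≤ j ∨ (i : ℕ) < S ∨ (i : ℕ) < S + h ∧ (j : ℕ) < c)) := by
      constructor
      · rintro ⟨h3, h4 | h4 | ⟨h4, h5⟩⟩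
        · exact ⟨h3, Or.inl h4⟩
        · exact ⟨h3, Or.inr (Or.inl h4)⟩
        · exact ⟨h3, Or.inr (Or.inr ⟨h4, by omega⟩)⟩
      · rintro ⟨h3, h4 | h4 | ⟨h4, h5⟩⟩
        · exact ⟨h3, Or.inl h4⟩
        · exact ⟨h3, Or.inr (Or.inl h4)⟩
        · exact ⟨h3, Or.inr (Or.inr ⟨h4, by omega⟩)⟩
    exact if_congr h2 rfl rfl

/-! ### copies of a step -/

def copies {ι : Type} (κ : Type) (s : Step ι) : Step (ι × κ) where
  π := Equiv.prodCongr s.π (Equiv.refl κ)
  d := fun p => s.d p.1
  σ := fun p => (s.σ p.1, p.2)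
  T := fun p => s.T p.1
  inv := fun p => by simp [s.inv]
  ht := fun p h => s.ht p.1 h

theorem copies_mat {ι κ : Type} [DecidableEq ι] [DecidableEq κ] (s : Step ι) :
    (copies κ s).mat = blockDiagonal (fun _ : κ => s.mat) := by
  ext ⟨i, k⟩ ⟨j, k'⟩
  rw [blockDiagonal_apply]
  unfold Step.mat copies
  simp only [Equiv.prodCongr_apply, Prod.map_apply, Equiv.refl_apply, Prod.mk.injEq]
  by_cases hk : k = k'
  · subst hk; simp
  · have hk' : k' ≠ k := fun h => hk h.symm
    simp [hk, hk']

theorem bdiag {ι κ : Type} [Fintype ι] [DecidableEq ι] [Fintype κ] [DecidableEq κ]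
    {M : Matrix ι ι ℂ} {n : ℕ} (h : Steps M n) : Steps (blockDiagonal (fun _ : κ => M)) n := by
  obtain ⟨l, hl, rfl⟩ := h
  refine ⟨l.map (copies κ), by simp [hl], ?_⟩
  clear hl
  induction l with
  | nil =>
    simp only [List.map_nil, List.prod_nil]
    exact blockDiagonal_one.symm
  | cons s l ih =>
    simp only [List.map_cons, List.prod_cons]
    rw [ih, copies_mat, ← blockDiagonal_mul]

def eqv (r K h : ℕ) : Fin r ⊕ (Fin h × Fin K) ≃ Fin (r + K * h) :=
  (Equiv.sumCongr (Equiv.refl _) ((Equiv.prodComm _ _).trans finProdFinEquiv)).trans finSumFinEquiv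

theorem eqv_inl (r K h : ℕ) (a : Fin r) : ((eqv r K h (Sum.inl a) : Fin (r + K * h)) : ℕ) = a := by
  simp [eqv]

theorem eqv_inr (r K h : ℕ) (a : Fin h) (k : Fin K) :
    ((eqv r K h (Sum.inr (a, k)) : Fin (r + K * h)) : ℕ) = r + k * h + a := by
  simp [eqv]
  ring

theorem diag_eq (r K h : ℕ) (t : ℕ → ℂ) :
    (G (r + K * h) h r t r 0).submatrix (eqv r K h) (eqv r K h) =
      fromBlocks (LT r t) 0 0 (blockDiagonal (fun _ : Fin K => LT h t)) := by
  ext x y
  rcases x with a | ⟨a, k⟩ <;> rcases y with b | ⟨b, l⟩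
  · simp only [submatrix_apply, fromBlocks_apply₁₁]
    unfold G LT
    rw [eqv_inl, eqv_inl]
    refine if_congr ⟨fun h => h.1, fun h => ⟨h, Or.inl ?_⟩⟩ rfl rfl
    unfold bs
    rw [if_pos a.2]
    exact Nat.zero_le _
  · simp only [submatrix_apply, fromBlocks_apply₁₂, Matrix.zero_apply]
    unfold G
    rw [eqv_inl, eqv_inr, if_neg]
    rintro ⟨h1, _⟩
    have := a.2
    omega
  · simp only [submatrix_apply, fromBlocks_apply₂₁, Matrix.zero_apply]
    unfold G
    rw [eqv_inl, eqv_inr, if_neg]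
    rintro ⟨h1, h2⟩
    have hb := b.2
    rw [bs_block h r k a a.2] at h2
    rcases h2 with h2 | h2 | h2 <;> omega
  · simp only [submatrix_apply, fromBlocks_apply₂₂]
    rw [blockDiagonal_apply]
    unfold G LT
    rw [eqv_inr, eqv_inr, bs_block h r k a a.2]
    have ha := a.2
    have hb := b.2
    by_cases hkl : k = l
    · subst hkl
      rw [if_pos rfl]
      by_cases hab : (b : ℕ) ≤ a
      · rw [if_pos ⟨by omega, Or.inl (by omega)⟩, if_pos hab]
        have e1 : r + (k : ℕ) * h + a - (r + k * h + b) = (a : ℕ) - b := by omega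
        rw [e1]
      · rw [if_neg (by omega), if_neg hab]
    · rw [if_neg hkl, if_neg]
      rintro ⟨h1, h2⟩
      have hne : (k : ℕ) ≠ l := fun h => hkl (Fin.ext h)
      rcases lt_or_gt_of_ne hne with h3 | h3
      · have h4 : ((k : ℕ) + 1) * h ≤ l * h := Nat.mul_le_mul_right h h3
        rw [add_mul, one_mul] at h4
        omega
      · have h4 : ((l : ℕ) + 1) * h ≤ k * h := Nat.mul_le_mul_right h h3
        rw [add_mul, one_mul] at h4
        rcases h2 with h2 | h2 | h2 <;> omega

theorem diag_steps (slib : SLib) (r K h D : ℕ) (t : ℕ → ℂ) (h1 : Steps (LT r t) D)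
    (h2 : Steps (LT h t) D) : Steps (G (r + K * h) h r t r 0) D := by
  have h3 := slib.par h1 (bdiag (κ := Fin K) h2)
  rw [← diag_eq] at h3
  have h4 := slib.reindex (eqv r K h).symm h3
  rw [Matrix.submatrix_submatrix] at h4
  simpa using h4

/-- attach everything -/
theorem attach (slib : SLib) (r K h N : ℕ) (hpos : 0 < h) (hr : r ≤ h) (t t' : ℕ → ℂ)
    (ht : LT h t * LT h t' = 1)
    (hAd : ∀ (S c b : ℕ) (hS : S + h ≤ r + K * h) (hc : c + b ≤ S), b ≤ h →
      Steps (Ad (em (r + K * h) S h hS) (em (r + K * h) c b (by omega))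
        (LT h t' * Mb t (S - c) h b)) N)
    (D : ℕ) (hD : Steps (G (r + K * h) h r t r 0) D) :
    Steps (LT (r + K * h) t) (D + K * ((K + 1) * N)) := by
  set q := r + K * h with hq
  -- inner loop
  have inner : ∀ m, m < K → ∀ D', Steps (G q h r t (r + m * h) 0) D' → ∀ j ≤ m,
      Steps (G q h r t (r + m * h) (r + j * h)) (D' + (j + 1) * N) := by
    intro m hm D' hD' j
    have hmK : (m + 1) * h ≤ K * h := Nat.mul_le_mul_right h hm
    have hSq : r + m * h + h ≤ q := by rw [add_mul, one_mul] at hmK; omega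
    induction j with
    | zero =>
      intro _
      have h1 := G_step q h r hpos t t' ht m 0 r hSq (by omega)
      have h2 := slib.mul hD' (hAd (r + m * h) 0 r hSq (by omega) hr)
      rw [← h1] at h2
      simpa using h2
    | succ j ih =>
      intro hj
      have hjm : (j + 1) * h ≤ m * h := Nat.mul_le_mul_right h hj
      have hle : r + j * h + h ≤ r + m * h := by rw [add_mul, one_mul] at hjm; omega
      have h1 := G_step q h r hpos t t' ht m (r + j * h) h hSq hle
      have h2 := slib.mul (ih (by omega)) (hAd (r + m * h) (r + j * h) h hSq hle le_rfl)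
      rw [← h1] at h2
      have e1 : r + j * h + h = r + (j + 1) * h := by ring
      have e2 : D' + (j + 1) * N + N = D' + (j + 1 + 1) * N := by ring
      rw [e1, e2] at h2
      exact h2
  have outer : ∀ m, m ≤ K → Steps (G q h r t (r + m * h) 0) (D + m * ((K + 1) * N)) := by
    intro m
    induction m with
    | zero => intro _; simpa using hD
    | succ m ih =>
      intro hm
      have h1 := inner m hm _ (ih (by omega)) m le_rfl
      have h2 : G q h r t (r + m * h) (r + m * h) = G q h r t (r + (m + 1) * h) 0 := by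
        ext i j
        unfold G
        refine if_congr ?_ rfl rfl
        have e : r + (m + 1) * h = r + m * h + h := by ring
        rw [e]
        constructor
        · rintro ⟨h3, h4⟩
          refine ⟨h3, ?_⟩
          rcases h4 with h4 | h4 | ⟨h4, _⟩
          · exact Or.inl h4
          · exact Or.inr (Or.inl (by omega))
          · exact Or.inr (Or.inl h4)
        · rintro ⟨h3, h4⟩
          refine ⟨h3, ?_⟩
          rcases h4 with h4 | h4 | ⟨_, h4⟩
          · exact Or.inl h4
          · by_cases h5 : (i : ℕ) < r + m * h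
            · exact Or.inr (Or.inl h5)
            · by_cases h6 : (j : ℕ) < r + m * h
              · exact Or.inr (Or.inr ⟨h4, h6⟩)
              · left
                obtain ⟨a, ha⟩ : ∃ a, (i : ℕ) = r + m * h + a := ⟨i - (r + m * h), by omega⟩
                rw [ha, bs_block h r m a (by omega)]
                omega
          · omega
      rw [h2] at h1
      refine slib.mono h1 ?_
      have h5 : (m + 1) * N ≤ (K + 1) * N := Nat.mul_le_mul_right N (by omega)
      have h6 : (m + 1) * ((K + 1) * N) = m * ((K + 1) * N) + (K + 1) * N := by ring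
      rw [h6]
      omega
  have h1 := outer K le_rfl
  have h2 : G q h r t (r + K * h) 0 = LT q t := by
    ext i j
    unfold G LT
    refine if_congr ⟨fun h => h.1, fun h => ⟨h, Or.inr (Or.inl i.2)⟩⟩ rfl rfl
  rw [h2] at h1
  exact h1

/-! ### inverse power series -/

theorem exists_inv (t : ℕ → ℂ) (ht : t 0 = 1) : ∃ t' : ℕ → ℂ, ∀ n, LT n t * LT n t' = 1 := by
  let f : PowerSeries ℂ := PowerSeries.mk t
  have hf : f * f⁻¹ = 1 := PowerSeries.mul_inv_cancel f (by
    rw [← PowerSeries.coeff_zero_eq_constantCoeff_apply, PowerSeries.coeff_mk, ht]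
    exact one_ne_zero)
  refine ⟨fun n => PowerSeries.coeff n f⁻¹, fun n => ?_⟩
  have hc : ∀ m : ℕ, ∑ k ∈ Finset.range (m + 1), t (m - k) * PowerSeries.coeff k f⁻¹ =
      if m = 0 then 1 else 0 := by
    intro m
    have h1 := congrArg (PowerSeries.coeff m) hf
    rw [mul_comm, PowerSeries.coeff_mul, PowerSeries.coeff_one,
      Finset.Nat.sum_antidiagonal_eq_sum_range_succ
        (fun a b => PowerSeries.coeff a f⁻¹ * PowerSeries.coeff b f)] at h1
    rw [← h1]
    refine Finset.sum_congr rfl fun k _ => ?_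
    rw [PowerSeries.coeff_mk, mul_comm]
  ext i j
  rw [Matrix.mul_apply, Matrix.one_apply]
  unfold LT
  by_cases hij : (j : ℕ) ≤ i
  · have h1 : ∑ k : Fin n, (if (k : ℕ) ≤ i then t (i - k) else 0) *
        (if (j : ℕ) ≤ k then PowerSeries.coeff ((k : ℕ) - j) f⁻¹ else 0) =
        ∑ k ∈ Finset.range n, (if k ≤ (i : ℕ) then t (i - k) else 0) *
        (if (j : ℕ) ≤ k then PowerSeries.coeff (k - j) f⁻¹ else 0) :=
      Fin.sum_univ_eq_sum_range (fun k => (if k ≤ (i : ℕ) then t (i - k) else 0) *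
        (if (j : ℕ) ≤ k then PowerSeries.coeff (k - j) f⁻¹ else 0)) n
    rw [h1]
    have hi := i.2
    have h2 : ∑ k ∈ Finset.range n, (if k ≤ (i : ℕ) then t (i - k) else 0) *
        (if (j : ℕ) ≤ k then PowerSeries.coeff (k - j) f⁻¹ else 0) =
        ∑ k ∈ Finset.Ico (j : ℕ) (i + 1), t (i - k) * PowerSeries.coeff (k - j) f⁻¹ := by
      symm
      apply Finset.sum_subset_zero_on_sdiff
      · intro k hk
        rw [Finset.mem_Ico] at hk
        rw [Finset.mem_range]; omega
      · intro k hk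
        rw [Finset.mem_sdiff, Finset.mem_Ico] at hk
        by_cases h3 : k ≤ (i : ℕ)
        · rw [if_neg (by omega : ¬ (j : ℕ) ≤ k), mul_zero]
        · rw [if_neg h3, zero_mul]
      · intro k hk
        rw [Finset.mem_Ico] at hk
        rw [if_pos (by omega), if_pos hk.1]
    rw [h2, Finset.sum_Ico_eq_sum_range]
    have h3 : ∑ k ∈ Finset.range (↑i + 1 - ↑j), t (↑i - (↑j + k)) *
        PowerSeries.coeff (↑j + k - ↑j) f⁻¹ =
        ∑ k ∈ Finset.range (((i : ℕ) - j) + 1), t (((i : ℕ) - j) - k) *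
          PowerSeries.coeff k f⁻¹ := by
      rw [show (i : ℕ) + 1 - j = (i : ℕ) - j + 1 by omega]
      refine Finset.sum_congr rfl fun k _ => ?_
      rw [show (i : ℕ) - (j + k) = (i : ℕ) - j - k by omega, show (j : ℕ) + k - j = k by omega]
    rw [h3, hc]
    refine if_congr ?_ rfl rfl
    constructor
    · intro h; exact Fin.ext (by omega)
    · intro h; rw [h]; omega
  · rw [if_neg (fun h => hij (by rw [h]))]
    apply Finset.sum_eq_zero
    intro k _
    by_cases h1 : (k : ℕ) ≤ i
    · rw [if_neg (by omega : ¬ (j : ℕ) ≤ k), mul_zero]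
    · rw [if_neg h1, zero_mul]

/-! ### spare registers -/

/-- `n` further registers avoiding a finite set -/
theorem avoid {ι : Type} [Fintype ι] [DecidableEq ι] (n : ℕ) (S : Finset ι)
    (h : n + S.card ≤ Fintype.card ι) : ∃ w : Fin n → ι, Function.Injective w ∧ ∀ k, w k ∉ S := by
  have h1 : n ≤ Sᶜ.card := by rw [Finset.card_compl]; omega
  obtain ⟨f⟩ : Nonempty (Fin n ↪ (Sᶜ : Finset ι)) :=
    Function.Embedding.nonempty_of_card_le (by
      rw [Fintype.card_fin, Fintype.card_coe]; exact h1)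
  exact ⟨fun k => (f k : ι), fun a b hab => f.injective (Subtype.ext hab),
    fun k => Finset.mem_compl.1 (f k).2⟩

theorem extend {ι : Type} [Fintype ι] [DecidableEq ι] {a b n : ℕ} (hb : b ≤ n) (y : Fin a → ι)
    (z : Fin b → ι) (hz : Function.Injective z) (hyz : ∀ k l, y k ≠ z l)
    (hcard : n + a ≤ Fintype.card ι) : ∃ v : Fin n → ι, Function.Injective v ∧
      (∀ k l, y k ≠ v l) ∧ ∀ l : Fin b, v ⟨l, by omega⟩ = z l := by
  obtain ⟨g, hg, hgS⟩ := avoid (ι := ι) (n - b) (univ.image y ∪ univ.image z) (by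
    have h1 := Finset.card_union_le (univ.image y) (univ.image z)
    have h2 : (univ.image y).card ≤ a := by
      simpa using Finset.card_image_le (s := (univ : Finset (Fin a))) (f := y)
    have h3 : (univ.image z).card ≤ b := by
      simpa using Finset.card_image_le (s := (univ : Finset (Fin b))) (f := z)
    omega)
  have hgy : ∀ k l, y k ≠ g l := fun k l h => hgS l (by
    rw [← h]; exact Finset.mem_union_left _ (Finset.mem_image_of_mem _ (Finset.mem_univ _)))
  have hgz : ∀ k l, z k ≠ g l := fun k l h => hgS l (by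
    rw [← h]; exact Finset.mem_union_right _ (Finset.mem_image_of_mem _ (Finset.mem_univ _)))
  refine ⟨fun l => if h : (l : ℕ) < b then z ⟨l, h⟩ else g ⟨l - b, by omega⟩, ?_, ?_, ?_⟩
  · intro l l' h
    dsimp only at h
    by_cases h1 : (l : ℕ) < b <;> by_cases h2 : (l' : ℕ) < b
    · rw [dif_pos h1, dif_pos h2] at h
      have := congrArg Fin.val (hz h)
      exact Fin.ext this
    · rw [dif_pos h1, dif_neg h2] at h
      exact absurd h (hgz _ _)
    · rw [dif_neg h1, dif_pos h2] at h
      exact absurd h.symm (hgz _ _)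
    · rw [dif_neg h1, dif_neg h2] at h
      have := congrArg Fin.val (hg h)
      simp only at this
      exact Fin.ext (by omega)
  · intro k l
    dsimp only
    by_cases h1 : (l : ℕ) < b
    · rw [dif_pos h1]; exact hyz _ _
    · rw [dif_neg h1]; exact hgy _ _
  · intro l
    dsimp only
    rw [dif_pos l.2]

/-- the Toeplitz hypothesis in the form used here -/
def TH (C : ℕ) : Prop := ∀ (ι : Type) [Fintype ι] [DecidableEq ι] (a b j : ℕ)
  (y : Fin a → ι) (v : Fin (2 ^ j) → ι) (c : ℤ → ℂ) (hab : a + b ≤ 2 ^ j),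
  Function.Injective y → Function.Injective v → (∀ k l, y k ≠ v l) →
  Steps (Ad y (fun l : Fin b => v ⟨l, by omega⟩) (fun k l => c ((k : ℤ) - (l : ℤ)))) (C * (j + 1))

theorem toepAd {C : ℕ} (th : TH C) {ι : Type} [Fintype ι] [DecidableEq ι] {a b j : ℕ}
    (y : Fin a → ι) (z : Fin b → ι) (c : ℤ → ℂ) (hab : a + b ≤ 2 ^ j)
    (hy : Function.Injective y) (hz : Function.Injective z) (hyz : ∀ k l, y k ≠ z l)
    (hcard : 2 ^ j + a ≤ Fintype.card ι) :
    Steps (Ad y z (fun k l => c ((k : ℤ) - (l : ℤ)))) (C * (j + 1)) := by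
  obtain ⟨v, hv, hyv, hvz⟩ := extend (n := 2 ^ j) (by omega) y z hz hyz hcard
  have h := th ι a b j y v c hab hy hv hyv
  have e : (fun l : Fin b => v ⟨l, by omega⟩) = z := funext hvz
  rw [e] at h
  exact h

theorem adProd {C : ℕ} (slib : SLib) (th : TH C) (am : StAdMul) {ι : Type} [Fintype ι]
    [DecidableEq ι] {b j : ℕ} (y : Fin (2 ^ j) → ι) (z : Fin b → ι) (hb : b ≤ 2 ^ j) (c₁ c₂ : ℤ → ℂ)
    (hy : Function.Injective y) (hz : Function.Injective z) (hyz : ∀ k l, y k ≠ z l)
    (hcard : 4 * 2 ^ j ≤ Fintype.card ι) :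
    Steps (Ad y z ((Matrix.of fun (k l : Fin (2 ^ j)) => c₁ ((k : ℤ) - (l : ℤ))) *
      (Matrix.of fun (k : Fin (2 ^ j)) (l : Fin b) => c₂ ((k : ℤ) - (l : ℤ)))))
      (4 * (C * (j + 1 + 1))) := by
  obtain ⟨w, hw, hwS⟩ := avoid (ι := ι) (2 ^ j) (univ.image y ∪ univ.image z) (by
    have h1 := Finset.card_union_le (univ.image y) (univ.image z)
    have h2 : (univ.image y).card ≤ 2 ^ j := by
      simpa using Finset.card_image_le (s := (univ : Finset (Fin (2 ^ j)))) (f := y)
    have h3 : (univ.image z).card ≤ b := by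
      simpa using Finset.card_image_le (s := (univ : Finset (Fin b))) (f := z)
    omega)
  have hyw : ∀ k l, y k ≠ w l := fun k l h => hwS l (by
    rw [← h]; exact Finset.mem_union_left _ (Finset.mem_image_of_mem _ (Finset.mem_univ _)))
  have hwz : ∀ k l, w k ≠ z l := fun k l h => hwS k (by
    rw [h]; exact Finset.mem_union_right _ (Finset.mem_image_of_mem _ (Finset.mem_univ _)))
  have h2j : 2 ^ (j + 1) = 2 ^ j + 2 ^ j := by rw [pow_succ]; ring
  rw [am ι (Fin (2 ^ j)) (Fin b) (Fin (2 ^ j)) y w z hy hw hz hyw hyz hwz]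
  have s1 := toepAd th y w (fun d => - c₁ d) (j := j + 1) (by omega) hy hw hyw (by omega)
  have s2 := toepAd th w z (fun d => - c₂ d) (j := j + 1) (by omega) hw hz hwz (by omega)
  have s3 := toepAd th y w c₁ (j := j + 1) (by omega) hy hw hyw (by omega)
  have s4 := toepAd th w z c₂ (j := j + 1) (by omega) hw hz hwz (by omega)
  have h := slib.mul (slib.mul (slib.mul s1 s2) s3) s4
  have e : C * (j + 1 + 1) + C * (j + 1 + 1) + C * (j + 1 + 1) + C * (j + 1 + 1) =
    4 * (C * (j + 1 + 1)) := by ring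
  rw [e] at h
  exact h

/-! ### base case and recursion -/

theorem LT_zero_steps (slib : SLib) (t : ℕ → ℂ) : Steps (LT 0 t) 0 := by
  have : LT 0 t = 1 := Subsingleton.elim _ _
  rw [this]; exact slib.one

theorem LT_one_steps (slib : SLib) (t : ℕ → ℂ) (ht : t 0 = 1) : Steps (LT 1 t) 0 := by
  have : LT 1 t = 1 := by
    ext i j
    have hi : i = 0 := Subsingleton.elim _ _
    have hj : j = 0 := Subsingleton.elim _ _
    subst hi; subst hj
    simp [LT, ht]
  rw [this]; exact slib.one

theorem base (slib : SLib) (q : ℕ) (t : ℕ → ℂ) (ht : t 0 = 1) :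
    Steps (LT q t) (q * ((q + 1) * 3)) := by
  obtain ⟨t', ht'⟩ := exists_inv t ht
  have hAd : ∀ (S c b : ℕ) (hS : S + 1 ≤ 0 + q * 1) (hc : c + b ≤ S), b ≤ 1 →
      Steps (Ad (em (0 + q * 1) S 1 hS) (em (0 + q * 1) c b (by omega))
        (LT 1 t' * Mb t (S - c) 1 b)) 3 := by
    intro S c b hS hc hb
    have hb' : b = 0 ∨ b = 1 := by omega
    rcases hb' with rfl | rfl
    · have : Ad (em (0 + q * 1) S 1 hS) (em (0 + q * 1) c 0 (by omega))
        (LT 1 t' * Mb t (S - c) 1 0) = 1 := by
        ext i j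
        unfold Ad
        rw [Matrix.one_apply]
        simp
      rw [this]
      exact slib.mono slib.one (by norm_num)
    · have e : LT 1 t' * Mb t (S - c) 1 1 =
          diagonal (fun i : Fin 1 => (LT 1 t' * Mb t (S - c) 1 1) i i) := by
        ext i j
        have hi : i = 0 := Subsingleton.elim _ _
        have hj : j = 0 := Subsingleton.elim _ _
        subst hi; subst hj
        simp
      rw [e]
      refine slib.trans _ _ (em_inj _ _ _ _) (em_inj _ _ _ _) ?_ _
      intro k l h
      have h1 := congrArg Fin.val h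
      simp only [em] at h1
      have := k.2
      have := l.2
      omega
  have hD : Steps (G (0 + q * 1) 1 0 t 0 0) 0 :=
    diag_steps slib 0 q 1 0 t (LT_zero_steps slib t) (LT_one_steps slib t ht)
  have h := attach slib 0 q 1 3 (by norm_num) (by norm_num) t t' (ht' 1) hAd 0 hD
  rw [zero_add, Nat.mul_one, zero_add] at h
  exact h

theorem step (slib : SLib) {C : ℕ} (th : TH C) (am : StAdMul) (q j D : ℕ) (t : ℕ → ℂ)
    (ht : t 0 = 1) (h8 : 8 * 2 ^ j ≤ q) (h16 : q < 16 * 2 ^ j)
    (hD1 : Steps (LT (q % 2 ^ j) t) D) (hD2 : Steps (LT (2 ^ j) t) D) :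
    Steps (LT q t) (D + 1024 * (C * (j + 1 + 1))) := by
  obtain ⟨t', ht'⟩ := exists_inv t ht
  have hpos : 0 < 2 ^ j := by positivity
  have hq : q % 2 ^ j + q / 2 ^ j * 2 ^ j = q := by
    rw [mul_comm]; exact Nat.mod_add_div q (2 ^ j)
  have hK : q / 2 ^ j < 16 := by rw [Nat.div_lt_iff_lt_mul hpos]; exact h16
  have hr : q % 2 ^ j < 2 ^ j := Nat.mod_lt _ hpos
  set K := q / 2 ^ j with hKdef
  set r := q % 2 ^ j with hrdef
  have hAd : ∀ (S c b : ℕ) (hS : S + 2 ^ j ≤ r + K * 2 ^ j) (hc : c + b ≤ S), b ≤ 2 ^ j →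
      Steps (Ad (em (r + K * 2 ^ j) S (2 ^ j) hS) (em (r + K * 2 ^ j) c b (by omega))
        (LT (2 ^ j) t' * Mb t (S - c) (2 ^ j) b)) (4 * (C * (j + 1 + 1))) := by
    intro S c b hS hc hb
    have h := adProd slib th am (em (r + K * 2 ^ j) S (2 ^ j) hS)
      (em (r + K * 2 ^ j) c b (by omega)) hb
      (fun d => if 0 ≤ d then t' d.toNat else 0) (fun d => t (((S - c : ℕ) : ℤ) + d).toNat)
      (em_inj _ _ _ _) (em_inj _ _ _ _) (by
        intro k l h
        have h1 := congrArg Fin.val h
        simp only [em] at h1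
        have := k.2
        have := l.2
        omega) (by rw [Fintype.card_fin]; omega)
    have e : (Matrix.of fun (k l : Fin (2 ^ j)) =>
        (fun d : ℤ => if 0 ≤ d then t' d.toNat else 0) ((k : ℤ) - (l : ℤ))) = LT (2 ^ j) t' := by
      ext k l
      unfold LT
      show (if (0 : ℤ) ≤ (k : ℤ) - (l : ℤ) then t' ((k : ℤ) - (l : ℤ)).toNat else 0) = _
      by_cases hkl : (l : ℕ) ≤ k
      · rw [if_pos (by omega), if_pos hkl]
        congr 1
        omega
      · rw [if_neg (by omega), if_neg hkl]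
    rw [e] at h
    exact h
  have hD : Steps (G (r + K * 2 ^ j) (2 ^ j) r t r 0) D :=
    diag_steps slib r K (2 ^ j) D t hD1 hD2
  have h := attach slib r K (2 ^ j) (4 * (C * (j + 1 + 1))) hpos hr.le t t' (ht' _) hAd D hD
  rw [hq] at h
  refine slib.mono h ?_
  have h1 : K * ((K + 1) * (4 * (C * (j + 1 + 1)))) = (K * (K + 1)) * (4 * (C * (j + 1 + 1))) := by
    ring
  have h2 : K * (K + 1) ≤ 16 * 16 := Nat.mul_le_mul (by omega) (by omega)
  have h3 := Nat.mul_le_mul_right (4 * (C * (j + 1 + 1))) h2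
  rw [h1]
  omega

end LTR

open LTR in
theorem lt : StLT := by
  intro slib fft toep am
  obtain ⟨C, hC⟩ := toep slib fft
  have th : TH C := fun ι _ _ a b j y v c hab h1 h2 h3 => hC ι a b j y v c hab h1 h2 h3
  refine ⟨1024 * C + 64 * (65 * 3), fun q => ?_⟩
  induction q using Nat.strong_induction_on with
  | _ q ih =>
  intro t ht
  set C' := 1024 * C + 64 * (65 * 3) with hC'
  by_cases hq : q < 64
  · refine slib.mono (base slib q t ht) ?_
    have h1 : q * ((q + 1) * 3) ≤ 64 * (65 * 3) := Nat.mul_le_mul (by omega) (by omega)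
    have h2 : C' * 1 ≤ C' * (Nat.log 2 q + 1) ^ 2 := Nat.mul_le_mul_left _ (Nat.one_le_pow _ _ (by omega))
    omega
  · push Not at hq
    -- L = log2 q ≥ 6
    set L := Nat.log 2 q with hL
    have hL6 : 6 ≤ L := by
      rw [hL]
      exact Nat.le_log_of_pow_le (by norm_num) (by norm_num; exact hq)
    have hLq : 2 ^ L ≤ q := Nat.pow_log_le_self 2 (by omega)
    have hLq' : q < 2 ^ (L + 1) := Nat.lt_pow_succ_log_self (by norm_num) q
    obtain ⟨j, hj⟩ : ∃ j, L = j + 3 := ⟨L - 3, by omega⟩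
    have e1 : 2 ^ L = 8 * 2 ^ j := by rw [hj, pow_add]; ring
    have e2 : 2 ^ (L + 1) = 16 * 2 ^ j := by rw [hj, show j + 3 + 1 = j + 4 by ring, pow_add]; ring
    have hpos : 0 < 2 ^ j := by positivity
    have hlt : 2 ^ j < q := by omega
    have hr : q % 2 ^ j < 2 ^ j := Nat.mod_lt _ hpos
    have d1 := ih (q % 2 ^ j) (by omega) t ht
    have d2 := ih (2 ^ j) hlt t ht
    have hl2 : Nat.log 2 (2 ^ j) = j := Nat.log_pow (by norm_num) j
    have hl1 : Nat.log 2 (q % 2 ^ j) ≤ j := by
      have := Nat.log_mono_right (b := 2) hr.le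
      rwa [hl2] at this
    rw [hl2] at d2
    have d1' := slib.mono d1 (n' := C' * (j + 1) ^ 2)
      (Nat.mul_le_mul_left _ (Nat.pow_le_pow_left (by omega) 2))
    have h := step slib th am q j (C' * (j + 1) ^ 2) t ht (by omega) (by omega) d1' d2
    refine slib.mono h ?_
    rw [hj]
    have h3 : 1024 * (C * (j + 1 + 1)) ≤ C' * (j + 1 + 1) := by
      have : 1024 * (C * (j + 1 + 1)) = 1024 * C * (j + 1 + 1) := by ring
      rw [this]
      exact Nat.mul_le_mul_right _ (by omega)
    have h4 : C' * (j + 1) ^ 2 + C' * (j + 1 + 1) ≤ C' * (j + 3 + 1) ^ 2 := by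
      rw [← mul_add]
      apply Nat.mul_le_mul_left
      nlinarith
    omega

end Crest.Agent.R324
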