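import Crest.Agent.R324.CDefs

/-!
# Row 324, task NUM: the numbers
-/

set_option autoImplicit false

noncomputable section

namespace Crest.Agent.R324

open Crest.FourierCircuit

namespace NUMaux

/-- `κ = (10^6)^{1-θ}` -/
def kp : ℝ := (10 ^ 6 : ℝ) ^ (1 - savingExponent)

theorem pow_theta : (10 ^ 6 : ℝ) ^ savingExponent = 10 ^ 6 - 6871402692000000 / 2 ^ 71 := by
  unfold savingExponent
  rw [Real.rpow_logb] <;> norm_num

theorem theta_lt : savingExponent < 1 := by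
  have h := pow_theta
  by_contra hc
  push Not at hc
  have h2 : (10 ^ 6 : ℝ) ^ (1 : ℝ) ≤ (10 ^ 6 : ℝ) ^ savingExponent :=
    Real.rpow_le_rpow_of_exponent_le (by norm_num) hc
  rw [h, Real.rpow_one] at h2
  norm_num at h2

theorem kp_eq : kp = 10 ^ 6 / (10 ^ 6 - 6871402692000000 / 2 ^ 71) := by
  unfold kp
  rw [Real.rpow_sub (by norm_num), pow_theta, Real.rpow_one]

theorem kp_le : kp ≤ 1 + 1 / 10 ^ 10 := by
  rw [kp_eq]
  norm_num

theorem one_le_kp : 1 ≤ kp := by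
  unfold kp
  exact Real.one_le_rpow (by norm_num) (by linarith [theta_lt])

theorem wpow {w : ℝ} (hw : 1 / 10 ^ 12 ≤ w) : w ^ savingExponent ≤ w * kp ^ 2 := by
  have hw0 : 0 < w := lt_of_lt_of_le (by norm_num) hw
  have h1 : w ^ savingExponent = w * (w⁻¹) ^ (1 - savingExponent) := by
    rw [Real.inv_rpow hw0.le, ← Real.rpow_neg hw0.le]
    nth_rewrite 2 [← Real.rpow_one w]
    rw [← Real.rpow_add hw0]
    congr 1
    ring
  have h2 : (w⁻¹) ^ (1 - savingExponent) ≤ ((10 ^ 12 : ℝ)) ^ (1 - savingExponent) := by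
    apply Real.rpow_le_rpow (by positivity) _ (by linarith [theta_lt])
    rw [inv_le_comm₀ hw0 (by norm_num)]
    simpa using hw
  have h3 : ((10 ^ 12 : ℝ)) ^ (1 - savingExponent) = kp ^ 2 := by
    unfold kp
    rw [show (10 ^ 12 : ℝ) = 10 ^ 6 * 10 ^ 6 by norm_num, Real.mul_rpow (by norm_num) (by norm_num)]
    ring
  rw [h1, ← h3]
  exact mul_le_mul_of_nonneg_left h2 hw0.le

theorem bpow {x : ℝ} (hx : 1 ≤ x) (hx2 : x ≤ 10 ^ 6) : x ≤ kp * x ^ savingExponent := by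
  have hx0 : 0 < x := by linarith
  have h1 : x = x ^ (1 - savingExponent) * x ^ savingExponent := by
    rw [← Real.rpow_add hx0]
    simp
  have h2 : x ^ (1 - savingExponent) ≤ kp :=
    Real.rpow_le_rpow hx0.le hx2 (by linarith [theta_lt])
  calc x = x ^ (1 - savingExponent) * x ^ savingExponent := h1
    _ ≤ kp * x ^ savingExponent := mul_le_mul_of_nonneg_right h2 (by positivity)

theorem kp3 : kp ^ 3 ≤ 1 + 1 / 10 ^ 9 := by
  have h1 := kp_le
  have h0 := one_le_kp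
  calc kp ^ 3 ≤ (1 + 1 / 10 ^ 10) ^ 3 := pow_le_pow_left₀ (by linarith) h1 3
    _ ≤ 1 + 1 / 10 ^ 9 := by norm_num

theorem key {a1 a2 w1 w2 c x : ℝ} (h1 : 1 / 10 ^ 12 ≤ w1) (h2 : 1 / 10 ^ 12 ≤ w2) (ha1 : 0 ≤ a1)
    (ha2 : 0 ≤ a2) (hc : 0 < c) (hx : 1 ≤ x) (hx2 : x ≤ 10 ^ 6)
    (h : (a1 * w1 + a2 * w2) * (1 + 1 / 10 ^ 9) < c * x) :
    a1 * w1 ^ savingExponent + a2 * w2 ^ savingExponent < c * x ^ savingExponent := by
  have e1 := wpow h1
  have e2 := wpow h2
  have e3 := bpow hx hx2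
  have hk := one_le_kp
  have hk3 := kp3
  have hw1 : 0 < w1 := lt_of_lt_of_le (by norm_num) h1
  have hw2 : 0 < w2 := lt_of_lt_of_le (by norm_num) h2
  have f1 : a1 * w1 ^ savingExponent + a2 * w2 ^ savingExponent ≤ (a1 * w1 + a2 * w2) * kp ^ 2 := by
    have g1 := mul_le_mul_of_nonneg_left e1 ha1
    have g2 := mul_le_mul_of_nonneg_left e2 ha2
    nlinarith
  have f2 : c * x ≤ kp * (c * x ^ savingExponent) := by
    have := mul_le_mul_of_nonneg_left e3 hc.le
    nlinarith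
  have hn : 0 ≤ a1 * w1 + a2 * w2 := by positivity
  have f3 : (a1 * w1 + a2 * w2) * kp ^ 3 < kp * (c * x ^ savingExponent) :=
    calc (a1 * w1 + a2 * w2) * kp ^ 3 ≤ (a1 * w1 + a2 * w2) * (1 + 1 / 10 ^ 9) :=
          mul_le_mul_of_nonneg_left hk3 hn
      _ < c * x := h
      _ ≤ _ := f2
  have f4 : kp * ((a1 * w1 + a2 * w2) * kp ^ 2) < kp * (c * x ^ savingExponent) := by
    calc kp * ((a1 * w1 + a2 * w2) * kp ^ 2) = (a1 * w1 + a2 * w2) * kp ^ 3 := by ring
      _ < _ := f3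
  exact lt_of_le_of_lt f1 (lt_of_mul_lt_mul_left f4 (by linarith))

end NUMaux

open NUMaux in
theorem num : StNum := by
  refine ⟨fun i => 2 ^ i / (2 ^ i + 1) * (998 / 1000) ^ i, fun i => by positivity, ?_, ?_⟩
  · intro i hi
    have := @key (2 * (2 ^ i / (2 ^ i + 1) * (998 / 1000) ^ i))
      (2 ^ (i + 1) / (2 ^ (i + 1) + 1) * (998 / 1000) ^ (i + 1)) ((2:ℝ) ^ i / (2 ^ i + 1))
      ((2 * (2:ℝ) ^ i + 1) / (2 ^ i + 1) ^ 2) (2 ^ i / (2 ^ i + 1) * (998 / 1000) ^ i) 2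
      (by interval_cases i <;> norm_num) (by interval_cases i <;> norm_num) (by positivity)
      (by positivity) (by positivity) (by norm_num) (by norm_num)
      (by interval_cases i <;> norm_num)
    calc _ = _ := by ring
      _ < _ := this
  · have := @key ((RR : ℝ) * (2 ^ 0 / (2 ^ 0 + 1) * (998 / 1000) ^ 0)) 0 (2 / (257:ℝ) ^ 3) 1
      (2 ^ 8 / (2 ^ 8 + 1) * (998 / 1000) ^ 8) 3
      (by norm_num) (by norm_num) (by unfold RR; positivity) (by norm_num) (by positivity)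
      (by norm_num) (by norm_num) (by unfold RR; norm_num)
    calc _ = _ := by ring
      _ < _ := this

end Crest.Agent.R324
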