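import Crest.Agent.R324.Defs

/-!
# Row 324, task OUT: reduction of the transform of order `n` to transforms of order `N ≥ 2n`
-/

set_option autoImplicit false

noncomputable section

namespace Crest.Agent.R324

open Crest.FourierCircuit
open Matrix Finset

namespace OUT

theorem key (n N : ℕ) (hn : 1 ≤ n) (hN : 2 * n ≤ N) (w : ℂ) (hw : IsPrimitiveRoot w N)
    (t : ℕ → ℂ) (k l : ℕ) (hk : k < n) (hl : l < n) :
    ∑ j : Fin N, w⁻¹ ^ (k * (j : ℕ)) * ((1 / (N : ℂ)) * ∑ r ∈ range n, t r * w ^ ((j : ℕ) * r)) *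
      w ^ ((j : ℕ) * l) = if l ≤ k then t (k - l) else 0 := by
  have hN0 : (N : ℂ) ≠ 0 := by
    rw [Nat.cast_ne_zero]; omega
  have hw0 : w ≠ 0 := hw.ne_zero (by omega)
  have h1 : ∀ j : Fin N, w⁻¹ ^ (k * (j : ℕ)) *
      ((1 / (N : ℂ)) * ∑ r ∈ range n, t r * w ^ ((j : ℕ) * r)) * w ^ ((j : ℕ) * l) =
      ∑ r ∈ range n, (1 / (N : ℂ)) * t r * (w ^ (r + l) * w⁻¹ ^ k) ^ (j : ℕ) := by
    intro j
    rw [mul_sum, mul_sum, sum_mul]
    refine sum_congr rfl fun r _ => ?_
    rw [mul_pow, ← pow_mul, ← pow_mul, add_mul, pow_add, mul_comm (j : ℕ) r, mul_comm (j : ℕ) l]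
    ring
  rw [sum_congr rfl fun j _ => h1 j, sum_comm]
  have h2 : ∀ r ∈ range n, ∑ j : Fin N, (1 / (N : ℂ)) * t r * (w ^ (r + l) * w⁻¹ ^ k) ^ (j : ℕ) =
      if r + l = k then t r else 0 := by
    intro r hr
    rw [mem_range] at hr
    rw [← mul_sum, Fin.sum_univ_eq_sum_range (fun j => (w ^ (r + l) * w⁻¹ ^ k) ^ j) N]
    by_cases h : r + l = k
    · rw [if_pos h, h, ← mul_pow, mul_inv_cancel₀ hw0]
      simp
      field_simp
    · rw [if_neg h]
      have hx : w ^ (r + l) * w⁻¹ ^ k ≠ 1 := by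
        intro hx
        rw [inv_pow, mul_inv_eq_one₀ (pow_ne_zero _ hw0)] at hx
        exact h (hw.pow_inj (by omega) (by omega) hx)
      have hxN : (w ^ (r + l) * w⁻¹ ^ k) ^ N = 1 := by
        rw [mul_pow, ← pow_mul, ← pow_mul, mul_comm _ N, mul_comm k N, pow_mul, pow_mul,
          inv_pow, hw.pow_eq_one]
        simp
      rw [geom_sum_eq hx, hxN]
      simp
  rw [sum_congr rfl h2]
  by_cases h : l ≤ k
  · rw [if_pos h, Finset.sum_eq_single (k - l)]
    · rw [if_pos (by omega)]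
    · intro r _ hr
      rw [if_neg (by omega)]
    · intro h'
      rw [mem_range] at h'
      omega
  · rw [if_neg h]
    refine Finset.sum_eq_zero fun r _ => ?_
    rw [if_neg (by omega)]

/-- embedding -/
def E (n N : ℕ) : Matrix (Fin N) (Fin n) ℂ := fun i j => if (i : ℕ) = j then 1 else 0

theorem E_mc (L : Lib) (n N : ℕ) : MC (E n N) 0 := by
  apply L.sel
  intro k
  by_cases h : (k : ℕ) < n
  · right
    refine ⟨⟨k, h⟩, fun i => ?_⟩
    unfold E
    simp only [Fin.ext_iff, eq_comm]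
  · left
    intro i
    unfold E
    rw [if_neg]
    have := i.2
    omega

theorem Et_mc (L : Lib) (n N : ℕ) (h : n ≤ N) : MC (E n N)ᵀ 0 := by
  apply L.sel
  intro k
  right
  refine ⟨⟨k, by omega⟩, fun i => ?_⟩
  simp only [E, transpose_apply, Fin.ext_iff]

theorem diag_mc (L : Lib) {m : ℕ} (d : Fin m → ℂ) : MC (diagonal d) m := by
  have := L.row (T := diagonal d) (by
    intro k i j hi hj
    have h1 : k = i := by
      by_contra h
      exact hi (diagonal_apply_ne _ h)
    have h2 : k = j := by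
      by_contra h
      exact hj (diagonal_apply_ne _ h)
    rw [← h1, ← h2])
  rwa [Fintype.card_fin] at this

theorem LT_eq (n N : ℕ) (hn : 1 ≤ n) (hN : 2 * n ≤ N) (w : ℂ) (hw : IsPrimitiveRoot w N)
    (t : ℕ → ℂ) : LT n t = (E n N)ᵀ * (VM N w⁻¹ *
      diagonal (fun j : Fin N => (1 / (N : ℂ)) * ∑ r ∈ range n, t r * w ^ ((j : ℕ) * r)) *
        VM N w) * E n N := by
  ext k l
  have hE : ∀ (M : Matrix (Fin N) (Fin N) ℂ), ((E n N)ᵀ * M * E n N) k l =
      M ⟨k, by omega⟩ ⟨l, by omega⟩ := by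
    intro M
    rw [Matrix.mul_apply, Finset.sum_eq_single (⟨l, by omega⟩ : Fin N)]
    · rw [Matrix.mul_apply, Finset.sum_eq_single (⟨k, by omega⟩ : Fin N)]
      · simp [E]
      · intro i _ hi
        have : ¬ ((i : ℕ) = (k : ℕ)) := fun h => hi (Fin.ext h)
        simp [E, this]
      · intro h; exact absurd (mem_univ _) h
    · intro i _ hi
      have : ¬ ((i : ℕ) = (l : ℕ)) := fun h => hi (Fin.ext h)
      simp [E, this]
    · intro h; exact absurd (mem_univ _) h
  rw [hE, Matrix.mul_apply]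
  simp only [mul_diagonal]
  unfold LT VM
  exact (key n N hn hN w hw t k l k.2 l.2).symm

theorem VM_symm (N : ℕ) (w : ℂ) : (VM N w)ᵀ = VM N w := by
  ext i j
  simp only [transpose_apply, VM, mul_comm]

theorem E_tt (n N : ℕ) : (E n N)ᵀᵀ = E n N := transpose_transpose _

end OUT

open OUT in
theorem out : StOut := by
  intro L hQ n N c hn hN hc
  have hζ := Complex.isPrimitiveRoot_exp n (by omega)
  obtain ⟨a, b, t, _, hV⟩ := hQ n (Complex.exp (2 * Real.pi * Complex.I / n)) (by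
    intro i hi0 hi
    exact hζ.pow_ne_one_of_pos_of_lt (by omega) hi)
  have hD : dftMatrix n = VM n (Complex.exp (2 * Real.pi * Complex.I / n)) := by
    ext j k
    rfl
  have hw := Complex.isPrimitiveRoot_exp N (by omega)
  set w := Complex.exp (2 * Real.pi * Complex.I / N) with hwdef
  have h1 := hc w hw
  have h2 := hc w⁻¹ hw.inv
  have hLT := LT_eq n N hn hN w hw t
  have hm1 : MC (LT n t) (0 + (c + N + c) + 0) := by
    rw [hLT]
    exact L.mul (L.mul (Et_mc L n N (by omega)) (L.mul (L.mul h2 (diag_mc L _)) h1)) (E_mc L n N)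
  have hm2 : MC (LT n t)ᵀ (0 + (c + (N + c)) + 0) := by
    rw [hLT]
    rw [transpose_mul, transpose_mul, transpose_mul, transpose_mul, VM_symm, VM_symm,
      diagonal_transpose, transpose_transpose]
    rw [← Matrix.mul_assoc]
    exact L.mul (L.mul (Et_mc L n N (by omega)) (L.mul h1 (L.mul (diag_mc L _) h2))) (E_mc L n N)
  rw [hD, hV]
  refine L.mono (L.mul (L.mul (L.mul (L.mul (diag_mc L a) hm1) (diag_mc L b)) hm2)
    (diag_mc L a)) ?_
  omega

end Crest.Agent.R324
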