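import Crest.Agent.R324.Defs

/-! Row 324, PICK: choice of the length. -/

set_option autoImplicit false

noncomputable section

namespace Crest.Agent.R324

open Finset Nat

namespace PK

/-- greedy choice of primes -/
theorem greedy : ∀ Z N : ℕ, 1 ≤ N → N < 2 * primorial Z →
    ∃ S : Finset ℕ, (∀ q ∈ S, q.Prime ∧ q ≤ Z) ∧ ∏ q ∈ S, q ≤ N ∧ N < 2 * ∏ q ∈ S, q := by
  intro Z
  induction Z with
  | zero =>
    intro N h1 h2
    refine ⟨∅, by simp, ?_, ?_⟩
    · simpa using h1
    · simpa using h2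
  | succ Z ih =>
    intro N h1 h2
    by_cases hq : (Z + 1).Prime
    · have hpr : primorial (Z + 1) = (Z + 1) * primorial Z := by
        unfold primorial
        rw [Finset.range_add_one (n := Z + 1), Finset.filter_insert, if_pos hq,
          Finset.prod_insert (by simp)]
      by_cases hN : Z + 1 ≤ N
      · have hd1 : 1 ≤ N / (Z + 1) := (Nat.one_le_div_iff (by omega)).2 hN
        have hd2 : N / (Z + 1) < 2 * primorial Z := by
          rw [Nat.div_lt_iff_lt_mul (by omega)]
          calc N < 2 * primorial (Z + 1) := h2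
            _ = 2 * primorial Z * (Z + 1) := by rw [hpr]; ring
        obtain ⟨S, hS, hS1, hS2⟩ := ih _ hd1 hd2
        have hnot : Z + 1 ∉ S := fun h => by have := (hS _ h).2; omega
        refine ⟨insert (Z + 1) S, ?_, ?_, ?_⟩
        · intro q hq'
          rcases Finset.mem_insert.1 hq' with rfl | h
          · exact ⟨hq, le_rfl⟩
          · exact ⟨(hS _ h).1, (hS _ h).2.trans (Nat.le_succ _)⟩
        · rw [Finset.prod_insert hnot]
          calc (Z + 1) * ∏ q ∈ S, q ≤ (Z + 1) * (N / (Z + 1)) := Nat.mul_le_mul_left _ hS1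
            _ ≤ N := Nat.mul_div_le _ _
        · rw [Finset.prod_insert hnot]
          have h3 : N < (Z + 1) * (N / (Z + 1) + 1) := Nat.lt_mul_div_succ _ (by omega)
          have h4 : N / (Z + 1) + 1 ≤ 2 * ∏ q ∈ S, q := hS2
          calc N < (Z + 1) * (N / (Z + 1) + 1) := h3
            _ ≤ (Z + 1) * (2 * ∏ q ∈ S, q) := Nat.mul_le_mul_left _ h4
            _ = _ := by ring
      · have hZ : Z ≤ primorial Z := le_primorial_self
        have hZ0 : 1 ≤ primorial Z := primorial_pos Z
        obtain ⟨S, hS, hS1, hS2⟩ := ih N h1 (by omega)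
        exact ⟨S, fun q h => ⟨(hS _ h).1, (hS _ h).2.trans (Nat.le_succ _)⟩, hS1, hS2⟩
    · have hpr : primorial (Z + 1) = primorial Z := by
        unfold primorial
        rw [Finset.range_add_one (n := Z + 1), Finset.filter_insert, if_neg hq]
      obtain ⟨S, hS, hS1, hS2⟩ := ih N h1 (by rw [← hpr]; exact h2)
      exact ⟨S, fun q h => ⟨(hS _ h).1, (hS _ h).2.trans (Nat.le_succ _)⟩, hS1, hS2⟩

theorem theta_big (Z : ℕ) (hZ : 28561 ≤ Z) : 4 * √(Z : ℝ) ≤ Real.log (primorial Z) := by
  have h := Chebyshev.theta_ge Z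
  rw [Chebyshev.theta_eq_log_primorial, Nat.floor_natCast] at h
  set w : ℝ := √√(Z : ℝ) with hw
  have hZ' : (28561 : ℝ) ≤ Z := by exact_mod_cast hZ
  have hw13 : 13 ≤ w := by
    rw [hw]
    apply Real.le_sqrt_of_sq_le
    apply Real.le_sqrt_of_sq_le
    have e : ((13 : ℝ) ^ 2) ^ 2 = 28561 := by norm_num
    rw [e]
    exact hZ'
  have hs : √(Z : ℝ) = w ^ 2 := by
    rw [hw, Real.sq_sqrt (Real.sqrt_nonneg _)]
  have hz : (Z : ℝ) = w ^ 4 := by
    have : (Z : ℝ) = (√(Z : ℝ)) ^ 2 := by rw [Real.sq_sqrt (by positivity)]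
    rw [this, hs]; ring
  have hlogw : Real.log w ≤ w - 1 := Real.log_le_sub_one_of_pos (by linarith)
  have hlog : Real.log Z = 4 * Real.log w := by
    rw [hz, Real.log_pow]; norm_num
  have hlog1 : Real.log (Z + 1) ≤ 1 + 4 * w := by
    have h2 : Real.log (Z + 1) ≤ Real.log (2 * Z) := by
      apply Real.log_le_log (by linarith); linarith
    rw [Real.log_mul (by norm_num) (by linarith), hlog] at h2
    have := Real.log_two_lt_d9
    linarith
  rw [hlog, hs] at h
  rw [hs]
  have hl2 := Real.log_two_gt_d9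
  have h3 : 2 * w ^ 2 * (4 * Real.log w) ≤ 8 * w ^ 3 := by
    have : w ^ 2 * Real.log w ≤ w ^ 2 * w := by
      apply mul_le_mul_of_nonneg_left (by linarith) (by positivity)
    nlinarith
  have h4 : 0.69 * w ^ 4 ≤ Z * Real.log 2 := by
    rw [hz]
    have : 0 ≤ w ^ 4 := by positivity
    nlinarith
  have h5 : 8.97 * w ^ 3 ≤ 0.69 * w ^ 4 := by
    have : 0 ≤ w ^ 3 := by positivity
    nlinarith
  have h6 : 13 * w ^ 2 ≤ w ^ 3 := by
    have : 0 ≤ w ^ 2 := by positivity
    nlinarith
  nlinarith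

end PK

theorem pick : StPick := by
  refine ⟨28562, fun n hn => ?_⟩
  have hn' : (3 : ℝ) ≤ n := by exact_mod_cast hn
  have hlog1 : 1 < Real.log n := by
    rw [Real.lt_log_iff_exp_lt (by linarith)]
    have := Real.exp_one_lt_d9
    linarith
  set Z : ℕ := ⌈28561 * Real.log n ^ 2⌉₊ with hZ
  have hZ1 : 28561 * Real.log n ^ 2 ≤ Z := Nat.le_ceil _
  have hZ2 : (Z : ℝ) < 28561 * Real.log n ^ 2 + 1 := Nat.ceil_lt_add_one (by positivity)
  have hsq : 1 ≤ Real.log n ^ 2 := by nlinarith
  have hZ3 : 28561 ≤ Z := by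
    have : (28561 : ℝ) ≤ Z := by linarith
    exact_mod_cast this
  have hth := PK.theta_big Z hZ3
  have hsqrt : Real.log n ≤ √(Z : ℝ) := by
    apply Real.le_sqrt_of_sq_le
    linarith
  have hprim : 2 * n < primorial Z := by
    have h1 : Real.log (2 * n) < Real.log (primorial Z) := by
      rw [Real.log_mul (by norm_num) (by linarith)]
      have := Real.log_two_lt_d9
      linarith
    have h2 := (Real.log_lt_log_iff (by linarith) (by exact_mod_cast primorial_pos Z)).1 h1
    exact_mod_cast h2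
  obtain ⟨S, hS, hS1, hS2⟩ := PK.greedy Z (4 * n) (by omega) (by omega)
  have hprod : ∏ i, ((S.equivFin.symm i : S) : ℕ) = ∏ q ∈ S, q := by
    rw [Equiv.prod_comp S.equivFin.symm (fun x : S => (x : ℕ))]
    exact Finset.prod_coe_sort S (fun x => x)
  refine ⟨S.card, fun i => ((S.equivFin.symm i : S) : ℕ), ?_, ?_, ?_, ?_, ?_⟩
  · intro i
    exact (hS _ (S.equivFin.symm i).2).1
  · intro i j h
    exact S.equivFin.symm.injective (Subtype.ext h)
  · rw [hprod]; omega
  · rw [hprod]; omega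
  · intro i
    have h := (hS _ (S.equivFin.symm i).2).2
    have h' : (((S.equivFin.symm i : S) : ℕ) : ℝ) ≤ Z := by exact_mod_cast h
    linarith

end Crest.Agent.R324
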