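import Crest.Agent.R324.LOCK

/-!
# Row 324, task PRE: `star^{⊗3} = Post ∘ Top ∘ Pre`
-/

set_option autoImplicit false

noncomputable section

namespace Crest.Agent.R324

open Finset

namespace PreAux

open LockAux

/-- sum over `x` and `none` -/
def lsum {β : Type} (x : Option β) (F : Option β → ℂ) : ℂ :=
  match x with
  | none => F none
  | some s => F (some s) + F none

theorem sum_lsum {β : Type} [Fintype β] [DecidableEq β] (x : Option β) (F : Option β → ℂ) :
    (∑ a : Option β, if a = x ∨ a = none then F a else 0) = lsum x F := by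
  rw [Fintype.sum_option]
  rcases x with _ | s
  · simp [lsum]
  · simp only [lsum, or_true, if_true]
    rw [add_comm]
    congr 1
    rw [Finset.sum_eq_single s]
    · simp
    · intro b _ hb
      rw [if_neg]
      simp [hb]
    · intro h; exact absurd (Finset.mem_univ _) h

/-- functions on `Fin 3` -/
def e3 (X : Type) : (Fin 3 → X) ≃ X × X × X where
  toFun c := (c 0, c 1, c 2)
  invFun p := ![p.1, p.2.1, p.2.2]
  left_inv c := by
    ext i
    fin_cases i <;> rfl
  right_inv p := by
    obtain ⟨a, b, c⟩ := p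
    rfl

theorem starop_eq (B : ℕ) (f : (Fin 3 → Option (Fin B)) → ℂ) (a b c : Option (Fin B)) :
    starop 3 B f ![a, b, c] =
      lsum a fun a' => lsum b fun b' => lsum c fun c' => f ![a', b', c'] := by
  unfold starop
  rw [← (e3 (Option (Fin B))).symm.sum_comp, Fintype.sum_prod_type]
  rw [← sum_lsum]
  refine Finset.sum_congr rfl fun a' _ => ?_
  rw [Fintype.sum_prod_type]
  by_cases ha : a' = a ∨ a' = none
  · rw [if_pos ha, ← sum_lsum]
    refine Finset.sum_congr rfl fun b' _ => ?_
    by_cases hb : b' = b ∨ b' = none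
    · rw [if_pos hb, ← sum_lsum]
      refine Finset.sum_congr rfl fun c' _ => ?_
      by_cases hc : c' = c ∨ c' = none
      · rw [if_pos hc, if_pos]
        · rfl
        · intro j
          fin_cases j
          · exact ha
          · exact hb
          · exact hc
      · rw [if_neg hc, if_neg]
        intro h
        exact hc (h 2)
    · rw [if_neg hb]
      refine Finset.sum_eq_zero fun c' _ => ?_
      rw [if_neg]
      intro h
      exact hb (h 1)
  · rw [if_neg ha]
    refine Finset.sum_eq_zero fun b' _ => Finset.sum_eq_zero fun c' _ => ?_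
    rw [if_neg]
    intro h
    exact ha (h 0)

/-- relabelling of programs -/
theorem runl_relabel {C D : Type} [DecidableEq C] [DecidableEq D] (φ : C → D)
    (hφ : Function.Injective φ) (l : Pg C) (f : D → ℂ) :
    (fun x => runl (l.map fun p => (φ p.1, φ p.2.1, p.2.2)) f (φ x)) = runl l (fun x => f (φ x)) := by
  induction l generalizing f with
  | nil => rfl
  | cons p l ih =>
    rw [List.map_cons, runl_cons, runl_cons, ih]
    congr 1
    funext x
    unfold tvop
    by_cases hx : x = p.1
    · subst hx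
      simp only [Function.update_self]
    · rw [Function.update_of_ne hx]
      simp only [Function.update_of_ne (fun h => hx (hφ h))]

section

variable {S T U : Type} [DecidableEq S] [DecidableEq T] [DecidableEq U]

/-- registers -/
abbrev G3 (S T U : Type) := Option S × Option T × Option U

def op1 (f : G3 S T U → ℂ) : G3 S T U → ℂ
  | (some s, some t, none) => f (some s, some t, none) + f (some s, none, none)
  | x => f x
def op2 (f : G3 S T U → ℂ) : G3 S T U → ℂ
  | (none, some t, some u) => f (none, some t, some u) + f (none, some t, none)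
  | x => f x
def op3 (f : G3 S T U → ℂ) : G3 S T U → ℂ
  | (none, none, some u) => f (none, none, some u) + f (none, none, none)
  | x => f x
def op4 (f : G3 S T U → ℂ) : G3 S T U → ℂ
  | (some s, none, some u) => f (some s, none, some u) + f (none, none, some u)
  | x => f x
def op5 (f : G3 S T U → ℂ) : G3 S T U → ℂ
  | (some s, none, some u) => f (some s, none, some u) + f (some s, none, none)
  | x => f x
def op6 (f : G3 S T U → ℂ) : G3 S T U → ℂ
  | (none, some t, some u) => f (none, some t, some u) + f (none, none, some u)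
  | x => f x
def op7 (f : G3 S T U → ℂ) : G3 S T U → ℂ
  | (none, some t, none) => f (none, some t, none) + f (none, none, none)
  | x => f x
def op8 (f : G3 S T U → ℂ) : G3 S T U → ℂ
  | (some s, some t, none) => f (some s, some t, none) + f (none, some t, none)
  | x => f x
def op9 (f : G3 S T U → ℂ) : G3 S T U → ℂ
  | (some s, none, none) => f (some s, none, none) + f (none, none, none)
  | x => f x

omit [DecidableEq S] [DecidableEq T] [DecidableEq U] in
theorem total (f : G3 S T U → ℂ) (a : Option S) (b : Option T) (c : Option U) :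
    op9 (op8 (op7 (op6 (op5 (topG (op4 (op3 (op2 (op1 f))))))))) (a, b, c) =
      lsum a fun a' => lsum b fun b' => lsum c fun c' => f (a', b', c') := by
  rcases a with _ | s <;> rcases b with _ | t <;> rcases c with _ | u <;>
    simp only [op1, op2, op3, op4, op5, op6, op7, op8, op9, topG, lsum] <;> ring

/-- a layer as a function -/
theorem layer_fun {C K : Type} [DecidableEq C] (l : List K) (t s : K → C)
    (hnd : l.Nodup) (hinj : Function.Injective t) (hts : ∀ a b, t a ≠ s b)
    (op : (C → ℂ) → (C → ℂ)) (hop : ∀ f k, op f (t k) = f (t k) + f (s k))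
    (hl : ∀ k, k ∈ l) (hop2 : ∀ f x, (∀ k, x ≠ t k) → op f x = f x) (f : C → ℂ) :
    runl (l.map fun k => (t k, s k, (1 : ℤ))) f = op f := by
  funext x
  by_cases hx : ∃ k, x = t k
  · obtain ⟨k, rfl⟩ := hx
    rw [runl_layer l t s (fun _ => 1) (List.Nodup.pairwise_of_forall_ne hnd
      (fun a _ b _ hab h => hab (hinj h))) (fun a _ b _ => hts a b) f k (hl k), hop]
    simp
  · push Not at hx
    rw [runl_layer_ne l t s (fun _ => 1) f x (fun k _ => hx k), hop2 f x hx]

end

end PreAux

open PreAux LockAux in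
theorem pre : StPre := by
  intro B N S T U _ _ _ eS eT eU Q hQ1 hQ2 hQN
  -- complete lists
  have mk : ∀ {V : Type} (e : V ≃ Fin B), ∃ l : List V, l.Nodup ∧ (∀ v, v ∈ l) ∧ l.length = B := by
    intro V e
    refine ⟨(List.finRange B).map e.symm, ?_, ?_, by simp⟩
    · exact (List.nodup_finRange B).map e.symm.injective
    · intro v
      rw [List.mem_map]
      exact ⟨e v, List.mem_finRange _, by simp⟩
  obtain ⟨lS, nS, mS, cS⟩ := mk eS
  obtain ⟨lT, nT, mT, cT⟩ := mk eT
  obtain ⟨lU, nU, mU, cU⟩ := mk eU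
  have nST := nS.product nT
  have nTU := nT.product nU
  have nSU := nS.product nU
  have mST : ∀ k : S × T, k ∈ lS ×ˢ lT := fun k => List.mem_product.2 ⟨mS _, mT _⟩
  have mTU : ∀ k : T × U, k ∈ lT ×ˢ lU := fun k => List.mem_product.2 ⟨mT _, mU _⟩
  have mSU : ∀ k : S × U, k ∈ lS ×ˢ lU := fun k => List.mem_product.2 ⟨mS _, mU _⟩
  -- layers
  let L1 : Pg (G3 S T U) := (lS ×ˢ lT).map fun k =>
    ((some k.1, some k.2, none), (some k.1, none, none), (1 : ℤ))
  let L2 : Pg (G3 S T U) := (lT ×ˢ lU).map fun k =>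
    ((none, some k.1, some k.2), (none, some k.1, none), (1 : ℤ))
  let L3 : Pg (G3 S T U) := lU.map fun k =>
    ((none, none, some k), (none, none, none), (1 : ℤ))
  let L4 : Pg (G3 S T U) := (lS ×ˢ lU).map fun k =>
    ((some k.1, none, some k.2), (none, none, some k.2), (1 : ℤ))
  let L5 : Pg (G3 S T U) := (lS ×ˢ lU).map fun k =>
    ((some k.1, none, some k.2), (some k.1, none, none), (1 : ℤ))
  let L6 : Pg (G3 S T U) := (lT ×ˢ lU).map fun k =>
    ((none, some k.1, some k.2), (none, none, some k.2), (1 : ℤ))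
  let L7 : Pg (G3 S T U) := lT.map fun k =>
    ((none, some k, none), (none, none, none), (1 : ℤ))
  let L8 : Pg (G3 S T U) := (lS ×ˢ lT).map fun k =>
    ((some k.1, some k.2, none), (none, some k.2, none), (1 : ℤ))
  let L9 : Pg (G3 S T U) := lS.map fun k =>
    ((some k, none, none), (none, none, none), (1 : ℤ))
  have h1 : ∀ f, runl L1 f = op1 f := by
    refine layer_fun _ _ _ nST ?_ ?_ op1 ?_ mST ?_
    · rintro ⟨a, b⟩ ⟨a', b'⟩ h; simp_all
    · rintro ⟨a, b⟩ ⟨a', b'⟩ h; simp_all
    · rintro f ⟨a, b⟩; rfl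
    · rintro f ⟨a, b, c⟩ hx
      rcases a with _ | s <;> rcases b with _ | t <;> rcases c with _ | u <;> first
        | rfl
        | exact absurd rfl (hx (s, t))
  have h2 : ∀ f, runl L2 f = op2 f := by
    refine layer_fun _ _ _ nTU ?_ ?_ op2 ?_ mTU ?_
    · rintro ⟨a, b⟩ ⟨a', b'⟩ h; simp_all
    · rintro ⟨a, b⟩ ⟨a', b'⟩ h; simp_all
    · rintro f ⟨a, b⟩; rfl
    · rintro f ⟨a, b, c⟩ hx
      rcases a with _ | s <;> rcases b with _ | t <;> rcases c with _ | u <;> first
        | rfl
        | exact absurd rfl (hx (t, u))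
  have h3 : ∀ f, runl L3 f = op3 f := by
    refine layer_fun _ _ _ nU ?_ ?_ op3 ?_ mU ?_
    · intro a a' h; simp_all
    · intro a a' h; simp_all
    · intro f a; rfl
    · rintro f ⟨a, b, c⟩ hx
      rcases a with _ | s <;> rcases b with _ | t <;> rcases c with _ | u <;> first
        | rfl
        | exact absurd rfl (hx u)
  have h4 : ∀ f, runl L4 f = op4 f := by
    refine layer_fun _ _ _ nSU ?_ ?_ op4 ?_ mSU ?_
    · rintro ⟨a, b⟩ ⟨a', b'⟩ h; simp_all
    · rintro ⟨a, b⟩ ⟨a', b'⟩ h; simp_all
    · rintro f ⟨a, b⟩; rfl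
    · rintro f ⟨a, b, c⟩ hx
      rcases a with _ | s <;> rcases b with _ | t <;> rcases c with _ | u <;> first
        | rfl
        | exact absurd rfl (hx (s, u))
  have h5 : ∀ f, runl L5 f = op5 f := by
    refine layer_fun _ _ _ nSU ?_ ?_ op5 ?_ mSU ?_
    · rintro ⟨a, b⟩ ⟨a', b'⟩ h; simp_all
    · rintro ⟨a, b⟩ ⟨a', b'⟩ h; simp_all
    · rintro f ⟨a, b⟩; rfl
    · rintro f ⟨a, b, c⟩ hx
      rcases a with _ | s <;> rcases b with _ | t <;> rcases c with _ | u <;> first
        | rfl
        | exact absurd rfl (hx (s, u))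
  have h6 : ∀ f, runl L6 f = op6 f := by
    refine layer_fun _ _ _ nTU ?_ ?_ op6 ?_ mTU ?_
    · rintro ⟨a, b⟩ ⟨a', b'⟩ h; simp_all
    · rintro ⟨a, b⟩ ⟨a', b'⟩ h; simp_all
    · rintro f ⟨a, b⟩; rfl
    · rintro f ⟨a, b, c⟩ hx
      rcases a with _ | s <;> rcases b with _ | t <;> rcases c with _ | u <;> first
        | rfl
        | exact absurd rfl (hx (t, u))
  have h7 : ∀ f, runl L7 f = op7 f := by
    refine layer_fun _ _ _ nT ?_ ?_ op7 ?_ mT ?_
    · intro a a' h; simp_all
    · intro a a' h; simp_all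
    · intro f a; rfl
    · rintro f ⟨a, b, c⟩ hx
      rcases a with _ | s <;> rcases b with _ | t <;> rcases c with _ | u <;> first
        | rfl
        | exact absurd rfl (hx t)
  have h8 : ∀ f, runl L8 f = op8 f := by
    refine layer_fun _ _ _ nST ?_ ?_ op8 ?_ mST ?_
    · rintro ⟨a, b⟩ ⟨a', b'⟩ h; simp_all
    · rintro ⟨a, b⟩ ⟨a', b'⟩ h; simp_all
    · rintro f ⟨a, b⟩; rfl
    · rintro f ⟨a, b, c⟩ hx
      rcases a with _ | s <;> rcases b with _ | t <;> rcases c with _ | u <;> first
        | rfl
        | exact absurd rfl (hx (s, t))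
  have h9 : ∀ f, runl L9 f = op9 f := by
    refine layer_fun _ _ _ nS ?_ ?_ op9 ?_ mS ?_
    · intro a a' h; simp_all
    · intro a a' h; simp_all
    · intro f a; rfl
    · rintro f ⟨a, b, c⟩ hx
      rcases a with _ | s <;> rcases b with _ | t <;> rcases c with _ | u <;> first
        | rfl
        | exact absurd rfl (hx s)
  -- the program
  let R : Pg (G3 S T U) := L1 ++ (L2 ++ (L3 ++ (L4 ++ (Q ++ (L5 ++ (L6 ++ (L7 ++ (L8 ++ L9))))))))
  have hR : ∀ f, runl R f = op9 (op8 (op7 (op6 (op5 (topG (op4 (op3 (op2 (op1 f))))))))) := by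
    intro f
    simp only [R, runl_append, h1, h2, h3, h4, h5, h6, h7, h8, h9, hQ2]
  have hRlen : R.length ≤ N + 6 * B ^ 2 + 3 * B := by
    simp only [R, L1, L2, L3, L4, L5, L6, L7, L8, L9, List.length_append, List.length_map,
      List.length_product, cS, cT, cU]
    nlinarith
  have hRne : ∀ p ∈ R, p.1 ≠ p.2.1 ∧ p.2.2 ≠ 0 := by
    intro p hp
    simp only [R, List.mem_append] at hp
    rcases hp with hp | hp | hp | hp | hp | hp | hp | hp | hp | hp
    · obtain ⟨k, -, rfl⟩ := List.mem_map.1 hp; simp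
    · obtain ⟨k, -, rfl⟩ := List.mem_map.1 hp; simp
    · obtain ⟨k, -, rfl⟩ := List.mem_map.1 hp; simp
    · obtain ⟨k, -, rfl⟩ := List.mem_map.1 hp; simp
    · exact hQ1 p hp
    · obtain ⟨k, -, rfl⟩ := List.mem_map.1 hp; simp
    · obtain ⟨k, -, rfl⟩ := List.mem_map.1 hp; simp
    · obtain ⟨k, -, rfl⟩ := List.mem_map.1 hp; simp
    · obtain ⟨k, -, rfl⟩ := List.mem_map.1 hp; simp
    · obtain ⟨k, -, rfl⟩ := List.mem_map.1 hp; simp
  -- relabel
  let φ : G3 S T U → (Fin 3 → Option (Fin B)) := fun x =>
    ![x.1.map eS, x.2.1.map eT, x.2.2.map eU]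
  have hφ : Function.Injective φ := by
    rintro ⟨a, b, c⟩ ⟨a', b', c'⟩ h
    have e0 := congrFun h 0
    have e1 := congrFun h 1
    have e2 := congrFun h 2
    simp only [φ, Matrix.cons_val_zero, Matrix.cons_val_one, Matrix.cons_val_two,
      Matrix.tail_cons, Matrix.head_cons] at e0 e1 e2
    have f0 := Option.map_injective eS.injective e0
    have f1 := Option.map_injective eT.injective e1
    have f2 := Option.map_injective eU.injective e2
    subst f0 f1 f2
    rfl
  have hφs : Function.Surjective φ := by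
    intro c
    refine ⟨((c 0).map eS.symm, (c 1).map eT.symm, (c 2).map eU.symm), ?_⟩
    have key : ∀ {V : Type} (e : V ≃ Fin B) (x : Option (Fin B)), (x.map e.symm).map e = x := by
      intro V e x; cases x <;> simp
    ext j : 1
    fin_cases j
    · exact key eS (c 0)
    · exact key eT (c 1)
    · exact key eU (c 2)
  refine ⟨R.map fun p => (φ p.1, φ p.2.1, p.2.2), by simpa using hRlen, ?_, ?_⟩
  · intro p hp
    obtain ⟨q, hq, rfl⟩ := List.mem_map.1 hp
    exact ⟨fun h => (hRne q hq).1 (hφ h), (hRne q hq).2⟩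
  · intro f
    funext y
    obtain ⟨x, rfl⟩ := hφs y
    have h := congrFun (runl_relabel φ hφ R f) x
    rw [hR] at h
    refine h.trans ?_
    obtain ⟨a, b, c⟩ := x
    rw [total]
    show _ = starop 3 B f ![a.map eS, b.map eT, c.map eU]
    rw [starop_eq]
    have hl : ∀ {V : Type} (e : V ≃ Fin B) (x : Option V) (F : Option (Fin B) → ℂ),
        lsum (x.map e) F = lsum x fun v => F (v.map e) := by
      intro V e x F; cases x <;> rfl
    rw [hl]
    simp only [hl]
    rfl

end Crest.Agent.R324
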