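import Crest.Agent.R324.Defs

/-!
# Row 324, task QB: q-binomial factorisation of the Vandermonde matrix
-/

set_option autoImplicit false

noncomputable section

namespace Crest.Agent.R324

open Matrix Finset

namespace QB

/-- Gauss binomials -/
def G (w : ℂ) : ℕ → ℕ → ℂ
  | 0, 0 => 1
  | 0, _ + 1 => 0
  | j + 1, 0 => G w j 0
  | j + 1, i + 1 => G w j i + w ^ (i + 1) * G w j (i + 1)

def P (w : ℂ) (j : ℕ) : ℂ := ∏ l ∈ range j, (w ^ (l + 1) - 1)

theorem P_succ (w : ℂ) (j : ℕ) : P w (j + 1) = P w j * (w ^ (j + 1) - 1) := by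
  unfold P
  rw [prod_range_succ]

theorem P_zero (w : ℂ) : P w 0 = 1 := by simp [P]

theorem G_gt (w : ℂ) : ∀ (j i : ℕ), j < i → G w j i = 0
  | 0, i + 1, _ => rfl
  | j + 1, i + 1, h => by
    have h1 : G w j i = 0 := G_gt w j i (by omega)
    have h2 : G w j (i + 1) = 0 := G_gt w j (i + 1) (by omega)
    simp [G, h1, h2]

theorem G_P (w : ℂ) : ∀ (j i : ℕ), i ≤ j → G w j i * P w i * P w (j - i) = P w j
  | 0, 0, _ => by simp [G, P]
  | j + 1, 0, _ => by
    have h := G_P w j 0 (by omega)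
    have h1 : P w (j + 1 - 0) = P w j * (w ^ (j + 1) - 1) := by
      rw [Nat.sub_zero]; exact P_succ w j
    rw [h1, P_succ]
    simp only [Nat.sub_zero] at h
    have : G w (j + 1) 0 = G w j 0 := rfl
    rw [this]
    rw [P_zero] at h ⊢
    linear_combination (w ^ (j + 1) - 1) * h
  | j + 1, i + 1, hij => by
    have h := G_P w j i (by omega)
    have e1 : j + 1 - (i + 1) = j - i := by omega
    have e2 : G w (j + 1) (i + 1) = G w j i + w ^ (i + 1) * G w j (i + 1) := rfl
    rw [e1, e2, P_succ w i, P_succ w j]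
    rcases Nat.lt_or_ge i j with hlt | hge
    · have h' := G_P w j (i + 1) (by omega)
      have e3 : j - i = (j - (i + 1)) + 1 := by omega
      have e4 : P w (j - i) = P w (j - (i + 1)) * (w ^ (j - i) - 1) := by
        conv_lhs => rw [e3]
        rw [P_succ, ← e3]
      have e5 : w ^ (j + 1) = w ^ (i + 1) * w ^ (j - i) := by
        rw [← pow_add]; congr 1; omega
      rw [P_succ w i] at h'
      rw [e5]
      calc (G w j i + w ^ (i + 1) * G w j (i + 1)) * (P w i * (w ^ (i + 1) - 1)) * P w (j - i)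
          = (G w j i * P w i * P w (j - i)) * (w ^ (i + 1) - 1) +
            w ^ (i + 1) * (G w j (i + 1) * (P w i * (w ^ (i + 1) - 1)) * P w (j - i)) := by ring
        _ = P w j * (w ^ (i + 1) - 1) + w ^ (i + 1) *
            ((G w j (i + 1) * (P w i * (w ^ (i + 1) - 1)) * P w (j - (i + 1))) *
              (w ^ (j - i) - 1)) := by rw [h, e4]; ring
        _ = P w j * (w ^ (i + 1) * w ^ (j - i) - 1) := by rw [h']; ring
    · have hij' : i = j := by omega
      subst hij'
      rw [G_gt w i (i + 1) (by omega)]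
      linear_combination (w ^ (i + 1) - 1) * h

theorem pow_eq (w x : ℂ) : ∀ j : ℕ,
    x ^ j = ∑ i ∈ range (j + 1), G w j i * ∏ l ∈ range i, (x - w ^ l)
  | 0 => by simp [G]
  | j + 1 => by
    have ih := pow_eq w x j
    have hD : ∀ i : ℕ, x * (∏ l ∈ range i, (x - w ^ l)) =
        (∏ l ∈ range (i + 1), (x - w ^ l)) + w ^ i * ∏ l ∈ range i, (x - w ^ l) := by
      intro i
      rw [prod_range_succ]; ring
    have h1 : x ^ (j + 1) = ∑ i ∈ range (j + 1), (G w j i * ∏ l ∈ range (i + 1), (x - w ^ l)) +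
        ∑ i ∈ range (j + 1), w ^ i * G w j i * ∏ l ∈ range i, (x - w ^ l) := by
      rw [pow_succ', ih, mul_sum, ← sum_add_distrib]
      refine sum_congr rfl fun i _ => ?_
      rw [show x * (G w j i * ∏ l ∈ range i, (x - w ^ l)) =
        G w j i * (x * ∏ l ∈ range i, (x - w ^ l)) by ring, hD]
      ring
    have h2 : ∑ i ∈ range (j + 1), w ^ i * G w j i * ∏ l ∈ range i, (x - w ^ l) =
        ∑ i ∈ range (j + 2), w ^ i * G w j i * ∏ l ∈ range i, (x - w ^ l) := by
      rw [sum_range_succ _ (j + 1), G_gt w j (j + 1) (by omega)]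
      simp
    rw [h1, h2, sum_range_succ' _ (j + 1), sum_range_succ' _ (j + 1)]
    have h3 : ∀ i, G w (j + 1) (i + 1) = G w j i + w ^ (i + 1) * G w j (i + 1) := fun i => rfl
    have h4 : G w (j + 1) 0 = G w j 0 := rfl
    simp only [h3, h4]
    rw [← add_assoc, ← sum_add_distrib]
    congr 1
    · refine sum_congr rfl fun i _ => ?_
      ring
    · simp

theorem prod_le (w : ℂ) (k : ℕ) : ∀ i : ℕ, i ≤ k →
    (∏ l ∈ range i, (w ^ k - w ^ l)) * P w (k - i) = (∏ l ∈ range i, w ^ l) * P w k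
  | 0, _ => by simp
  | i + 1, h => by
    have ih := prod_le w k i (by omega)
    have e3 : k - i = (k - (i + 1)) + 1 := by omega
    have e4 : P w (k - i) = P w (k - (i + 1)) * (w ^ (k - i) - 1) := by
      conv_lhs => rw [e3]
      rw [P_succ, ← e3]
    have e5 : w ^ k = w ^ i * w ^ (k - i) := by
      rw [← pow_add]; congr 1; omega
    rw [prod_range_succ, prod_range_succ]
    rw [e4] at ih
    have e6 : w ^ k - w ^ i = w ^ i * (w ^ (k - i) - 1) := by
      rw [e5]; ring
    rw [e6]
    linear_combination w ^ i * ih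

theorem prod_gt (w : ℂ) (k i : ℕ) (h : k < i) : ∏ l ∈ range i, (w ^ k - w ^ l) = 0 :=
  prod_eq_zero (mem_range.2 h) (sub_self _)

end QB

open QB in
theorem qb : StQB := by
  intro q w hw
  have hP : ∀ j, j < q → P w j ≠ 0 := by
    intro j hj
    unfold P
    rw [prod_ne_zero_iff]
    intro l hl
    rw [mem_range] at hl
    exact sub_ne_zero.2 (hw (l + 1) (by omega) (by omega))
  refine ⟨fun j => P w j, fun i => (∏ l ∈ range (i : ℕ), w ^ l) / P w i, fun d => 1 / P w d, ?_, ?_⟩
  · simp [P_zero]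
  ext j k
  rw [mul_diagonal, Matrix.mul_apply]
  simp only [mul_diagonal, diagonal_mul, transpose_apply]
  unfold VM LT
  rw [show w ^ ((j : ℕ) * (k : ℕ)) = (w ^ (k : ℕ)) ^ (j : ℕ) by rw [← pow_mul, mul_comm]]
  rw [pow_eq w (w ^ (k : ℕ)) j]
  rw [Fin.sum_univ_eq_sum_range (fun i => (P w j * if i ≤ (j : ℕ) then 1 / P w (j - i) else 0) *
    ((∏ l ∈ range i, w ^ l) / P w i) * (if i ≤ (k : ℕ) then 1 / P w (k - i) else 0)) q]
  rw [← sum_subset (range_subset_range.2 j.2 : range ((j : ℕ) + 1) ⊆ range q), sum_mul]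
  · refine sum_congr rfl fun i hi => ?_
    rw [mem_range] at hi
    have hij : i ≤ (j : ℕ) := by omega
    rw [if_pos hij]
    have hPi := hP i (by omega)
    have hPji := hP (j - i) (by omega)
    have hG := G_P w j i hij
    by_cases hik : i ≤ (k : ℕ)
    · rw [if_pos hik]
      have hPki := hP (k - i) (by omega)
      have hB := prod_le w k i hik
      rw [← hG]
      have : (∏ l ∈ range i, (w ^ (k : ℕ) - w ^ l)) = (∏ l ∈ range i, w ^ l) * P w k / P w (k - i) := by
        rw [eq_div_iff hPki]; exact hB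
      rw [this]
      field_simp
    · rw [if_neg hik, prod_gt w k i (by omega)]
      simp
  · intro i _ hi
    rw [mem_range] at hi
    rw [if_neg (by omega)]
    simp

end Crest.Agent.R324
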