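import Crest.Agent.R324.Defs

set_option autoImplicit false

namespace Crest.Agent.R324

open Finset Matrix

namespace REC

theorem zp0 (lib : Lib) : MC (ZP (Fin 0)) 0 := by
  apply lib.sel
  intro k
  right
  refine ⟨k, fun i => ?_⟩
  have : i = k := Subsingleton.elim _ _
  simp [ZP, this]

/-- block part -/
def BB (j : ℕ) : Matrix (Fin (j+1) → Bool) (Fin (j+1) → Bool) ℂ := fun x y =>
  if x 0 = y 0 then ZP (Fin j) (fun s => x s.succ) (fun s => y s.succ) else 0

/-- additions -/
def EE (j : ℕ) : Matrix (Fin (j+1) → Bool) (Fin (j+1) → Bool) ℂ := fun x y =>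
  if x 0 = true ∧ y = Fin.cons false (fun s => x s.succ) then 1 else 0

/-- subtype with fixed head is the tail -/
def headEquiv (j : ℕ) (b : Bool) : {y : Fin (j+1) → Bool // y 0 = b} ≃ (Fin j → Bool) where
  toFun y := fun s => y.1 s.succ
  invFun t := ⟨Fin.cons b t, by simp⟩
  left_inv := by
    rintro ⟨y, hy⟩
    ext s
    refine Fin.cases ?_ (fun s => ?_) s
    · simp [hy]
    · simp
  right_inv := by
    intro t
    ext s
    simp

theorem zp_succ (lib : Lib) (j c : ℕ) (h : MC (ZP (Fin j)) c) :
    MC (ZP (Fin (j+1))) (2 * c + 2 ^ (j+1)) := by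
  have hB : MC (BB j) (2 * c) := by
    have := lib.block (T := BB j) (fun x => x 0) (fun y => y 0) (fun _ => c)
      (by
        intro k i hki
        simp [BB, hki])
      (by
        intro b
        have h2 := lib.sub (κ' := {k : Fin (j+1) → Bool // k 0 = b}) (fun x => fun s => x.1 s.succ)
          (headEquiv j b) h
        convert h2 using 1
        ext x y
        simp [BB, headEquiv, x.2, y.2])
    simpa [two_mul] using this
  have h1 : MC (1 : Matrix (Fin (j+1) → Bool) (Fin (j+1) → Bool) ℂ) 0 := by
    apply lib.sel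
    intro k
    right
    exact ⟨k, fun i => by simp [Matrix.one_apply, eq_comm]⟩
  have hE : MC (EE j) 0 := by
    apply lib.sel
    intro k
    by_cases hk : k 0 = true
    · right
      exact ⟨Fin.cons false (fun s => k s.succ), fun i => by simp [EE, hk]⟩
    · left
      intro i
      simp [EE, hk]
  have hA := lib.add h1 hE
  have hm := lib.mul hA hB
  have hcard : Fintype.card (Fin (j+1) → Bool) = 2 ^ (j+1) := by simp
  rw [hcard] at hm
  have heq : (1 + EE j) * BB j = ZP (Fin (j+1)) := by
    rw [Matrix.add_mul, Matrix.one_mul]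
    ext x y
    rw [Matrix.add_apply, Matrix.mul_apply]
    have : ∀ z, EE j x z * BB j z y = if z = Fin.cons false (fun s => x s.succ) then
        (if x 0 = true then BB j z y else 0) else 0 := by
      intro z
      by_cases h1 : x 0 = true <;> by_cases h2 : z = Fin.cons false (fun s => x s.succ) <;>
        simp [EE, h1, h2]
    rw [Finset.sum_congr rfl (fun z _ => this z), Finset.sum_ite_eq' Finset.univ]
    simp only [Finset.mem_univ, if_true]
    have hall : (∀ s : Fin (j+1), y s = true → x s = true) ↔
        ((y 0 = true → x 0 = true) ∧ ∀ s : Fin j, y s.succ = true → x s.succ = true) := by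
      constructor
      · intro h
        exact ⟨h 0, fun s => h s.succ⟩
      · rintro ⟨h0, hs⟩ s
        refine Fin.cases h0 hs s
    unfold BB ZP
    simp only [Fin.cons_zero, Fin.cons_succ]
    simp only [hall]
    cases hx : x 0 <;> cases hy : y 0 <;> simp
  rw [heq] at hm
  refine lib.mono hm ?_
  omega

theorem exists_cost (lib : Lib) (j : ℕ) : ∃ c, MC (ZP (Fin j)) c := by
  induction j with
  | zero => exact ⟨0, zp0 lib⟩
  | succ j ih =>
    obtain ⟨c, hc⟩ := ih
    exact ⟨_, zp_succ lib j c hc⟩

open Classical in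
/-- optimal cost -/
noncomputable def z (lib : Lib) (j : ℕ) : ℕ := Nat.find (exists_cost lib j)

open Classical in
theorem z_spec (lib : Lib) (j : ℕ) : MC (ZP (Fin j)) (z lib j) := Nat.find_spec (exists_cost lib j)

open Classical in
theorem z_le (lib : Lib) (j c : ℕ) (h : MC (ZP (Fin j)) c) : z lib j ≤ c :=
  Nat.find_min' (exists_cost lib j) h

theorem z_zero (lib : Lib) : z lib 0 = 0 := Nat.le_zero.1 (z_le lib 0 0 (zp0 lib))

theorem z_succ (lib : Lib) (j : ℕ) : z lib (j+1) ≤ 2 * z lib j + 2 ^ (j+1) :=
  z_le lib _ _ (zp_succ lib j _ (z_spec lib j))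

/-- normalised cost -/
noncomputable def t (lib : Lib) (j : ℕ) : ℝ := (z lib j : ℝ) / 2 ^ j

theorem t_zero (lib : Lib) : t lib 0 = 0 := by simp [t, z_zero]

theorem t_succ (lib : Lib) (j : ℕ) : t lib (j+1) ≤ t lib j + 1 := by
  have h : (z lib (j+1) : ℝ) ≤ 2 * z lib j + 2 ^ (j+1) := by exact_mod_cast z_succ lib j
  unfold t
  rw [div_le_iff₀ (by positivity)]
  have : (z lib j : ℝ) / 2 ^ j * 2 ^ (j+1) = 2 * z lib j := by
    rw [pow_succ]
    field_simp
  rw [add_mul, this, one_mul]
  exact h

theorem t_add (lib : Lib) (j r : ℕ) : t lib (j + r) ≤ t lib j + r := by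
  induction r with
  | zero => simp
  | succ r ih =>
    have := t_succ lib (j + r)
    push_cast
    rw [← add_assoc]
    linarith

theorem t_nonneg (lib : Lib) (j : ℕ) : 0 ≤ t lib j := by unfold t; positivity

/-! ### product of steps -/

theorem tens_list (tm : StTensMul) (k : ℕ) {ι : Type} [Fintype ι] [DecidableEq ι]
    (l : List (Step ι)) :
    tens (fun _ : Fin k => (l.map Step.mat).prod) =
      (l.map fun s => tens (fun _ : Fin k => s.mat)).prod := by
  induction l with
  | nil => simpa using tm.2 (Fin k) (fun _ => ι)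
  | cons s l ih =>
    simp only [List.map_cons, List.prod_cons]
    rw [← ih]
    exact tm.1 (Fin k) (fun _ => ι) (fun _ => s.mat) (fun _ => (l.map Step.mat).prod)

theorem mc_one (lib : Lib) {ι : Type} [Fintype ι] [DecidableEq ι] :
    MC (1 : Matrix ι ι ℂ) 0 := by
  apply lib.sel
  intro k
  right
  exact ⟨k, fun i => by simp [Matrix.one_apply, eq_comm]⟩

theorem mc_list (lib : Lib) {ι β : Type} [Fintype ι] [DecidableEq ι] (M : β → Matrix ι ι ℂ)
    (c : β → ℕ) (h : ∀ s, MC (M s) (c s)) (l : List β) :
    MC (l.map M).prod (l.map c).sum := by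
  induction l with
  | nil => simpa using mc_one lib
  | cons s l ih =>
    simp only [List.map_cons, List.prod_cons, List.sum_cons]
    exact lib.mul (h s) ih

/-- number of targets is at most half -/
theorem two_q_le {ι : Type} [Fintype ι] (s : Step ι) : 2 * s.q ≤ Fintype.card ι := by
  classical
  have h1 : s.q ≤ (univ.filter fun i => ¬ s.T i = true).card := by
    unfold Step.q
    apply Finset.card_le_card_of_injOn s.σ
    · intro i hi
      simp only [Finset.coe_filter, Finset.mem_univ, true_and, Set.mem_ofPred_eq] at hi ⊢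
      rw [s.ht i hi]
      simp
    · intro i _ j _ hij
      rw [← s.inv i, ← s.inv j, hij]
  have h2 := Finset.card_filter_add_card_filter_not (s := (univ : Finset ι)) (fun i => s.T i = true)
  unfold Step.q at h1 ⊢
  rw [Finset.card_univ] at h2
  omega

/-- cost of the `a`-th layer -/
noncomputable def lc (lib : Lib) (m k : ℕ) (s : Step (Fin m → Bool)) : ℕ :=
  (2 ^ m) ^ k + ∑ U : Finset (Fin k), s.q ^ U.card * (2 ^ m - 2 * s.q) ^ (k - U.card) * z lib U.card

theorem mc_layer (lib : Lib) (st : StTens) (m k : ℕ) (s : Step (Fin m → Bool)) :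
    MC (tens (fun _ : Fin k => s.mat)) (lc lib m k s) := by
  have := st (Fin k) (fun _ => (Fin m → Bool)) (fun _ => s) (z lib) (z_spec lib)
  convert this using 1
  unfold lc
  simp [Finset.card_compl]

/-- currying -/
def curryE (k m : ℕ) : (Fin (k * m) → Bool) ≃ (Fin k → Fin m → Bool) where
  toFun x := fun i j => x (finProdFinEquiv (i, j))
  invFun y := fun a => y (finProdFinEquiv.symm a).1 (finProdFinEquiv.symm a).2
  left_inv := by
    intro x
    ext a
    show x (finProdFinEquiv ((finProdFinEquiv.symm a).1, (finProdFinEquiv.symm a).2)) = x a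
    rw [Prod.mk.eta, Equiv.apply_symm_apply]
  right_inv := by
    intro y
    ext i j
    show y (finProdFinEquiv.symm (finProdFinEquiv (i, j))).1
      (finProdFinEquiv.symm (finProdFinEquiv (i, j))).2 = y i j
    rw [Equiv.symm_apply_apply]

theorem zp_mul (k m : ℕ) : ZP (Fin (k * m)) =
    (tens (fun _ : Fin k => ZP (Fin m))).submatrix (curryE k m) (curryE k m) := by
  ext x y
  simp only [Matrix.submatrix_apply, tens, ZP, curryE, Equiv.coe_fn_mk]
  by_cases h : ∀ s, y s = true → x s = true
  · rw [if_pos h, Finset.prod_eq_one]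
    intro i _
    rw [if_pos]
    intro s
    exact h _
  · rw [if_neg h]
    push Not at h
    obtain ⟨a, ha⟩ := h
    symm
    apply Finset.prod_eq_zero (Finset.mem_univ (finProdFinEquiv.symm a).1)
    rw [if_neg]
    push Not
    refine ⟨(finProdFinEquiv.symm a).2, ?_⟩
    rw [Prod.mk.eta, Equiv.apply_symm_apply]
    exact ha

theorem z_mul (lib : Lib) (st : StTens) (tm : StTensMul) (m k : ℕ) (l : List (Step (Fin m → Bool)))
    (hl : (l.map Step.mat).prod = ZP (Fin m)) :
    z lib (k * m) ≤ (l.map (lc lib m k)).sum := by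
  apply z_le
  rw [zp_mul]
  apply lib.sub (curryE k m) (curryE k m)
  rw [← hl, tens_list tm k l]
  exact mc_list lib _ _ (fun s => mc_layer lib st m k s) l

/-! ### binomial averages -/

theorem wsum (k : ℕ) (w : ℝ) : ∑ U : Finset (Fin k), w ^ U.card * (1 - w) ^ (k - U.card) = 1 := by
  have := Finset.sum_pow_mul_eq_add_pow w (1 - w) (univ : Finset (Fin k))
  simp only [Finset.powerset_univ, Finset.card_univ, Fintype.card_fin] at this
  rw [this]
  simp

theorem wmean (k : ℕ) (w : ℝ) :
    ∑ U : Finset (Fin k), w ^ U.card * (1 - w) ^ (k - U.card) * (U.card : ℝ) = k * w := by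
  have h := Finset.sum_powerset_apply_card (fun i : ℕ => w ^ i * (1 - w) ^ (k - i) * (i : ℝ))
    (x := (univ : Finset (Fin k)))
  simp only [Finset.powerset_univ, Finset.card_univ, Fintype.card_fin] at h
  rw [h]
  have hb := congrArg (Polynomial.eval w) (bernsteinPolynomial.sum_smul ℝ k)
  simp only [Polynomial.eval_finsetSum, bernsteinPolynomial, nsmul_eq_mul, Polynomial.eval_mul,
    Polynomial.eval_natCast, Polynomial.eval_pow, Polynomial.eval_X, Polynomial.eval_sub,
    Polynomial.eval_one] at hb
  rw [← hb]
  apply Finset.sum_congr rfl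
  intro i _
  rw [nsmul_eq_mul]
  ring

theorem jensen (k : ℕ) (w θ : ℝ) (hw0 : 0 ≤ w) (hw1 : w ≤ 1) (h0 : 0 < θ) (h1 : θ < 1) :
    ∑ U : Finset (Fin k), w ^ U.card * (1 - w) ^ (k - U.card) * (U.card : ℝ) ^ θ ≤
      (k * w) ^ θ := by
  have hc := Real.concaveOn_rpow h0.le h1.le
  have := hc.le_map_sum (t := (univ : Finset (Finset (Fin k))))
    (w := fun U => w ^ U.card * (1 - w) ^ (k - U.card)) (p := fun U => (U.card : ℝ))
    (fun U _ => mul_nonneg (pow_nonneg hw0 _) (pow_nonneg (by linarith) _)) (wsum k w)
    (fun U _ => by simp)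
  simp only [smul_eq_mul] at this
  rw [wmean] at this
  exact this

/-- real form of the layer cost -/
theorem lc_real (lib : Lib) (m k : ℕ) (s : Step (Fin m → Bool)) :
    (lc lib m k s : ℝ) / 2 ^ (k * m) = 1 + ∑ U : Finset (Fin k),
      (2 * (s.q : ℝ) / 2 ^ m) ^ U.card * (1 - 2 * (s.q : ℝ) / 2 ^ m) ^ (k - U.card) *
        t lib U.card := by
  have hq : 2 * s.q ≤ 2 ^ m := by simpa using two_q_le s
  unfold lc
  push_cast [Nat.cast_sub hq]
  rw [add_div]
  have h1 : ((2:ℝ) ^ m) ^ k / 2 ^ (k * m) = 1 := by
    rw [← pow_mul, mul_comm m k]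
    field_simp
  rw [h1, Finset.sum_div]
  congr 1
  apply Finset.sum_congr rfl
  intro U _
  have hU : U.card ≤ k := by simpa using Finset.card_le_univ U
  unfold t
  have h2 : (2:ℝ) ^ (k * m) = (2 ^ m) ^ U.card * (2 ^ m) ^ (k - U.card) := by
    rw [← pow_add, Nat.add_sub_cancel' hU, ← pow_mul, mul_comm m k]
  have h3 : (1 - 2 * (s.q : ℝ) / 2 ^ m) = (2 ^ m - 2 * (s.q : ℝ)) / 2 ^ m := by
    field_simp
  rw [h2, h3, div_pow, div_pow, mul_pow]
  field_simp

end REC

theorem rec_ : StRec := by
  intro lib st tm θ h0 h1 ⟨m, hm, l, hl, hsum⟩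
  open REC in
  set W : ℝ := (l.map fun s => (2 * (s.q : ℝ) / 2 ^ m) ^ θ).sum with hW
  have hmpos : (0:ℝ) < m := by exact_mod_cast (by omega : 0 < m)
  have hmθ : 0 < (m:ℝ) ^ θ := Real.rpow_pos_of_pos hmpos θ
  have hW0 : 0 ≤ W := by
    rw [hW]
    apply List.sum_nonneg
    intro x hx
    obtain ⟨s, _, rfl⟩ := List.mem_map.1 hx
    positivity
  set ρ : ℝ := W / (m:ℝ) ^ θ with hρ
  have hρ0 : 0 ≤ ρ := div_nonneg hW0 hmθ.le
  have hρ1 : ρ < 1 := (div_lt_one hmθ).2 hsum
  set K : ℝ := (l.length + m) / (1 - ρ) with hK
  have hKm : (l.length : ℝ) + m ≤ K := by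
    rw [hK, le_div_iff₀ (by linarith)]
    have : (0:ℝ) ≤ l.length + m := by positivity
    nlinarith
  have hK0 : 0 ≤ K := le_trans (by positivity) hKm
  have hKeq : K * (1 - ρ) = l.length + m := by
    rw [hK]
    field_simp [(by linarith : (1 - ρ) ≠ 0)]
  have key : ∀ j : ℕ, REC.t lib j ≤ K * (j:ℝ) ^ θ := by
    intro j
    induction j using Nat.strong_induction_on with
    | _ j ih =>
      by_cases hj : j < m
      · rcases Nat.eq_zero_or_pos j with rfl | hpos
        · rw [REC.t_zero]
          positivity
        · have ht : REC.t lib j ≤ j := by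
            have := REC.t_add lib 0 j
            rw [REC.t_zero, zero_add, zero_add] at this
            exact this
          have hj1 : (1:ℝ) ≤ (j:ℝ) ^ θ := Real.one_le_rpow (by exact_mod_cast hpos) h0.le
          have hjm : (j:ℝ) ≤ m := by exact_mod_cast hj.le
          have : (0:ℝ) ≤ l.length := by positivity
          nlinarith
      · have hj' : m ≤ j := by omega
        set k := j / m with hk
        have hk1 : 1 ≤ k := Nat.div_pos hj' (by omega)
        have hkj : k < j := Nat.div_lt_self (by omega) (by omega)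
        have hdm : j = k * m + j % m := by
          rw [hk, mul_comm]
          exact (Nat.div_add_mod j m).symm
        have hr : j % m < m := Nat.mod_lt _ (by omega)
        have hz := REC.z_mul lib st tm m k l hl
        have hkm : REC.t lib (k * m) ≤ (l.length : ℝ) + K * (k:ℝ) ^ θ * W := by
          have hz' : (REC.z lib (k * m) : ℝ) ≤ ((l.map (REC.lc lib m k)).sum : ℕ) := by
            exact_mod_cast hz
          have h2 : REC.t lib (k * m) ≤
              ((l.map (REC.lc lib m k)).sum : ℕ) / (2:ℝ) ^ (k * m) := by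
            unfold REC.t
            gcongr
          refine h2.trans ?_
          have h3 : ∀ l' : List (Step (Fin m → Bool)),
              (((l'.map (REC.lc lib m k)).sum : ℕ) : ℝ) / (2:ℝ) ^ (k * m) ≤
              (l'.length : ℝ) + K * (k:ℝ) ^ θ *
                (l'.map fun s => (2 * (s.q : ℝ) / 2 ^ m) ^ θ).sum := by
            intro l'
            induction l' with
            | nil => simp
            | cons s l' ih' =>
              simp only [List.map_cons, List.sum_cons, List.length_cons]
              rw [Nat.cast_add, Nat.cast_succ, add_div, REC.lc_real]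
              have hq : 2 * s.q ≤ 2 ^ m := by simpa using REC.two_q_le s
              have hqr : 2 * (s.q : ℝ) ≤ 2 ^ m := by exact_mod_cast hq
              set w : ℝ := 2 * (s.q : ℝ) / 2 ^ m with hw
              have hw0 : 0 ≤ w := by positivity
              have hw1 : w ≤ 1 := by
                rw [hw, div_le_one (by positivity)]
                exact hqr
              have h4 : ∑ U : Finset (Fin k), w ^ U.card * (1 - w) ^ (k - U.card) *
                  REC.t lib U.card ≤ K * ((k:ℝ) ^ θ * w ^ θ) := by
                calc ∑ U : Finset (Fin k), w ^ U.card * (1 - w) ^ (k - U.card) *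
                    REC.t lib U.card
                    ≤ ∑ U : Finset (Fin k), K * (w ^ U.card * (1 - w) ^ (k - U.card) *
                      (U.card : ℝ) ^ θ) := by
                      apply Finset.sum_le_sum
                      intro U _
                      have hU : U.card ≤ k := by simpa using Finset.card_le_univ U
                      have := ih U.card (by omega)
                      have hnn : 0 ≤ w ^ U.card * (1 - w) ^ (k - U.card) :=
                        mul_nonneg (pow_nonneg hw0 _) (pow_nonneg (by linarith) _)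
                      calc _ ≤ w ^ U.card * (1 - w) ^ (k - U.card) * (K * (U.card : ℝ) ^ θ) :=
                            mul_le_mul_of_nonneg_left this hnn
                        _ = _ := by ring
                  _ = K * ∑ U : Finset (Fin k), (w ^ U.card * (1 - w) ^ (k - U.card) *
                      (U.card : ℝ) ^ θ) := by rw [Finset.mul_sum]
                  _ ≤ K * ((k * w) ^ θ) :=
                      mul_le_mul_of_nonneg_left (REC.jensen k w θ hw0 hw1 h0 h1) hK0
                  _ = K * ((k:ℝ) ^ θ * w ^ θ) := by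
                      rw [Real.mul_rpow (by positivity) hw0]
              linarith [ih', h4]
          exact h3 l
        have hWρ : W = ρ * (m:ℝ) ^ θ := by
          rw [hρ]
          field_simp
        have hkmθ : ((k * m : ℕ) : ℝ) ^ θ = (k:ℝ) ^ θ * (m:ℝ) ^ θ := by
          push_cast
          rw [Real.mul_rpow (by positivity) (by positivity)]
        have hkm1 : (1:ℝ) ≤ ((k * m : ℕ) : ℝ) ^ θ := by
          apply Real.one_le_rpow _ h0.le
          have : 1 ≤ k * m := Nat.mul_pos hk1 (by omega)
          exact_mod_cast this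
        have hmono : ((k * m : ℕ) : ℝ) ^ θ ≤ (j:ℝ) ^ θ := by
          apply Real.rpow_le_rpow (by positivity) _ h0.le
          have : k * m ≤ j := by omega
          exact_mod_cast this
        have ht : REC.t lib j ≤ REC.t lib (k * m) + m := by
          have := REC.t_add lib (k * m) (j % m)
          rw [← hdm] at this
          have hrm : ((j % m : ℕ) : ℝ) ≤ m := by exact_mod_cast hr.le
          linarith
        have h5 : K * (k:ℝ) ^ θ * W = K * ρ * ((k * m : ℕ) : ℝ) ^ θ := by
          rw [hkmθ, hWρ]
          ring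
        rw [h5] at hkm
        have h6 : (l.length : ℝ) + m ≤ K * (1 - ρ) * ((k * m : ℕ) : ℝ) ^ θ := by
          rw [hKeq]
          have : (0:ℝ) ≤ l.length + m := by positivity
          nlinarith
        have h7 : K * ((k * m : ℕ) : ℝ) ^ θ ≤ K * (j:ℝ) ^ θ :=
          mul_le_mul_of_nonneg_left hmono hK0
        nlinarith
  refine ⟨K, hK0, REC.z lib, REC.z_spec lib, fun j => ?_⟩
  have := key j
  unfold REC.t at this
  rw [div_le_iff₀ (by positivity)] at this
  calc (REC.z lib j : ℝ) ≤ K * (j:ℝ) ^ θ * 2 ^ j := this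
    _ = K * 2 ^ j * (j:ℝ) ^ θ := by ring

end Crest.Agent.R324
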