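import Crest.Agent.R324.Defs

/-! Row 324, SLIB: closure properties of `Steps`. -/

set_option autoImplicit false

noncomputable section

namespace Crest.Agent.R324

open Matrix Finset

namespace SL

/-- the diagonal step -/
def dStep {ι : Type} (d : ι → ℂ) : Step ι where
  π := Equiv.refl ι
  d := d
  σ := id
  T := fun _ => false
  inv := fun _ => rfl
  ht := fun _ h => by simp at h

/-- the permutation step -/
def pStep {ι : Type} (π : Equiv.Perm ι) : Step ι where
  π := π
  d := fun _ => 1
  σ := id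
  T := fun _ => false
  inv := fun _ => rfl
  ht := fun _ h => by simp at h

theorem dStep_mat {ι : Type} [DecidableEq ι] (d : ι → ℂ) : (dStep d).mat = diagonal d := by
  ext i j
  by_cases h : i = j
  · subst h; simp [Step.mat, dStep]
  · have h' : ¬ j = i := fun e => h e.symm
    simp [Step.mat, dStep, Matrix.diagonal_apply_ne _ h, h']

theorem pStep_mat {ι : Type} [DecidableEq ι] (π : Equiv.Perm ι) :
    (pStep π).mat = (fun i j => if j = π i then 1 else 0 : Matrix ι ι ℂ) := by
  ext i j
  simp [Step.mat, pStep]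

theorem one_mat {ι : Type} [DecidableEq ι] : (dStep (fun _ : ι => (1 : ℂ))).mat = 1 := by
  rw [dStep_mat]; exact Matrix.diagonal_one

theorem s_one {ι : Type} [Fintype ι] [DecidableEq ι] : Steps (1 : Matrix ι ι ℂ) 0 :=
  ⟨[], rfl, rfl⟩

theorem s_mul {ι : Type} [Fintype ι] [DecidableEq ι] {M N : Matrix ι ι ℂ} {n n' : ℕ}
    (h : Steps M n) (h' : Steps N n') : Steps (M * N) (n + n') := by
  obtain ⟨l, hl, rfl⟩ := h
  obtain ⟨l', hl', rfl⟩ := h'
  exact ⟨l ++ l', by simp [hl, hl'], by simp⟩

theorem s_ones {ι : Type} [Fintype ι] [DecidableEq ι] (k : ℕ) :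
    Steps (1 : Matrix ι ι ℂ) k := by
  refine ⟨List.replicate k (dStep fun _ => 1), by simp, ?_⟩
  rw [List.map_replicate, one_mat, List.prod_replicate, one_pow]

theorem s_mono {ι : Type} [Fintype ι] [DecidableEq ι] {M : Matrix ι ι ℂ} {n n' : ℕ}
    (h : Steps M n) (hn : n ≤ n') : Steps M n' := by
  have := s_mul h (s_ones (ι := ι) (n' - n))
  rw [Matrix.mul_one, Nat.add_sub_cancel' hn] at this
  exact this

theorem s_diag {ι : Type} [Fintype ι] [DecidableEq ι] (d : ι → ℂ) : Steps (diagonal d) 1 :=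
  ⟨[dStep d], rfl, by simp [dStep_mat]⟩

theorem s_perm {ι : Type} [Fintype ι] [DecidableEq ι] (π : Equiv.Perm ι) :
    Steps (fun i j => if j = π i then 1 else 0 : Matrix ι ι ℂ) 1 :=
  ⟨[pStep π], rfl, by
    rw [List.map_cons, List.map_nil, List.prod_cons, List.prod_nil, pStep_mat]
    exact Matrix.mul_one _⟩

/-- relabelled step -/
def rStep {ι κ : Type} (e : κ ≃ ι) (s : Step ι) : Step κ where
  π := (e.trans s.π).trans e.symm
  d := fun k => s.d (e k)
  σ := fun k => e.symm (s.σ (e k))
  T := fun k => s.T (e k)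
  inv := fun k => by simp [s.inv]
  ht := fun k h => by simpa using s.ht _ h

theorem rStep_mat {ι κ : Type} [DecidableEq ι] [DecidableEq κ] (e : κ ≃ ι) (s : Step ι) :
    (rStep e s).mat = s.mat.submatrix e e := by
  ext i j
  simp only [Step.mat, rStep, Matrix.submatrix_apply, Equiv.trans_apply, Equiv.apply_symm_apply,
    Equiv.eq_symm_apply]

theorem s_reindex {ι κ : Type} [Fintype ι] [DecidableEq ι] [Fintype κ] [DecidableEq κ]
    (e : κ ≃ ι) {M : Matrix ι ι ℂ} {n : ℕ} (h : Steps M n) : Steps (M.submatrix e e) n := by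
  obtain ⟨l, hl, rfl⟩ := h
  refine ⟨l.map (rStep e), by simp [hl], ?_⟩
  clear hl
  induction l with
  | nil => simp
  | cons s l ih =>
    simp only [List.map_cons, List.prod_cons] at ih ⊢
    rw [ih, rStep_mat, Matrix.submatrix_mul_equiv]

/-- parallel step -/
def sStep {ι κ : Type} (s : Step ι) (t : Step κ) : Step (ι ⊕ κ) where
  π := Equiv.sumCongr s.π t.π
  d := Sum.elim s.d t.d
  σ := Sum.map s.σ t.σ
  T := Sum.elim s.T t.T
  inv := by rintro (i | i) <;> simp [s.inv, t.inv]
  ht := by
    rintro (i | i) h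
    · exact s.ht i h
    · exact t.ht i h

theorem sStep_mat {ι κ : Type} [DecidableEq ι] [DecidableEq κ] (s : Step ι) (t : Step κ) :
    (sStep s t).mat = fromBlocks s.mat 0 0 t.mat := by
  ext (i | i) (j | j) <;> simp [Step.mat, sStep]

theorem s_par {ι κ : Type} [Fintype ι] [DecidableEq ι] [Fintype κ] [DecidableEq κ]
    {M : Matrix ι ι ℂ} {N : Matrix κ κ ℂ} {n : ℕ} (h : Steps M n) (h' : Steps N n) :
    Steps (fromBlocks M 0 0 N) n := by
  obtain ⟨l, hl, rfl⟩ := h
  obtain ⟨l', hl', rfl⟩ := h'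
  induction n generalizing l l' with
  | zero =>
    rw [List.length_eq_zero_iff] at hl hl'
    subst hl hl'
    simpa using s_one (ι := ι ⊕ κ)
  | succ n ih =>
    cases l with
    | nil => simp at hl
    | cons s l =>
      cases l' with
      | nil => simp at hl'
      | cons s' l' =>
        have := ih l (by simpa using hl) l' (by simpa using hl')
        have h1 : Steps ((sStep s s').mat) 1 := ⟨[sStep s s'], rfl, by simp⟩
        have h2 := s_mul h1 this
        rw [sStep_mat, fromBlocks_multiply] at h2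
        simpa [add_comm] using h2

theorem s_ext {ι κ : Type} [Fintype ι] [DecidableEq ι] [Fintype κ] [DecidableEq κ] (e : κ → ι)
    (he : Function.Injective e) {M : Matrix κ κ ℂ} {n : ℕ} (h : Steps M n) :
    Steps (ext e M) n := by
  classical
  let f : ι ≃ κ ⊕ {i : ι // ¬ i ∈ Set.range e} :=
    (Equiv.sumCompl (fun i => i ∈ Set.range e)).symm.trans
      (Equiv.sumCongr (Equiv.ofInjective e he).symm (Equiv.refl _))
  have h1 := s_par h (s_ones (ι := {i : ι // ¬ i ∈ Set.range e}) n)
  have h2 := s_reindex f h1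
  have hf1 : ∀ k, f (e k) = Sum.inl k := by
    intro k
    have hk : (e k) ∈ Set.range e := ⟨k, rfl⟩
    simp only [f, Equiv.trans_apply]
    rw [Equiv.sumCompl_symm_apply_of_pos (p := fun i => i ∈ Set.range e) hk]
    simp only [Equiv.sumCongr_apply, Sum.map_inl]
    congr 1
    exact Equiv.ofInjective_symm_apply he k
  have hf2 : ∀ i (hi : ¬ i ∈ Set.range e), f i = Sum.inr ⟨i, hi⟩ := by
    intro i hi
    simp only [f, Equiv.trans_apply]
    rw [Equiv.sumCompl_symm_apply_of_neg (p := fun i => i ∈ Set.range e) hi]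
    rfl
  convert h2 using 1
  ext i j
  simp only [ext, Matrix.submatrix_apply]
  by_cases hi : i ∈ Set.range e
  · obtain ⟨k, rfl⟩ := hi
    rw [hf1]
    by_cases hj : j ∈ Set.range e
    · obtain ⟨l, rfl⟩ := hj
      rw [hf1, fromBlocks_apply₁₁, if_pos ⟨⟨k, rfl⟩, ⟨l, rfl⟩⟩]
      rw [Finset.sum_eq_single k, Finset.sum_eq_single l, if_pos ⟨rfl, rfl⟩]
      · intro l' _ hl'
        rw [if_neg]
        rintro ⟨-, h⟩
        exact hl' (he h).symm
      · simp
      · intro k' _ hk'
        apply Finset.sum_eq_zero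
        intro l' _
        rw [if_neg]
        rintro ⟨h, -⟩
        exact hk' (he h).symm
      · simp
    · rw [hf2 j hj, fromBlocks_apply₁₂, if_neg, if_neg]
      · rfl
      · rintro rfl
        exact hj ⟨k, rfl⟩
      · rintro ⟨-, ⟨l, hl⟩⟩
        exact hj ⟨l, hl.symm⟩
  · rw [hf2 i hi]
    have hi' : ¬ ((∃ k, i = e k) ∧ (∃ l, j = e l)) := by
      rintro ⟨⟨k, hk⟩, -⟩
      exact hi ⟨k, hk.symm⟩
    rw [if_neg hi']
    by_cases hj : j ∈ Set.range e
    · obtain ⟨l, rfl⟩ := hj
      rw [hf1, fromBlocks_apply₂₁, if_neg]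
      · rfl
      · rintro rfl
        exact hi ⟨l, rfl⟩
    · rw [hf2 j hj, fromBlocks_apply₂₂, Matrix.one_apply]
      simp only [Subtype.mk.injEq]

/-- the pairing involution -/
def pr {ι a : Type} [DecidableEq ι] (y z : a → ι) (i : ι) : ι := by
  classical exact
  if h : ∃ k, y k = i then z h.choose else if h : ∃ k, z k = i then y h.choose else i

section

variable {ι a : Type} [DecidableEq ι] (y z : a → ι) (hy : Function.Injective y)
  (hz : Function.Injective z) (hyz : ∀ k l, y k ≠ z l)

include hy in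
theorem pr_y (k : a) : pr y z (y k) = z k := by
  have h : ∃ k', y k' = y k := ⟨k, rfl⟩
  rw [pr, dif_pos h]
  congr 1
  exact hy h.choose_spec

include hz hyz in
theorem pr_z (k : a) : pr y z (z k) = y k := by
  have h0 : ¬ ∃ k', y k' = z k := by rintro ⟨k', h⟩; exact hyz _ _ h
  have h : ∃ k', z k' = z k := ⟨k, rfl⟩
  rw [pr, dif_neg h0, dif_pos h]
  congr 1
  exact hz h.choose_spec

theorem pr_o (i : ι) (h : ¬ ∃ k, y k = i) (h' : ¬ ∃ k, z k = i) : pr y z i = i := by
  rw [pr, dif_neg h, dif_neg h']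

include hy hz hyz in
theorem pr_pr (i : ι) : pr y z (pr y z i) = i := by
  by_cases h : ∃ k, y k = i
  · obtain ⟨k, rfl⟩ := h
    rw [pr_y y z hy, pr_z y z hz hyz]
  · by_cases h' : ∃ k, z k = i
    · obtain ⟨k, rfl⟩ := h'
      rw [pr_z y z hz hyz, pr_y y z hy]
    · rw [pr_o y z i h h', pr_o y z i h h']

/-- the transvection step -/
def tStep (c : a → ℂ) : Step ι where
  π := Equiv.refl ι
  d := fun _ => 1
  σ := pr y z
  T := fun i => by classical exact decide (∃ k, y k = i ∧ c k ≠ 0)
  inv := pr_pr y z hy hz hyz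
  ht := by
    intro i h
    simp only [decide_eq_true_eq] at h
    obtain ⟨k, rfl, hk⟩ := h
    rw [pr_y y z hy]
    simp only [decide_eq_false_iff_not]
    rintro ⟨l, hl, -⟩
    exact hyz _ _ hl

/-- the scaling on the sources -/
def sc (c : a → ℂ) (i : ι) : ℂ := by
  classical exact if h : ∃ k, z k = i ∧ c k ≠ 0 then c h.choose else 1

include hz in
theorem sc_z (c : a → ℂ) (k : a) (hk : c k ≠ 0) : sc z c (z k) = c k := by
  have h : ∃ k', z k' = z k ∧ c k' ≠ 0 := ⟨k, rfl, hk⟩
  rw [sc, dif_pos h]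
  congr 1
  exact hz h.choose_spec.1

theorem sc_ne (c : a → ℂ) (i : ι) : sc z c i ≠ 0 := by
  unfold sc
  split_ifs with h
  · exact h.choose_spec.2
  · exact one_ne_zero

include hyz in
theorem sc_y (c : a → ℂ) (k : a) : sc z c (y k) = 1 := by
  rw [sc, dif_neg]
  rintro ⟨l, hl, -⟩
  exact hyz _ _ hl.symm

end

theorem s_trans {ι a : Type} [Fintype ι] [DecidableEq ι] [Fintype a] [DecidableEq a] (y z : a → ι)
    (hy : Function.Injective y) (hz : Function.Injective z) (hyz : ∀ k l, y k ≠ z l) (c : a → ℂ) :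
    Steps (Ad y z (diagonal c)) 3 := by
  classical
  refine ⟨[dStep (fun i => (sc z c i)⁻¹), tStep y z hy hz hyz c, dStep (sc z c)], rfl, ?_⟩
  simp only [List.map_cons, List.map_nil, List.prod_cons, List.prod_nil, Matrix.mul_one,
    dStep_mat]
  ext i j
  rw [Matrix.diagonal_mul, Matrix.mul_diagonal]
  simp only [Step.mat, tStep, Equiv.refl_apply, Ad, decide_eq_true_eq]
  by_cases hij : i = j
  · subst hij
    rw [if_pos (Or.inl rfl), if_pos rfl]
    have : ∑ k, ∑ l, (if i = y k ∧ i = z l then diagonal c k l else 0) = 0 := by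
      apply Finset.sum_eq_zero
      intro k _
      apply Finset.sum_eq_zero
      intro l _
      rw [if_neg]
      rintro ⟨h1, h2⟩
      exact hyz k l (h1 ▸ h2)
    rw [this, add_zero, one_mul, inv_mul_cancel₀ (sc_ne z c i)]
  · have hji : ¬ j = i := fun e => hij e.symm
    rw [if_neg hij, zero_add]
    by_cases h : ∃ k, (y k = i ∧ c k ≠ 0) ∧ j = z k
    · obtain ⟨k, ⟨rfl, hk⟩, rfl⟩ := h
      rw [if_pos (Or.inr ⟨⟨k, rfl, hk⟩, (pr_y y z hy k).symm⟩), sc_y y z hyz, sc_z z hz c k hk]
      rw [Finset.sum_eq_single k, Finset.sum_eq_single k, if_pos ⟨rfl, rfl⟩]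
      · simp
      · intro l' _ hl'
        rw [if_neg]
        rintro ⟨-, h⟩
        exact hl' (hz h).symm
      · simp
      · intro k' _ hk'
        apply Finset.sum_eq_zero
        intro l' _
        rw [if_neg]
        rintro ⟨h, -⟩
        exact hk' (hy h).symm
      · simp
    · rw [if_neg]
      · rw [zero_mul, mul_zero]
        symm
        apply Finset.sum_eq_zero
        intro k _
        apply Finset.sum_eq_zero
        intro l _
        by_cases hkl : i = y k ∧ j = z l
        · rw [if_pos hkl]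
          by_cases e : k = l
          · subst e
            rw [Matrix.diagonal_apply_eq]
            by_contra hc
            exact h ⟨k, ⟨hkl.1.symm, hc⟩, hkl.2⟩
          · rw [Matrix.diagonal_apply_ne _ e]
        · rw [if_neg hkl]
      · rintro (h1 | ⟨⟨k, rfl, hk⟩, h2⟩)
        · exact hji h1
        · rw [pr_y y z hy] at h2
          exact h ⟨k, ⟨rfl, hk⟩, h2⟩

end SL

theorem slib : SLib where
  mono := fun h hn => SL.s_mono h hn
  mul := fun h h' => SL.s_mul h h'
  one := SL.s_one
  diag := fun d => SL.s_diag d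
  perm := fun π => SL.s_perm π
  reindex := fun e _ _ h => SL.s_reindex e h
  par := fun h h' => SL.s_par h h'
  ext := fun e he _ _ h => SL.s_ext e he h
  trans := fun y z hy hz hyz c => SL.s_trans y z hy hz hyz c

end Crest.Agent.R324
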