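import Crest.Agent.R324.REC
import Crest.Agent.R324.CDefs

set_option autoImplicit false

namespace Crest.Agent.R324

open Finset

theorem sys : StSys := by
  intro N t m A θ L c hm h0 h1 hA hc hL ht0 htn hts hrec hlt
  -- t i k ≤ k and increments
  have hadd : ∀ i j r, t i (j + r) ≤ t i j + r := by
    intro i j r
    induction r with
    | zero => simp
    | succ r ih =>
      have := hts i (j + r)
      push_cast
      rw [← add_assoc]
      linarith
  have hle : ∀ i k, t i k ≤ k := by
    intro i k
    have := hadd i 0 k
    rw [ht0, zero_add, zero_add] at this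
    exact this
  set S : Fin N → ℝ := fun i => ((L i).map fun p => p.1 * (c p.2.1 * p.2.2 ^ θ)).sum with hS
  have hS0 : ∀ i, 0 ≤ S i := by
    intro i
    apply List.sum_nonneg
    intro x hx
    obtain ⟨p, hp, rfl⟩ := List.mem_map.1 hx
    obtain ⟨a1, a2, a3⟩ := hL i p hp
    exact mul_nonneg a1 (mul_nonneg (hc _).le (Real.rpow_nonneg a2 _))
  have hmpos : ∀ i, (0:ℝ) < m i := fun i => by
    have := hm i
    exact_mod_cast (by omega : 0 < m i)
  have hmθ : ∀ i, 0 < (m i : ℝ) ^ θ := fun i => Real.rpow_pos_of_pos (hmpos i) θ
  set gap : Fin N → ℝ := fun i => c i - S i / (m i : ℝ) ^ θ with hgap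
  have hgap0 : ∀ i, 0 < gap i := by
    intro i
    have : S i / (m i : ℝ) ^ θ < c i := by
      rw [div_lt_iff₀ (hmθ i)]
      exact hlt i
    simp only [hgap]
    linarith
  have hgapc : ∀ i, gap i ≤ c i := by
    intro i
    have : 0 ≤ S i / (m i : ℝ) ^ θ := div_nonneg (hS0 i) (hmθ i).le
    simp only [hgap]
    linarith
  set K : ℝ := ∑ i, (A + m i) / gap i with hK
  have hterm : ∀ i, 0 ≤ (A + m i) / gap i := fun i =>
    div_nonneg (add_nonneg hA (hmpos i).le) (hgap0 i).le
  have hK0 : 0 ≤ K := Finset.sum_nonneg fun i _ => hterm i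
  have hKi : ∀ i, A + m i ≤ K * gap i := by
    intro i
    have : (A + m i) / gap i ≤ K :=
      Finset.single_le_sum (f := fun i => (A + m i) / gap i) (fun i _ => hterm i) (mem_univ i)
    rwa [div_le_iff₀ (hgap0 i)] at this
  have key : ∀ k : ℕ, ∀ i, t i k ≤ K * c i * (k:ℝ) ^ θ := by
    intro k
    induction k using Nat.strong_induction_on with
    | _ k ih =>
      intro i
      by_cases hk : k < m i
      · rcases Nat.eq_zero_or_pos k with rfl | hpos
        · rw [ht0]
          have := (hc i).le
          positivity
        · have hk1 : (1:ℝ) ≤ (k:ℝ) ^ θ := Real.one_le_rpow (by exact_mod_cast hpos) h0.le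
          have hkm : (k:ℝ) ≤ m i := by exact_mod_cast hk.le
          have h2 : (m i : ℝ) ≤ K * c i := by
            calc (m i : ℝ) ≤ A + m i := by linarith
              _ ≤ K * gap i := hKi i
              _ ≤ K * c i := mul_le_mul_of_nonneg_left (hgapc i) hK0
          calc t i k ≤ k := hle i k
            _ ≤ K * c i := hkm.trans h2
            _ = K * c i * 1 := (mul_one _).symm
            _ ≤ K * c i * (k:ℝ) ^ θ :=
                mul_le_mul_of_nonneg_left hk1 (mul_nonneg hK0 (hc i).le)
      · have hk' : m i ≤ k := by omega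
        have hmi := hm i
        set q := k / m i with hq
        have hq1 : 1 ≤ q := Nat.div_pos hk' (by omega)
        have hqk : q < k := Nat.div_lt_self (by omega) (by omega)
        have hdm : k = m i * q + k % m i := (Nat.div_add_mod k (m i)).symm
        have hr : k % m i < m i := Nat.mod_lt _ (by omega)
        have hEB : ∀ p ∈ L i, p.1 * EB q p.2.2 (t p.2.1) ≤
            (K * (q:ℝ) ^ θ) * (p.1 * (c p.2.1 * p.2.2 ^ θ)) := by
          intro p hp
          obtain ⟨a1, a2, a3⟩ := hL i p hp
          have : EB q p.2.2 (t p.2.1) ≤ K * c p.2.1 * ((q:ℝ) ^ θ * p.2.2 ^ θ) := by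
            unfold EB
            set w := p.2.2
            set j := p.2.1
            calc ∑ U : Finset (Fin q), w ^ U.card * (1 - w) ^ (q - U.card) * t j U.card
                ≤ ∑ U : Finset (Fin q), K * c j * (w ^ U.card * (1 - w) ^ (q - U.card) *
                    (U.card : ℝ) ^ θ) := by
                  apply Finset.sum_le_sum
                  intro U _
                  have hU : U.card ≤ q := by simpa using Finset.card_le_univ U
                  have := ih U.card (by omega) j
                  have hnn : 0 ≤ w ^ U.card * (1 - w) ^ (q - U.card) :=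
                    mul_nonneg (pow_nonneg a2 _) (pow_nonneg (by linarith) _)
                  calc _ ≤ w ^ U.card * (1 - w) ^ (q - U.card) * (K * c j * (U.card : ℝ) ^ θ) :=
                        mul_le_mul_of_nonneg_left this hnn
                    _ = _ := by ring
              _ = K * c j * ∑ U : Finset (Fin q), (w ^ U.card * (1 - w) ^ (q - U.card) *
                    (U.card : ℝ) ^ θ) := by rw [Finset.mul_sum]
              _ ≤ K * c j * ((q * w) ^ θ) :=
                  mul_le_mul_of_nonneg_left (REC.jensen q w θ a2 a3 h0 h1)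
                    (mul_nonneg hK0 (hc j).le)
              _ = K * c j * ((q:ℝ) ^ θ * w ^ θ) := by
                  rw [Real.mul_rpow (by positivity) a2]
          calc p.1 * EB q p.2.2 (t p.2.1) ≤ p.1 * (K * c p.2.1 * ((q:ℝ) ^ θ * p.2.2 ^ θ)) :=
                mul_le_mul_of_nonneg_left this a1
            _ = _ := by ring
        have hsum : ((L i).map fun p => p.1 * EB q p.2.2 (t p.2.1)).sum ≤
            (K * (q:ℝ) ^ θ) * S i := by
          simp only [hS]
          rw [← List.sum_map_mul_left]
          exact List.sum_le_sum hEB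
        have hSi : S i = (c i - gap i) * (m i : ℝ) ^ θ := by
          simp only [hgap]
          have := (hmθ i).ne'
          field_simp
          ring
        have hqm : ((m i * q : ℕ) : ℝ) ^ θ = (q:ℝ) ^ θ * (m i:ℝ) ^ θ := by
          push_cast
          rw [Real.mul_rpow (by positivity) (by positivity), mul_comm]
        have hqm1 : (1:ℝ) ≤ ((m i * q : ℕ) : ℝ) ^ θ := by
          apply Real.one_le_rpow _ h0.le
          have : 1 ≤ m i * q := Nat.mul_pos (by omega) hq1
          exact_mod_cast this
        have hmono : ((m i * q : ℕ) : ℝ) ^ θ ≤ (k:ℝ) ^ θ := by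
          apply Real.rpow_le_rpow (by positivity) _ h0.le
          have : m i * q ≤ k := by omega
          exact_mod_cast this
        have htk : t i k ≤ t i (m i * q) + m i := by
          have := hadd i (m i * q) (k % m i)
          rw [← hdm] at this
          have hrm : ((k % m i : ℕ) : ℝ) ≤ m i := by exact_mod_cast hr.le
          linarith
        have h5 : (K * (q:ℝ) ^ θ) * S i = K * (c i - gap i) * ((m i * q : ℕ) : ℝ) ^ θ := by
          rw [hqm, hSi]
          ring
        have h6 : A + m i ≤ K * gap i * ((m i * q : ℕ) : ℝ) ^ θ := by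
          have := hKi i
          have h7 : 0 ≤ K * gap i := mul_nonneg hK0 (hgap0 i).le
          calc A + m i ≤ K * gap i := this
            _ = K * gap i * 1 := (mul_one _).symm
            _ ≤ _ := mul_le_mul_of_nonneg_left hqm1 h7
        have h8 := hrec i q
        calc t i k ≤ A + m i + K * (c i - gap i) * ((m i * q : ℕ) : ℝ) ^ θ := by
              rw [← h5]
              linarith
          _ ≤ K * gap i * ((m i * q : ℕ) : ℝ) ^ θ +
              K * (c i - gap i) * ((m i * q : ℕ) : ℝ) ^ θ := by linarith
          _ = K * c i * ((m i * q : ℕ) : ℝ) ^ θ := by ring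
          _ ≤ K * c i * (k:ℝ) ^ θ :=
              mul_le_mul_of_nonneg_left hmono (mul_nonneg hK0 (hc i).le)
  refine ⟨K * ∑ i, c i, mul_nonneg hK0 (Finset.sum_nonneg fun i _ => (hc i).le), ?_⟩
  intro i k
  have h9 : c i ≤ ∑ i, c i :=
    Finset.single_le_sum (f := c) (fun i _ => (hc i).le) (mem_univ i)
  calc t i k ≤ K * c i * (k:ℝ) ^ θ := key k i
    _ ≤ K * (∑ i, c i) * (k:ℝ) ^ θ := by
        apply mul_le_mul_of_nonneg_right _ (by positivity)
        exact mul_le_mul_of_nonneg_left h9 hK0

end Crest.Agent.R324
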