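import Crest.Agent.R324.Defs

set_option autoImplicit false
set_option linter.unusedSectionVars false

noncomputable section

namespace Crest.Agent.R324

open Crest.FourierCircuit
open Matrix Finset

namespace TensProof

variable {S : Type} [Fintype S] [DecidableEq S] {ι : S → Type}
  [∀ i, Fintype (ι i)] [∀ i, DecidableEq (ι i)] (s : ∀ i, Step (ι i))

/-- the transvection part -/
def EE : Matrix (∀ i, ι i) (∀ i, ι i) ℂ := fun x y =>
  if ∀ i, y i = x i ∨ ((s i).T (x i) = true ∧ y i = (s i).σ (x i)) then 1 else 0

/-- the monomial part -/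
def RR : Matrix (∀ i, ι i) (∀ i, ι i) ℂ := fun x w =>
  if w = (fun i => (s i).π (x i)) then ∏ i, (s i).d (x i) else 0

theorem tens_eq : (tens fun i => (s i).mat) = RR s * EE s := by
  ext x y
  simp only [Matrix.mul_apply, RR, EE, tens, Step.mat, ite_mul, zero_mul, Finset.sum_ite_eq',
    Finset.mem_univ, if_true]
  by_cases h : ∀ i, y i = (s i).π (x i) ∨
      ((s i).T ((s i).π (x i)) = true ∧ y i = (s i).σ ((s i).π (x i)))
  · rw [if_pos h, mul_one]
    exact Finset.prod_congr rfl fun i _ => if_pos (h i)
  · rw [if_neg h, mul_zero]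
    push Not at h
    obtain ⟨i, h1, h2⟩ := h
    refine Finset.prod_eq_zero (Finset.mem_univ i) (if_neg ?_)
    rintro (h3 | ⟨h3, h4⟩)
    · exact h1 h3
    · exact h2 h3 h4

/-- the label of a state -/
def lab (x : ∀ i, ι i) : ∀ i, ι i := fun i =>
  if (s i).T (x i) = true then x i else if (s i).T ((s i).σ (x i)) = true then (s i).σ (x i)
    else x i

/-- the active set of a label -/
def act (b : ∀ i, ι i) : Finset S := univ.filter fun i => (s i).T (b i) = true

theorem lab_act {b x : ∀ i, ι i} (h : lab s x = b) {i : S} (hi : (s i).T (b i) = true) :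
    (x i = b i ∧ (s i).T (x i) = true) ∨ (x i = (s i).σ (b i) ∧ (s i).T (x i) = false) := by
  have h1 := congrFun h i
  unfold lab at h1
  split_ifs at h1 with h2 h3
  · left; exact ⟨h1, h2⟩
  · right
    refine ⟨?_, by simpa using h2⟩
    rw [← h1, (s i).inv]
  · rw [h1] at h2; exact absurd hi h2

theorem lab_inact {b x : ∀ i, ι i} (h : lab s x = b) {i : S} (hi : ¬ (s i).T (b i) = true) :
    x i = b i ∧ (s i).T ((s i).σ (b i)) = false := by
  have h1 := congrFun h i
  unfold lab at h1
  split_ifs at h1 with h2 h3
  · rw [h1] at h2; exact absurd h2 hi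
  · rw [h1] at h3; exact absurd h3 hi
  · rw [h1] at h3; exact ⟨h1, by simpa using h3⟩

theorem EE_lab {x y : ∀ i, ι i} (h : lab s x ≠ lab s y) : EE s x y = 0 := by
  unfold EE
  rw [if_neg]
  intro h'
  apply h
  funext i
  rcases h' i with h1 | ⟨h1, h2⟩
  · unfold lab; rw [h1]
  · unfold lab
    rw [h2, (s i).inv, if_pos h1, if_neg (by rw [(s i).ht _ h1]; simp), if_pos h1]

theorem EE_fiber {b x y : ∀ i, ι i} (hx : lab s x = b) (hy : lab s y = b) :
    EE s x y = if ∀ i, (s i).T (b i) = true → (s i).T (y i) = true → (s i).T (x i) = true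
      then 1 else 0 := by
  unfold EE
  congr 1
  apply propext
  constructor
  · intro h i hi hyi
    rcases h i with h1 | ⟨h1, _⟩
    · rw [h1] at hyi; exact hyi
    · exact h1
  · intro h i
    by_cases hi : (s i).T (b i) = true
    · rcases lab_act s hx hi with ⟨h1, h2⟩ | ⟨h1, h2⟩ <;>
      rcases lab_act s hy hi with ⟨h3, h4⟩ | ⟨h3, h4⟩
      · left; rw [h1, h3]
      · right; exact ⟨h2, by rw [h1, h3]⟩
      · have := h i hi h4
        rw [h2] at this; exact absurd this (by simp)
      · left; rw [h1, h3]
    · left; rw [(lab_inact s hx hi).1, (lab_inact s hy hi).1]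

/-- the fibre over a label -/
theorem fib_bij (b : ∀ i, ι i) (hb : ∀ i, ¬ (s i).T (b i) = true → (s i).T ((s i).σ (b i)) = false) :
    Function.Bijective (fun (x : {x : ∀ i, ι i // lab s x = b}) (i : act s b) =>
      (s i).T (x.1 i)) := by
  constructor
  · rintro ⟨x, hx⟩ ⟨y, hy⟩ h
    apply Subtype.ext
    funext i
    show x i = y i
    by_cases hi : (s i).T (b i) = true
    · have h' := congrFun h ⟨i, by simpa [act] using hi⟩
      simp only at h'
      rcases lab_act s hx hi with ⟨h1, h2⟩ | ⟨h1, h2⟩ <;>
      rcases lab_act s hy hi with ⟨h3, h4⟩ | ⟨h3, h4⟩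
      · rw [h1, h3]
      · rw [h2, h4] at h'; exact absurd h' (by simp)
      · rw [h2, h4] at h'; exact absurd h' (by simp)
      · rw [h1, h3]
    · rw [(lab_inact s hx hi).1, (lab_inact s hy hi).1]
  · intro β
    refine ⟨⟨fun i => if h : i ∈ act s b then (if β ⟨i, h⟩ = true then b i else (s i).σ (b i))
      else b i, ?_⟩, ?_⟩
    · funext i
      unfold lab
      by_cases h : i ∈ act s b
      · have hi : (s i).T (b i) = true := by simpa [act] using h
        have hi' := (s i).ht _ hi
        simp only [h, dif_pos]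
        by_cases h2 : β ⟨i, h⟩ = true
        · simp [h2, hi]
        · simp [h2, hi', (s i).inv, hi]
      · have hi : ¬ (s i).T (b i) = true := by simpa [act] using h
        simp only [h, dif_neg, not_false_iff]
        rw [if_neg hi, if_neg (by rw [hb i hi]; simp)]
    · funext i
      have hi : (s i).T (b i) = true := (Finset.mem_filter.1 i.2).2
      have hi' := (s i).ht _ hi
      simp only [i.2, dif_pos]
      by_cases h2 : β i = true
      · simp [h2, hi]
      · simp [h2, hi']


/-- counting inactive states -/
theorem card_inact {κ : Type} [Fintype κ] (t : Step κ) :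
    (univ.filter fun a => ¬ t.T a = true ∧ t.T (t.σ a) = false).card =
      Fintype.card κ - 2 * t.q := by
  classical
  have h1 : (univ.filter fun a => t.T (t.σ a) = true).card = t.q := by
    unfold Step.q
    refine Finset.card_bij (fun a _ => t.σ a) ?_ ?_ ?_
    · intro a ha; simpa using ha
    · intro a _ b _ h
      have := congrArg t.σ h
      simpa [t.inv] using this
    · intro b hb
      refine ⟨t.σ b, ?_, t.inv b⟩
      simpa [t.inv] using hb
  have h2 : Disjoint (univ.filter fun a => t.T a = true)
      (univ.filter fun a => t.T (t.σ a) = true) := by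
    rw [Finset.disjoint_filter]
    intro a _ ha
    rw [t.ht _ ha]; simp
  have h3 : (univ.filter fun a => ¬ t.T a = true ∧ t.T (t.σ a) = false) =
      ((univ.filter fun a => t.T a = true) ∪ (univ.filter fun a => t.T (t.σ a) = true))ᶜ := by
    ext a
    simp
  rw [h3, Finset.card_compl, Finset.card_union_of_disjoint h2, h1]
  unfold Step.q
  congr 1
  ring

/-- the cost of a label -/
def cst (z : ℕ → ℕ) (b : ∀ i, ι i) : ℕ :=
  if ∀ i, ¬ (s i).T (b i) = true → (s i).T ((s i).σ (b i)) = false then z (act s b).card else 0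

theorem sum_cst (z : ℕ → ℕ) : ∑ b, cst s z b ≤
    ∑ U : Finset S, ((∏ i ∈ U, (s i).q) * ∏ i ∈ Uᶜ, (Fintype.card (ι i) - 2 * (s i).q)) *
      z U.card := by
  have h1 : ∀ b, cst s z b ≤ ∑ U : Finset S, (∏ i, if i ∈ U then
      (if (s i).T (b i) = true then 1 else 0)
      else (if ¬ (s i).T (b i) = true ∧ (s i).T ((s i).σ (b i)) = false then 1 else 0)) *
      z U.card := by
    intro b
    unfold cst
    split_ifs with hb
    · refine le_trans ?_ (Finset.single_le_sum (f := fun U : Finset S => (∏ i, if i ∈ U then
        (if (s i).T (b i) = true then 1 else 0)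
        else (if ¬ (s i).T (b i) = true ∧ (s i).T ((s i).σ (b i)) = false then 1 else 0)) *
        z U.card) (fun U _ => Nat.zero_le _) (Finset.mem_univ (act s b)))
      have : (∏ i, if i ∈ act s b then (if (s i).T (b i) = true then 1 else 0)
        else (if ¬ (s i).T (b i) = true ∧ (s i).T ((s i).σ (b i)) = false then 1 else 0)) = 1 := by
        refine Finset.prod_eq_one fun i _ => ?_
        by_cases hi : (s i).T (b i) = true
        · rw [if_pos (by simpa [act] using hi), if_pos hi]
        · rw [if_neg (by simpa [act] using hi), if_pos ⟨hi, hb i hi⟩]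
      simp only [this, one_mul, le_refl]
    · exact Nat.zero_le _
  refine (Finset.sum_le_sum fun b _ => h1 b).trans ?_
  rw [Finset.sum_comm]
  refine Finset.sum_le_sum fun U _ => ?_
  rw [← Finset.sum_mul]
  refine Nat.mul_le_mul_right _ (le_of_eq ?_)
  have h2 := Finset.prod_univ_sum (fun i : S => (Finset.univ : Finset (ι i)))
    (fun i a => if i ∈ U then (if (s i).T a = true then 1 else 0)
        else (if ¬ (s i).T a = true ∧ (s i).T ((s i).σ a) = false then 1 else 0 : ℕ))
  rw [Fintype.piFinset_univ] at h2
  rw [← h2, ← Finset.prod_mul_prod_compl U]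
  congr 1
  · refine Finset.prod_congr rfl fun i hi => ?_
    simp only [hi, if_true]
    rw [← Finset.card_filter]
    rfl
  · refine Finset.prod_congr rfl fun i hi => ?_
    simp only [Finset.mem_compl] at hi
    simp only [hi, if_false]
    rw [← Finset.card_filter]
    exact card_inact (s i)

theorem fiber_cost (lib : Lib) (z : ℕ → ℕ) (hz : ∀ j, MC (ZP (Fin j)) (z j)) (b : ∀ i, ι i) :
    MC ((EE s).submatrix (Subtype.val : {x // lab s x = b} → ∀ i, ι i)
      (Subtype.val : {x // lab s x = b} → ∀ i, ι i)) (cst s z b) := by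
  unfold cst
  split_ifs with hb
  · let e := Equiv.ofBijective _ (fib_bij s b hb)
    let f : act s b ≃ Fin (act s b).card := (act s b).equivFin
    let g : (act s b → Bool) ≃ (Fin (act s b).card → Bool) := f.arrowCongr (Equiv.refl _)
    have h1 := lib.sub (e.trans g) (e.trans g) (hz (act s b).card)
    refine cast ?_ h1
    congr 1
    ext x y
    simp only [Matrix.submatrix_apply]
    rw [EE_fiber s x.2 y.2]
    unfold ZP
    congr 1
    apply propext
    constructor
    · intro h i hi hyi
      have := h (f ⟨i, by simpa [act] using hi⟩)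
      simp only [e, g, Equiv.trans_apply, Equiv.ofBijective_apply, Equiv.arrowCongr_apply,
        Function.comp_apply, Equiv.refl_apply] at this
      rw [Equiv.symm_apply_apply] at this
      exact this hyi
    · intro h k hk
      simp only [e, g, Equiv.trans_apply, Equiv.ofBijective_apply, Equiv.arrowCongr_apply,
        Function.comp_apply, Equiv.refl_apply] at hk ⊢
      refine h _ ?_ hk
      exact (Finset.mem_filter.mp (f.symm k).2).2
  · refine lib.sel ?_
    rintro ⟨x, hx⟩
    exact absurd (fun i hi => (lab_inact s hx hi).2) hb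

end TensProof

open TensProof in
theorem tens_ (lib : Lib) : StTens := by
  intro S _ _ ι _ _ s z hz
  rw [tens_eq]
  refine lib.mono (lib.mul (c := ∏ i, Fintype.card (ι i)) (d := ∑ b, cst s z b) ?_ ?_)
    (Nat.add_le_add_left (sum_cst s z) _)
  · rw [← Fintype.card_pi]
    refine lib.row ?_
    intro x w w' h h'
    unfold RR at h h'
    rw [ne_eq, ite_eq_right_iff, Classical.not_imp] at h h'
    rw [h.1, h'.1]
  · refine lib.block (lab s) (lab s) (cst s z) (fun x y h => EE_lab s h) ?_
    intro b
    exact fiber_cost s lib z hz b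

end Crest.Agent.R324
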