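import Crest.Agent.R324.Defs

set_option autoImplicit false

noncomputable section

namespace Crest.Agent.R324

open Crest.FourierCircuit
open Matrix Finset

theorem tensMul : StTensMul := by
  constructor
  · intro S _ _ ι _ M N
    ext x y
    simp only [tens, Matrix.mul_apply]
    have h := Finset.prod_univ_sum (fun i : S => (Finset.univ : Finset (ι i)))
      (fun i a => M i (x i) a * N i a (y i))
    rw [Fintype.piFinset_univ] at h
    rw [h]
    exact Finset.sum_congr rfl fun w _ => Finset.prod_mul_distrib
  · intro S _ _ ι _ _
    ext x y
    simp only [tens, Matrix.one_apply]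
    by_cases h : x = y
    · subst h; simp
    · rw [if_neg h]
      obtain ⟨i, hi⟩ := Function.ne_iff.mp h
      exact Finset.prod_eq_zero (Finset.mem_univ i) (if_neg hi)

end Crest.Agent.R324
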