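import Crest.Agent.R324.Defs

/-!
# Row 324, task TOEP: Toeplitz operations through circulant matrices
-/

set_option autoImplicit false

noncomputable section

namespace Crest.Agent.R324

open Matrix Finset

namespace ToepAux

variable {ι a b : Type} [Fintype ι] [DecidableEq ι] [Fintype a] [Fintype b]

/-- indicator matrix of a family of registers -/
def In (y : a → ι) : Matrix ι a ℂ := fun i k => if i = y k then 1 else 0

omit [Fintype a] in
theorem In_tr_mul_In [DecidableEq a] {y : a → ι} (hy : Function.Injective y) :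
    (In y)ᵀ * In y = 1 := by
  ext k l
  simp only [Matrix.mul_apply, Matrix.transpose_apply, In, Matrix.one_apply]
  rw [Finset.sum_eq_single (y k)]
  · by_cases h : k = l
    · subst h; simp
    · rw [if_neg h, if_neg (fun h2 => h (hy h2))]; simp
  · intro i _ hi
    simp [hi]
  · intro h; exact absurd (Finset.mem_univ _) h

omit [Fintype a] [Fintype b] in
theorem In_tr_mul_In_of_ne {y : a → ι} {z : b → ι} (h : ∀ k l, y k ≠ z l) :
    (In y)ᵀ * In z = 0 := by
  ext k l
  simp only [Matrix.mul_apply, Matrix.transpose_apply, In, Matrix.zero_apply]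
  refine Finset.sum_eq_zero fun i _ => ?_
  by_cases h1 : i = y k
  · have h2 : i ≠ z l := h1 ▸ h k l
    simp [h2]
  · simp [h1]

omit [Fintype ι] in
theorem Ad_eq (y : a → ι) (z : b → ι) (X : Matrix a b ℂ) :
    Ad y z X = 1 + In y * X * (In z)ᵀ := by
  ext i j
  simp only [Ad, Matrix.add_apply, Matrix.one_apply, Matrix.mul_apply, Matrix.transpose_apply, In]
  congr 1
  rw [Finset.sum_comm]
  refine Finset.sum_congr rfl fun l _ => ?_
  rw [Finset.sum_mul]
  refine Finset.sum_congr rfl fun k _ => ?_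
  by_cases h1 : i = y k <;> by_cases h2 : j = z l <;> simp [h1, h2]

omit [Fintype ι] in
theorem ext_eq [DecidableEq a] {e : a → ι} (he : Function.Injective e) (M : Matrix a a ℂ) :
    ext e M = 1 + In e * (M - 1) * (In e)ᵀ := by
  ext i j
  simp only [ext, Matrix.add_apply, Matrix.one_apply, Matrix.mul_apply, Matrix.transpose_apply, In,
    Matrix.sub_apply]
  by_cases hi : ∃ k, i = e k
  · by_cases hj : ∃ l, j = e l
    · rw [if_pos ⟨hi, hj⟩]
      obtain ⟨k0, rfl⟩ := hi
      obtain ⟨l0, rfl⟩ := hj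
      rw [Finset.sum_eq_single k0, Finset.sum_eq_single l0, Finset.sum_eq_single l0,
        Finset.sum_eq_single k0]
      · by_cases h : k0 = l0
        · subst h; simp
        · have h2 : e k0 ≠ e l0 := fun h3 => h (he h3)
          simp [h, h2]
      · intro k _ hk
        simp [show ¬ e k0 = e k from fun h => hk (he h).symm]
      · intro h; exact absurd (Finset.mem_univ _) h
      · intro l _ hl
        simp [show ¬ e l0 = e l from fun h => hl (he h).symm]
      · intro h; exact absurd (Finset.mem_univ _) h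
      · intro l _ hl
        simp [show ¬ e l0 = e l from fun h => hl (he h).symm]
      · intro h; exact absurd (Finset.mem_univ _) h
      · intro k _ hk
        refine Finset.sum_eq_zero fun l _ => ?_
        simp [show ¬ e k0 = e k from fun h => hk (he h).symm]
      · intro h; exact absurd (Finset.mem_univ _) h
    · rw [if_neg (fun h => hj h.2)]
      symm
      have : (∑ x, (∑ x_1, (if i = e x_1 then (1:ℂ) else 0) * (M x_1 x - if x_1 = x then 1 else 0)) *
          (if j = e x then (1:ℂ) else 0)) = 0 :=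
        Finset.sum_eq_zero fun l _ => by simp [show ¬ j = e l from fun h => hj ⟨l, h⟩]
      rw [this, add_zero]
  · rw [if_neg (fun h => hi h.1)]
    symm
    have : (∑ x, (∑ x_1, (if i = e x_1 then (1:ℂ) else 0) * (M x_1 x - if x_1 = x then 1 else 0)) *
        (if j = e x then (1:ℂ) else 0)) = 0 := by
      refine Finset.sum_eq_zero fun l _ => ?_
      rw [Finset.sum_eq_zero, zero_mul]
      intro k _
      simp [show ¬ i = e k from fun h => hi ⟨k, h⟩]
    rw [this, add_zero]

/-- conjugation of an additive operation by an operation on the sources -/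
theorem Ad_conj [DecidableEq b] {y : a → ι} {z : b → ι} (hz : Function.Injective z)
    (hd : ∀ k l, y k ≠ z l) (X : Matrix a b ℂ) {M M' : Matrix b b ℂ} (hM : M' * M = 1) :
    ext z M' * Ad y z X * ext z M = Ad y z (X * M) := by
  have h1 : (In z)ᵀ * In z = 1 := In_tr_mul_In hz
  have h2 : (In z)ᵀ * In y = 0 := In_tr_mul_In_of_ne fun k l => (hd l k).symm
  have e1 : ext z M' * ext z M = 1 := by
    rw [ext_eq hz, ext_eq hz]
    have : In z * (M' - 1) * (In z)ᵀ * (In z * (M - 1) * (In z)ᵀ) =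
        In z * ((M' - 1) * (M - 1)) * (In z)ᵀ := by
      calc _ = In z * (M' - 1) * ((In z)ᵀ * In z) * (M - 1) * (In z)ᵀ := by
            simp only [Matrix.mul_assoc]
        _ = _ := by rw [h1, Matrix.mul_one]; simp only [Matrix.mul_assoc]
    rw [Matrix.add_mul, Matrix.mul_add, Matrix.mul_add, this, Matrix.one_mul, Matrix.one_mul,
      Matrix.mul_one]
    have h3 : (M' - 1) * (M - 1) = -(M' - 1) - (M - 1) := by
      rw [Matrix.sub_mul, Matrix.mul_sub, Matrix.mul_sub, hM]
      simp only [Matrix.mul_one, Matrix.one_mul]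
      abel
    rw [h3]
    simp only [Matrix.mul_sub, Matrix.sub_mul, Matrix.mul_neg, Matrix.neg_mul, Matrix.mul_one]
    abel
  have e2 : ext z M' * In y = In y := by
    rw [ext_eq hz, Matrix.add_mul, Matrix.one_mul]
    have : In z * (M' - 1) * (In z)ᵀ * In y = 0 := by
      rw [Matrix.mul_assoc, h2, Matrix.mul_zero]
    rw [this, add_zero]
  have e3 : (In z)ᵀ * ext z M = M * (In z)ᵀ := by
    rw [ext_eq hz, Matrix.mul_add, Matrix.mul_one]
    have : (In z)ᵀ * (In z * (M - 1) * (In z)ᵀ) = (M - 1) * (In z)ᵀ := by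
      calc _ = ((In z)ᵀ * In z) * (M - 1) * (In z)ᵀ := by simp only [Matrix.mul_assoc]
        _ = _ := by rw [h1, Matrix.one_mul]
    rw [this, Matrix.sub_mul, Matrix.one_mul]
    abel
  rw [Ad_eq, Ad_eq, Matrix.mul_add, Matrix.add_mul, Matrix.mul_one, e1]
  congr 1
  calc ext z M' * (In y * X * (In z)ᵀ) * ext z M
      = (ext z M' * In y) * X * ((In z)ᵀ * ext z M) := by simp only [Matrix.mul_assoc]
    _ = _ := by rw [e2, e3]; simp only [Matrix.mul_assoc]

theorem Ad_mul {y : a → ι} {z : b → ι} (hd : ∀ k l, y k ≠ z l) (X X' : Matrix a b ℂ) :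
    Ad y z X * Ad y z X' = Ad y z (X + X') := by
  have h2 : (In z)ᵀ * In y = 0 := In_tr_mul_In_of_ne fun k l => (hd l k).symm
  rw [Ad_eq, Ad_eq, Ad_eq, Matrix.add_mul, Matrix.mul_add, Matrix.mul_add]
  have : In y * X * (In z)ᵀ * (In y * X' * (In z)ᵀ) = 0 := by
    calc _ = In y * X * ((In z)ᵀ * In y) * X' * (In z)ᵀ := by simp only [Matrix.mul_assoc]
      _ = _ := by rw [h2]; simp
  rw [this, Matrix.one_mul, Matrix.one_mul, Matrix.mul_one, Matrix.mul_add, Matrix.add_mul]
  abel

omit [Fintype ι] in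
/-- registers outside the sources of a restricted family -/
theorem Ad_restrict {b' : Type} [Fintype b'] [DecidableEq b] (y : a → ι) (z : b → ι) (f : b' → b)
    (X : Matrix a b' ℂ) :
    Ad y (z ∘ f) X = Ad y z (X * (In f : Matrix b b' ℂ)ᵀ) := by
  classical
  rw [Ad_eq, Ad_eq]
  congr 1
  have : (In (z ∘ f) : Matrix ι b' ℂ) = In z * In f := by
    ext i k
    simp only [In, Matrix.mul_apply, Function.comp]
    rw [Finset.sum_eq_single (f k)]
    · simp
    · intro l _ hl; simp [hl]
    · intro h; exact absurd (Finset.mem_univ _) h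
  rw [this, Matrix.transpose_mul]
  simp only [Matrix.mul_assoc]

/-! ### Circulant matrices -/

theorem pow_val_add {Q : ℕ} [NeZero Q] {ω : ℂ} (hω : ω ^ Q = 1) (m : ℕ) (r l : Fin Q) :
    ω ^ (m * ((r + l : Fin Q) : ℕ)) = ω ^ (m * r) * ω ^ (m * l) := by
  rw [Fin.val_add, ← pow_add, ← mul_add]
  have h : ∀ x : ℕ, ω ^ (m * (x % Q)) = ω ^ (m * x) := by
    intro x
    conv_rhs => rw [← Nat.mod_add_div x Q]
    rw [mul_add, pow_add, ← mul_assoc, mul_comm m Q, mul_assoc, pow_mul ω Q, hω, one_pow, mul_one]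
  exact h _

theorem VM_mul_circulant {Q : ℕ} [NeZero Q] {ω : ℂ} (hω : ω ^ Q = 1) (g : Fin Q → ℂ) :
    VM Q ω * circulant g = diagonal (fun m : Fin Q => ∑ r : Fin Q, ω ^ ((m : ℕ) * r) * g r) * VM Q ω := by
  ext m l
  rw [Matrix.diagonal_mul, Matrix.mul_apply]
  simp only [VM, Matrix.circulant_apply]
  rw [← Equiv.sum_comp (Equiv.addRight l), Finset.sum_mul]
  refine Finset.sum_congr rfl fun r _ => ?_
  simp only [Equiv.coe_addRight, add_sub_cancel_right]
  rw [pow_val_add hω]
  ring

theorem VM_inv_mul {Q : ℕ} [NeZero Q] {ω : ℂ} (hω : IsPrimitiveRoot ω Q) :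
    VM Q ω⁻¹ * VM Q ω = (Q : ℂ) • (1 : Matrix (Fin Q) (Fin Q) ℂ) := by
  have hω0 : ω ≠ 0 := hω.ne_zero (NeZero.ne Q)
  ext m l
  rw [Matrix.mul_apply, Matrix.smul_apply, Matrix.one_apply]
  simp only [VM]
  have h1 : ∀ k : Fin Q, ω⁻¹ ^ ((m : ℕ) * k) * ω ^ ((k : ℕ) * l) = (ω⁻¹ ^ (m : ℕ) * ω ^ (l : ℕ)) ^ (k : ℕ) := by
    intro k
    rw [mul_pow, ← pow_mul, ← pow_mul, mul_comm (k : ℕ) (l : ℕ)]
  rw [Finset.sum_congr rfl fun k _ => h1 k, Fin.sum_univ_eq_sum_range (fun k => (ω⁻¹ ^ (m : ℕ) * ω ^ (l : ℕ)) ^ k) Q]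
  by_cases h : m = l
  · subst h
    rw [← mul_pow, inv_mul_cancel₀ hω0, one_pow]
    simp
  · have hz : ω⁻¹ ^ (m : ℕ) * ω ^ (l : ℕ) ≠ 1 := by
      intro h2
      apply h
      have h3 : ω ^ (l : ℕ) = ω ^ (m : ℕ) := by
        rw [inv_pow, inv_mul_eq_one₀ (pow_ne_zero _ hω0)] at h2
        exact h2.symm
      exact (Fin.ext (hω.pow_inj l.2 m.2 h3)).symm
    rw [geom_sum_eq hz, mul_pow, ← pow_mul, ← pow_mul, mul_comm (m : ℕ) Q, mul_comm (l : ℕ) Q, pow_mul,
      pow_mul, inv_pow, hω.pow_eq_one]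
    simp [h]

theorem VM_mul_inv {Q : ℕ} [NeZero Q] {ω : ℂ} (hω : IsPrimitiveRoot ω Q) :
    VM Q ω * VM Q ω⁻¹ = (Q : ℂ) • (1 : Matrix (Fin Q) (Fin Q) ℂ) := by
  have := VM_inv_mul hω.inv
  rwa [inv_inv] at this

/-- a circulant matrix plus a scalar is an in-place product with inverse -/
theorem circ_steps (slib : SLib) (hfft : StFFT) (j Q : ℕ) [NeZero Q] (hQ : Q = 2 ^ j)
    (g : Fin Q → ℂ) :
    ∃ (lam : ℂ) (M' : Matrix (Fin Q) (Fin Q) ℂ),
      M' * (circulant g + lam • 1) = 1 ∧ Steps (circulant g + lam • 1) (24 * j + 3) ∧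
      Steps M' (24 * j + 3) := by
  have hQ0 : (Q : ℂ) ≠ 0 := by rw [hQ]; exact_mod_cast (pow_ne_zero j two_ne_zero)
  set ω : ℂ := Complex.exp (2 * Real.pi * Complex.I / Q) with hωdef
  have hω : IsPrimitiveRoot ω Q := Complex.isPrimitiveRoot_exp Q (NeZero.ne Q)
  set D : Fin Q → ℂ := fun m => ∑ r : Fin Q, ω ^ ((m : ℕ) * r) * g r with hD
  have hFC : VM Q ω * circulant g = diagonal D * VM Q ω := VM_mul_circulant hω.pow_eq_one g
  obtain ⟨lam, hlam⟩ := Infinite.exists_notMem_finset (Finset.univ.image fun m => - D m)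
  have hne : ∀ m, D m + lam ≠ 0 := by
    intro m h
    apply hlam
    rw [Finset.mem_image]
    exact ⟨m, Finset.mem_univ m, by linear_combination -h⟩
  have hF : VM Q ω * (circulant g + lam • 1) = diagonal (fun m => D m + lam) * VM Q ω := by
    rw [Matrix.mul_add, hFC, Matrix.mul_smul, Matrix.mul_one]
    have : (diagonal fun m => D m + lam) = diagonal D + lam • (1 : Matrix (Fin Q) (Fin Q) ℂ) := by
      rw [← Matrix.diagonal_one, ← Matrix.diagonal_smul, Matrix.diagonal_add]
      congr 1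
      ext m
      simp
    rw [this, Matrix.add_mul, Matrix.smul_mul, Matrix.one_mul]
  have hM : circulant g + lam • 1 =
      VM Q ω⁻¹ * diagonal (fun m => (D m + lam) * (Q : ℂ)⁻¹) * VM Q ω := by
    have h1 : VM Q ω⁻¹ * (VM Q ω * (circulant g + lam • 1)) =
        (Q : ℂ) • (circulant g + lam • (1 : Matrix (Fin Q) (Fin Q) ℂ)) := by
      rw [← Matrix.mul_assoc, VM_inv_mul hω, Matrix.smul_mul, Matrix.one_mul]
    rw [hF, ← Matrix.mul_assoc] at h1
    have h2 : (diagonal fun m => (D m + lam) * (Q : ℂ)⁻¹) = (Q : ℂ)⁻¹ • diagonal (fun m => D m + lam) := by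
      rw [← Matrix.diagonal_smul]
      congr 1
      ext m
      simp [mul_comm]
    rw [h2, Matrix.mul_smul, Matrix.smul_mul, h1, smul_smul, inv_mul_cancel₀ hQ0, one_smul]
  have hV : ∀ w : ℂ, IsPrimitiveRoot w Q → Steps (VM Q w) (12 * j + 1) := by
    subst hQ
    exact fun w hw => hfft slib j w hw
  have hF1 : Steps (VM Q ω) (12 * j + 1) := hV ω hω
  have hF2 : Steps (VM Q ω⁻¹) (12 * j + 1) := hV ω⁻¹ hω.inv
  have hS : ∀ d : Fin Q → ℂ, Steps (VM Q ω⁻¹ * diagonal d * VM Q ω) (24 * j + 3) := by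
    intro d
    have := slib.mul (slib.mul hF2 (slib.diag d)) hF1
    exact slib.mono this (by omega)
  refine ⟨lam, VM Q ω⁻¹ * diagonal (fun m => (D m + lam)⁻¹ * (Q : ℂ)⁻¹) * VM Q ω, ?_, ?_, hS _⟩
  · rw [Matrix.mul_assoc, hF, ← Matrix.mul_assoc, Matrix.mul_assoc (VM Q ω⁻¹), Matrix.diagonal_mul_diagonal]
    have h2 : (diagonal fun m => (D m + lam)⁻¹ * (Q : ℂ)⁻¹ * (D m + lam)) =
        (Q : ℂ)⁻¹ • (1 : Matrix (Fin Q) (Fin Q) ℂ) := by
      rw [← Matrix.diagonal_one, ← Matrix.diagonal_smul]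
      congr 1
      ext m
      have := hne m
      simp
      field_simp
    rw [h2, Matrix.mul_smul, Matrix.mul_one, Matrix.smul_mul, VM_inv_mul hω, smul_smul,
      inv_mul_cancel₀ hQ0, one_smul]
  · rw [hM]; exact hS _

end ToepAux

open ToepAux in
theorem toep : StToep := by
  intro slib hfft
  refine ⟨100, ?_⟩
  intro ι _ _ a b j y v c hab hy hv hyv
  have hQpos : 0 < 2 ^ j := by positivity
  have : NeZero (2 ^ j) := ⟨hQpos.ne'⟩
  let g : Fin (2 ^ j) → ℂ := fun r => if (r : ℕ) < a then c (r : ℕ) else c (((r : ℕ) : ℤ) - ((2 ^ j : ℕ) : ℤ))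
  obtain ⟨lam, M', hM'M, hM, hM'⟩ := circ_steps slib hfft j (2 ^ j) rfl g
  set M : Matrix (Fin (2 ^ j)) (Fin (2 ^ j)) ℂ := circulant g + lam • 1 with hMdef
  have haQ : a ≤ 2 ^ j := by omega
  let f : Fin a → Fin (2 ^ j) := Fin.castLE haQ
  have hf : Function.Injective f := Fin.castLE_injective haQ
  let X0 : Matrix (Fin a) (Fin (2 ^ j)) ℂ := diagonal (fun _ => (1 / 2 : ℂ)) * (In f)ᵀ
  let c3 : Fin a → ℂ := fun k => if (k : ℕ) < b then -lam else 0
  let X3 : Matrix (Fin a) (Fin (2 ^ j)) ℂ := diagonal c3 * (In f)ᵀ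
  have hS0 : Steps (Ad y v X0) 3 := by
    have := slib.trans y (v ∘ f) hy (hv.comp hf) (fun k l => hyv k (f l)) (fun _ => (1 / 2 : ℂ))
    rwa [Ad_restrict] at this
  have hS3 : Steps (Ad y v X3) 3 := by
    have := slib.trans y (v ∘ f) hy (hv.comp hf) (fun k l => hyv k (f l)) c3
    rwa [Ad_restrict] at this
  have hS1 : Steps (Ad y v (X0 * M)) (48 * j + 9) := by
    have := slib.mul (slib.mul (slib.ext v hv hM') hS0) (slib.ext v hv hM)
    rw [Ad_conj hv hyv X0 hM'M] at this
    exact slib.mono this (by omega)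
  let s : Fin (2 ^ j) → ℂ := fun l => if (l : ℕ) < b then 1 else -1
  have hss : diagonal s * diagonal s = (1 : Matrix (Fin (2 ^ j)) (Fin (2 ^ j)) ℂ) := by
    rw [Matrix.diagonal_mul_diagonal, ← Matrix.diagonal_one]
    congr 1
    ext l
    by_cases h : (l : ℕ) < b <;> simp [s, h]
  have hS2 : Steps (Ad y v (X0 * M * diagonal s)) (48 * j + 11) := by
    have hd := slib.ext v hv (slib.diag s)
    have := slib.mul (slib.mul hd hS1) hd
    rw [Ad_conj hv hyv (X0 * M) hss] at this
    exact slib.mono this (by omega)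
  have hS := slib.mul (slib.mul hS1 hS2) hS3
  rw [Ad_mul hyv, Ad_mul hyv] at hS
  have hbQ : b ≤ 2 ^ j := by omega
  let Xc : Matrix (Fin a) (Fin b) ℂ := fun k l => c ((k : ℤ) - (l : ℤ))
  have hfin : X0 * M + X0 * M * diagonal s + X3 = Xc * (In (Fin.castLE hbQ))ᵀ := by
    ext k l
    have hX0M : (X0 * M) k l = 1 / 2 * M (f k) l := by
      have hX0 : ∀ i, X0 k i = 1 / 2 * (if i = f k then 1 else 0) := by
        intro i
        exact Matrix.diagonal_mul _ _ _ _
      rw [Matrix.mul_apply, Finset.sum_eq_single (f k)]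
      · rw [hX0, if_pos rfl, mul_one]
      · intro i _ hi
        rw [hX0, if_neg hi, mul_zero, zero_mul]
      · intro h; exact absurd (Finset.mem_univ _) h
    have hX3 : X3 k l = c3 k * (if l = f k then 1 else 0) := by
      simp only [X3, Matrix.diagonal_mul, Matrix.transpose_apply, In]
    rw [Matrix.add_apply, Matrix.add_apply, Matrix.mul_diagonal, hX0M, hX3]
    have hR : (Xc * (In (Fin.castLE hbQ))ᵀ) k l =
        if (l : ℕ) < b then c ((k : ℤ) - (l : ℤ)) else 0 := by
      simp only [Matrix.mul_apply, Matrix.transpose_apply, In, Xc]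
      by_cases hl : (l : ℕ) < b
      · rw [if_pos hl, Finset.sum_eq_single ⟨l, hl⟩]
        · simp
        · intro i _ hi
          rw [if_neg, mul_zero]
          intro h
          apply hi
          have h2 := congrArg Fin.val h
          ext
          simpa using h2.symm
        · intro h; exact absurd (Finset.mem_univ _) h
      · rw [if_neg hl]
        refine Finset.sum_eq_zero fun i _ => ?_
        rw [if_neg, mul_zero]
        intro h
        apply hl
        have h2 := congrArg Fin.val h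
        have h3 := i.2
        simp only [Fin.val_castLE] at h2
        omega
    rw [hR]
    by_cases hl : (l : ℕ) < b
    · rw [if_pos hl]
      have hMkl : M (f k) l = c ((k : ℤ) - (l : ℤ)) + lam * (if l = f k then 1 else 0) := by
        simp only [hMdef, Matrix.add_apply, Matrix.circulant_apply, Matrix.smul_apply, Matrix.one_apply,
          smul_eq_mul]
        congr 1
        · have hk := k.2
          have hl2 := l.2
          have hfk : (f k : ℕ) = k := rfl
          have hval : ((f k - l : Fin (2 ^ j)) : ℕ) = (2 ^ j - (l : ℕ) + k) % 2 ^ j := by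
            rw [Fin.val_sub, hfk]
          simp only [g]
          by_cases hkl : (l : ℕ) ≤ k
          · have h1 : ((f k - l : Fin (2 ^ j)) : ℕ) = k - l := by
              rw [hval, show 2 ^ j - (l : ℕ) + k = (k - l) + 2 ^ j by omega, Nat.add_mod_right,
                Nat.mod_eq_of_lt (by omega)]
            rw [h1, if_pos (by omega)]
            congr 1
            omega
          · have h1 : ((f k - l : Fin (2 ^ j)) : ℕ) = 2 ^ j - (l - k) := by
              rw [hval, show 2 ^ j - (l : ℕ) + k = 2 ^ j - (l - k) by omega, Nat.mod_eq_of_lt (by omega)]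
            rw [h1, if_neg (by omega)]
            congr 1
            omega
        · congr 1
          by_cases h : l = f k
          · rw [if_pos h, if_pos h.symm]
          · rw [if_neg h, if_neg (fun h2 => h h2.symm)]
      rw [hMkl]
      have hsl : s l = 1 := by simp [s, hl]
      rw [hsl]
      by_cases h : l = f k
      · have hk : (k : ℕ) < b := by
          have : (l : ℕ) = k := by rw [h]; rfl
          omega
        simp [h, c3, hk]
        ring
      · simp [h]
        ring
    · rw [if_neg hl]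
      have hsl : s l = -1 := by simp [s, hl]
      rw [hsl]
      by_cases h : l = f k
      · have hk : ¬ (k : ℕ) < b := by
          have : (l : ℕ) = k := by rw [h]; rfl
          omega
        simp [h, c3, hk]
      · simp [h]
  rw [hfin, ← Ad_restrict] at hS
  exact slib.mono hS (by omega)

end Crest.Agent.R324
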