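import Crest.Agent.R324.CDefs
import Crest.Agent.R324.BSec
import Crest.Agent.R324.DBL
import Crest.Agent.R324.REC

set_option autoImplicit false

noncomputable section

namespace Crest.Agent.R324

open Matrix Finset

namespace TRV

/-- layers of a program -/
theorem layers (r b n : ℕ) (h : StarSched r b n) :
    ∃ l : List (TS (Fin r → Option (Fin b))), l.length ≤ n ∧ (∀ s ∈ l, s.q = 1) ∧
      ∀ f, TS.run l f = starop r b f := by
  obtain ⟨l, hn, hne, hrun⟩ := h
  have hc : ∀ p ∈ l, ((p.2.2 : ℤ) : ℂ) ≠ 0 := fun p hp => by exact_mod_cast (hne p hp).2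
  let f : {p // p ∈ l} → TS (Fin r → Option (Fin b)) := fun p =>
    TS.tv p.1.1 p.1.2.1 (hne p.1 p.2).1 ((p.1.2.2 : ℤ) : ℂ) (hc p.1 p.2)
  refine ⟨(l.attach.map f).reverse, ?_, ?_, ?_⟩
  · simpa using hn
  · intro s hs
    rw [List.mem_reverse, List.mem_map] at hs
    obtain ⟨p, _, rfl⟩ := hs
    exact TS.tv_q _ _ _ _ _
  · intro v
    rw [← hrun v]
    unfold TS.run runl
    rw [List.foldr_reverse, List.foldl_map]
    have e : ∀ (L : List {p // p ∈ l}) (w : (Fin r → Option (Fin b)) → ℂ),
        List.foldl (fun x y => (f y).op x) w L =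
        List.foldl (fun x y => tvop y x) w (L.map Subtype.val) := by
      intro L
      induction L with
      | nil => intro w; rfl
      | cons p L ih =>
        intro w
        rw [List.foldl_cons, List.map_cons, List.foldl_cons, ih]
        congr 1
        ext i
        rw [TS.tv_op]
        unfold tvop
        by_cases hi : i = p.1.1
        · rw [if_pos hi, hi, Function.update_self]
        · rw [if_neg hi, Function.update_of_ne hi, add_zero]
    rw [e, List.attach_map_subtype_val]

theorem starop_mat (r b : ℕ) (f : (Fin r → Option (Fin b)) → ℂ) :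
    (tens (S := Fin r) (ι := fun _ => Option (Fin b)) fun _ => SM (Fin b)).mulVec f =
      starop r b f := by
  ext c
  simp only [Matrix.mulVec, dotProduct, tens, starop]
  apply Finset.sum_congr rfl
  intro c' _
  by_cases h : ∀ j, c' j = c j ∨ c' j = none
  · rw [if_pos h, Finset.prod_eq_one, one_mul]
    intro j _
    rcases h j with h' | h'
    · simp [SM, h']
    · simp [SM, h']
  · rw [if_neg h]
    push Not at h
    obtain ⟨j, h1, h2⟩ := h
    rw [Finset.prod_eq_zero (mem_univ j), zero_mul]
    unfold SM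
    rw [if_neg]
    rintro (h' | h')
    · exact h1 h'.symm
    · exact h2 h'

theorem cost_step (lib : Lib) (st : StTens) {ι : Type} [Fintype ι] [DecidableEq ι] (z : ℕ → ℕ)
    (z0 : z 0 = 0) (hz : ∀ j, MC (ZP (Fin j)) (z j)) (k : ℕ) (s : TS ι) (hq : s.q = 1) :
    MC (tens (S := Fin k) (ι := fun _ => ι) fun _ => s.mat)
      (2 * Fintype.card ι ^ k + ∑ U : Finset (Fin k), (Fintype.card ι - 2) ^ (k - U.card) *
        z U.card) := by
  have h1 := st (Fin k) (fun _ => ι) (fun _ => s.st1) z hz
  have h2 := st (Fin k) (fun _ => ι) (fun _ => s.st2) z hz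
  have hq1 : s.st1.q = 1 := hq
  have hq2 : s.st2.q = 0 := by simp [Step.q, TS.st2]
  have e : (tens (S := Fin k) (ι := fun _ => ι) fun _ => s.mat) =
      (tens (S := Fin k) (ι := fun _ => ι) fun _ => s.st1.mat) *
      (tens (S := Fin k) (ι := fun _ => ι) fun _ => s.st2.mat) := by
    ext x y
    simp only [Matrix.mul_apply, tens, ← TS.st_mat s]
    rw [Finset.prod_univ_sum]
    rw [Fintype.piFinset_univ]
    simp only [Finset.prod_mul_distrib]
  rw [e]
  refine lib.mono (lib.mul h1 h2) ?_
  rw [hq1, hq2]
  have e2 : ∑ U : Finset (Fin k), ((∏ i ∈ U, 0) * ∏ i ∈ Uᶜ, (Fintype.card ι - 2 * 0)) * z U.card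
      = 0 := by
    apply Finset.sum_eq_zero
    intro U _
    rcases U.eq_empty_or_nonempty with rfl | ⟨i, hi⟩
    · simp [z0]
    · rw [Finset.prod_eq_zero hi rfl]
      simp
  rw [e2]
  simp only [Finset.prod_const, Finset.card_univ, Fintype.card_fin, one_pow, one_mul, mul_one,
    Finset.card_compl]
  omega

end TRV

open TRV in
theorem trv : StTrv := by
  intro lib st tm B n z hs z0 hz k
  obtain ⟨l, hn, hq, hrun⟩ := layers 3 B n hs
  unfold SC
  rw [DBL.tens_cu]
  refine lib.sub _ _ ?_
  have e1 : (tens fun _ : Fin 3 => SM (Fin B)) = (l.map TS.mat).prod := by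
    apply TS.eq_of_mulVec
    intro v
    rw [starop_mat, TS.prod_mulVec, hrun]
  rw [e1]
  have key : ∀ L : List (TS (Fin 3 → Option (Fin B))), (∀ s ∈ L, s.q = 1) →
      MC (tens (S := Fin k) (ι := fun _ => Fin 3 → Option (Fin B)) fun _ => (L.map TS.mat).prod)
        (L.length * (2 * ((B + 1) ^ 3) ^ k +
          ∑ U : Finset (Fin k), ((B + 1) ^ 3 - 2) ^ (k - U.card) * z U.card)) := by
    intro L hL
    induction L with
    | nil =>
      simp only [List.map_nil, List.prod_nil, List.length_nil, zero_mul]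
      rw [tm.2]
      exact REC.mc_one lib
    | cons s L ih =>
      simp only [List.map_cons, List.prod_cons, List.length_cons]
      rw [tm.1]
      have h1 := cost_step lib st z z0 hz k s (hL s List.mem_cons_self)
      have h2 := ih (fun s hs => hL s (List.mem_cons_of_mem _ hs))
      have hc : Fintype.card (Fin 3 → Option (Fin B)) = (B + 1) ^ 3 := by simp
      rw [hc] at h1
      refine lib.mono (lib.mul h1 h2) (le_of_eq ?_)
      ring
  refine lib.mono (key l hq) ?_
  exact Nat.mul_le_mul_right _ hn

end Crest.Agent.R324
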