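import Crest.Agent.R324.Defs
import Crest.Agent.R324.REC

set_option autoImplicit false

namespace Crest.Agent.R324

open Finset Matrix

namespace TSTEPS

theorem layer_bound {S : Type} [Fintype S] [DecidableEq S] (c q : S → ℕ) (hq : ∀ i, 2 * q i ≤ c i)
    (z : ℕ → ℕ) (K θ : ℝ) (hK : 0 ≤ K) (hθ : 0 < θ)
    (hz : ∀ j, (z j : ℝ) ≤ K * 2 ^ j * (j : ℝ) ^ θ) :
    (((∏ i, c i) + ∑ U : Finset S, ((∏ i ∈ U, q i) * ∏ i ∈ Uᶜ, (c i - 2 * q i)) * z U.card : ℕ) : ℝ)
      ≤ (∏ i, (c i : ℝ)) * (1 + K * (Fintype.card S : ℝ) ^ θ) := by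
  push_cast
  rw [mul_add, mul_one]
  have h1 : ∑ U : Finset S, ((∏ i ∈ U, (q i : ℝ)) * ∏ i ∈ Uᶜ, (((c i - 2 * q i : ℕ)) : ℝ)) *
      (z U.card : ℝ) ≤
      ∑ U : Finset S, ((∏ i ∈ U, (2 * (q i : ℝ))) * ∏ i ∈ univ \ U, ((c i : ℝ) - 2 * (q i : ℝ))) *
      (K * (Fintype.card S : ℝ) ^ θ) := by
    apply Finset.sum_le_sum
    intro U _
    have e1 : ∏ i ∈ Uᶜ, (((c i - 2 * q i : ℕ)) : ℝ) =
        ∏ i ∈ univ \ U, ((c i : ℝ) - 2 * (q i : ℝ)) := by
      rw [Finset.compl_eq_univ_sdiff]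
      apply Finset.prod_congr rfl
      intro i _
      rw [Nat.cast_sub (hq i)]
      push_cast
      ring
    rw [e1, Finset.prod_mul_distrib, Finset.prod_const]
    have hA : 0 ≤ ∏ i ∈ U, (q i : ℝ) := Finset.prod_nonneg fun i _ => by positivity
    have hB : 0 ≤ ∏ i ∈ univ \ U, ((c i : ℝ) - 2 * (q i : ℝ)) := by
      apply Finset.prod_nonneg
      intro i _
      have : (2 * (q i : ℝ)) ≤ c i := by exact_mod_cast hq i
      linarith
    have h3 : (z U.card : ℝ) ≤ K * 2 ^ U.card * (Fintype.card S : ℝ) ^ θ := by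
      refine (hz _).trans ?_
      apply mul_le_mul_of_nonneg_left _ (by positivity)
      apply Real.rpow_le_rpow (by positivity) _ hθ.le
      exact_mod_cast Finset.card_le_univ U
    calc (∏ i ∈ U, (q i : ℝ)) * (∏ i ∈ univ \ U, ((c i : ℝ) - 2 * (q i : ℝ))) * (z U.card : ℝ)
        ≤ (∏ i ∈ U, (q i : ℝ)) * (∏ i ∈ univ \ U, ((c i : ℝ) - 2 * (q i : ℝ))) *
          (K * 2 ^ U.card * (Fintype.card S : ℝ) ^ θ) :=
          mul_le_mul_of_nonneg_left h3 (mul_nonneg hA hB)
      _ = _ := by ring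
  have h2 : ∑ U : Finset S, ((∏ i ∈ U, (2 * (q i : ℝ))) *
      ∏ i ∈ univ \ U, ((c i : ℝ) - 2 * (q i : ℝ))) = ∏ i, (c i : ℝ) := by
    have := Finset.prod_add (fun i => 2 * (q i : ℝ)) (fun i => (c i : ℝ) - 2 * (q i : ℝ))
      (univ : Finset S)
    rw [Finset.powerset_univ] at this
    rw [← this]
    apply Finset.prod_congr rfl
    intro i _
    ring
  rw [← Finset.sum_mul, h2] at h1
  linarith

end TSTEPS

theorem tensSteps : StTensSteps := by
  intro lib st tm K θ hK hθ ⟨z, hz1, hz2⟩ S _ _ ι _ _ M L hM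
  induction L generalizing M with
  | zero =>
    have h1 : M = fun i => (1 : Matrix (ι i) (ι i) ℂ) := by
      funext i
      obtain ⟨l, hl, hp⟩ := hM i
      rw [List.length_eq_zero_iff] at hl
      rw [← hp, hl]
      simp
    refine ⟨0, ?_, by simp⟩
    rw [h1, tm.2 S ι]
    exact REC.mc_one lib
  | succ L ih =>
    choose l hl hp using hM
    have hne : ∀ i, ∃ (s : Step (ι i)) (l' : List (Step (ι i))), l i = s :: l' := by
      intro i
      cases h : l i with
      | nil => have := hl i; rw [h] at this; simp at this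
      | cons s l' => exact ⟨s, l', rfl⟩
    choose s l' hs using hne
    have hlen : ∀ i, (l' i).length = L := by
      intro i
      have := hl i
      rw [hs i, List.length_cons] at this
      omega
    obtain ⟨c2, hc2, hb2⟩ := ih (fun i => ((l' i).map Step.mat).prod)
      (fun i => ⟨l' i, hlen i, rfl⟩)
    have hMi : M = fun i => (s i).mat * ((l' i).map Step.mat).prod := by
      funext i
      rw [← hp i, hs i]
      simp
    have h1 := st S ι s z hz1
    have hmul := lib.mul h1 hc2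
    rw [← tm.1 S ι] at hmul
    refine ⟨_, by rw [hMi]; exact hmul, ?_⟩
    rw [Nat.cast_add]
    have h3 := TSTEPS.layer_bound (fun i => Fintype.card (ι i)) (fun i => (s i).q)
      (fun i => REC.two_q_le (s i)) z K θ hK hθ hz2
    push_cast at h3 ⊢
    have : ((L:ℝ) + 1) * (∏ i, (Fintype.card (ι i) : ℝ)) * (1 + K * (Fintype.card S : ℝ) ^ θ) =
      L * (∏ i, (Fintype.card (ι i) : ℝ)) * (1 + K * (Fintype.card S : ℝ) ^ θ) +
      (∏ i, (Fintype.card (ι i) : ℝ)) * (1 + K * (Fintype.card S : ℝ) ^ θ) := by ring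
    rw [this]
    linarith

end Crest.Agent.R324
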